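import Crest.Agent.R128.Defs

/-! Rising-sun (greedy covering) lemmas and elementary facts on `cnt`. -/

set_option autoImplicit false

noncomputable section

open MeasureTheory Set

namespace Crest.Agent.R128

/-- Greedy covering.  Induction on `b - a`: if `a ∉ S` pass to `a + 1`; if `a ∈ S` with witness `t'`,
then `#S ≤ (t' - a) + #(S ∩ [t', ∞))`. -/
theorem sun_right (D : ℤ → ℤ → ℝ) (hnn : ∀ a b, a < b → 0 ≤ D a b)
    (hsup : ∀ a b c, a < b → b < c → D a b + D b c ≤ D a c) (a b : ℤ) (hab : a < b) (S : Finset ℤ)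
    (hS : ∀ t ∈ S, a ≤ t ∧ ∃ t', t < t' ∧ t' ≤ b ∧ (t' : ℝ) - t ≤ D t t') :
    (S.card : ℝ) ≤ D a b := by
  set E : ℤ → ℤ → ℝ := fun x y => if x < y then D x y else 0 with hE
  have hE0 : ∀ x y, 0 ≤ E x y := fun x y => by
    simp only [hE]; split_ifs with h
    · exact hnn x y h
    · exact le_rfl
  have hEs : ∀ x y z, x ≤ y → y ≤ z → E x y + E y z ≤ E x z := fun x y z h1 h2 => by
    rcases h1.eq_or_lt with rfl | h1
    · simp [hE]
    rcases h2.eq_or_lt with rfl | h2
    · simp [hE]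
    simp only [hE, if_pos h1, if_pos h2, if_pos (h1.trans h2)]
    exact hsup x y z h1 h2
  have key : ∀ (S : Finset ℤ) (a : ℤ), a ≤ b →
      (∀ t ∈ S, a ≤ t ∧ ∃ t', t < t' ∧ t' ≤ b ∧ (t' : ℝ) - t ≤ D t t') → (S.card : ℝ) ≤ E a b := by
    intro S
    induction S using Finset.strongInduction with
    | H S ih =>
      intro a hab hS
      rcases S.eq_empty_or_nonempty with rfl | hne
      · simpa using hE0 a b
      obtain ⟨h1, t', h2, h3, h4⟩ := hS _ (S.min'_mem hne)
      set t := S.min' hne with ht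
      have h5 := ih (S.filter fun s => ¬ s < t')
        (Finset.filter_ssubset.2 ⟨t, S.min'_mem hne, by simpa using h2⟩) t' h3
        fun s hs => ⟨not_lt.1 (Finset.mem_filter.1 hs).2, (hS s (Finset.mem_filter.1 hs).1).2⟩
      have h6 : ((S.filter fun s => s < t').card : ℝ) ≤ (t' : ℝ) - t := by
        have h7 := Finset.card_le_card (s := S.filter fun s => s < t') (t := Finset.Ico t t')
          fun s hs => Finset.mem_Ico.2 ⟨S.min'_le s (Finset.mem_filter.1 hs).1,
            (Finset.mem_filter.1 hs).2⟩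
        rw [Int.card_Ico] at h7
        have h8 : ((S.filter fun s => s < t').card : ℤ) ≤ t' - t := by omega
        exact_mod_cast h8
      have h7 : (S.card : ℝ) = (S.filter fun s => s < t').card + (S.filter fun s => ¬ s < t').card := by
        exact_mod_cast (Finset.card_filter_add_card_filter_not (s := S) (fun s => s < t')).symm
      have h8 : E t t' = D t t' := if_pos h2
      linarith [hEs a t b h1 (h2.le.trans h3), hEs t t' b h2.le h3, hE0 a t]
  have := key S a hab.le hS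
  simpa only [hE, if_pos hab] using this

/-- Mirror image of `sun_right` (apply it to `D' x y = D (-y) (-x)`). -/
theorem sun_left (D : ℤ → ℤ → ℝ) (hnn : ∀ a b, a < b → 0 ≤ D a b)
    (hsup : ∀ a b c, a < b → b < c → D a b + D b c ≤ D a c) (a b : ℤ) (hab : a < b) (S : Finset ℤ)
    (hS : ∀ t ∈ S, t ≤ b ∧ ∃ t', a ≤ t' ∧ t' < t ∧ (t : ℝ) - t' ≤ D t' t) :
    (S.card : ℝ) ≤ D a b := by
  have := sun_right (fun x y => D (-y) (-x)) (fun x y h => hnn _ _ (by omega))
    (fun x y z h1 h2 => by linarith [hsup (-z) (-y) (-x) (by omega) (by omega)]) (-b) (-a) (by omega)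
    (S.image fun t => -t) (fun t ht => by
      obtain ⟨s, hs, rfl⟩ := Finset.mem_image.1 ht
      obtain ⟨h1, t', h2, h3, h4⟩ := hS s hs
      refine ⟨by omega, -t', by omega, by omega, ?_⟩
      simp only [neg_neg]
      push_cast
      linarith)
  rw [Finset.card_image_of_injective _ neg_injective] at this
  simpa using this

theorem cnt_mono {P Q : ℤ → Prop} {a b a' b' : ℤ}
    (h : ∀ t, a ≤ t → t ≤ b → P t → a' ≤ t ∧ t ≤ b' ∧ Q t) : cnt P a b ≤ cnt Q a' b' := by
  classical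
  refine Finset.card_le_card fun t ht => ?_
  simp only [Finset.mem_filter, Finset.mem_Icc] at ht ⊢
  obtain ⟨h1, h2, h3⟩ := h t ht.1.1 ht.1.2 ht.2
  exact ⟨⟨h1, h2⟩, h3⟩

theorem cnt_or {P Q R : ℤ → Prop} {a b : ℤ} (h : ∀ t, a ≤ t → t ≤ b → P t → Q t ∨ R t) :
    cnt P a b ≤ cnt Q a b + cnt R a b := by
  classical
  refine le_trans (Finset.card_le_card fun t ht => ?_) (Finset.card_union_le _ _)
  simp only [Finset.mem_filter, Finset.mem_Icc, Finset.mem_union] at ht ⊢
  rcases h t ht.1.1 ht.1.2 ht.2 with h1 | h1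
  · exact Or.inl ⟨ht.1, h1⟩
  · exact Or.inr ⟨ht.1, h1⟩

theorem cnt_split (P : ℤ → Prop) {a b c : ℤ} (hab : a ≤ b + 1) (hbc : b ≤ c) :
    cnt P a b + cnt P (b + 1) c = cnt P a c := by
  classical
  unfold cnt
  rw [← Finset.card_union_of_disjoint]
  · congr 1
    ext t
    simp only [Finset.mem_filter, Finset.mem_Icc, Finset.mem_union]
    constructor
    · rintro (⟨h1, h2⟩ | ⟨h1, h2⟩) <;> exact ⟨by omega, h2⟩
    · rintro ⟨h1, h2⟩
      by_cases ht : t ≤ b
      · exact Or.inl ⟨by omega, h2⟩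
      · exact Or.inr ⟨by omega, h2⟩
  · rw [Finset.disjoint_left]
    intro t h1 h2
    simp only [Finset.mem_filter, Finset.mem_Icc] at h1 h2
    omega

theorem cnt_empty (P : ℤ → Prop) {a b : ℤ} (h : b < a) : cnt P a b = 0 := by
  simp [cnt, Finset.Icc_eq_empty_of_lt h]

theorem cnt_all {P : ℤ → Prop} {a b : ℤ} (hab : a ≤ b + 1) (h : ∀ t, a ≤ t → t ≤ b → P t) :
    (cnt P a b : ℝ) = (b : ℝ) - a + 1 := by
  classical
  unfold cnt
  rw [Finset.filter_true_of_mem fun t ht => h t (Finset.mem_Icc.1 ht).1 (Finset.mem_Icc.1 ht).2,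
    Int.card_Icc]
  have : (((b + 1 - a).toNat : ℕ) : ℤ) = b - a + 1 := by omega
  exact_mod_cast this

theorem cnt_le (P : ℤ → Prop) {a b : ℤ} (hab : a ≤ b + 1) : (cnt P a b : ℝ) ≤ (b : ℝ) - a + 1 := by
  rw [← cnt_all (P := fun _ => True) hab fun _ _ _ => trivial]
  exact_mod_cast cnt_mono fun t h1 h2 _ => ⟨h1, h2, trivial⟩

theorem cnt_shift (P : ℤ → Prop) (a b t : ℤ) :
    cnt (fun s => P (s + t)) a b = cnt P (a + t) (b + t) := by
  unfold cnt
  refine Finset.card_bij (fun s _ => s + t) (fun s hs => ?_) (fun s _ s' _ e => by simpa using e)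
    fun s hs => ⟨s - t, ?_, by simp⟩
  · simp only [Finset.mem_filter, Finset.mem_Icc] at hs ⊢
    exact ⟨by omega, hs.2⟩
  · simp only [Finset.mem_filter, Finset.mem_Icc, sub_add_cancel] at hs ⊢
    exact ⟨by omega, hs.2⟩

open Classical in
theorem cnt_eq_sum (P : ℤ → Prop) (a b : ℤ) :
    (cnt P a b : ℝ) = ∑ t ∈ Finset.Icc a b, if P t then (1 : ℝ) else 0 := by
  simp [cnt]

/-- Points having a `P`-point at distance `< g` on their left. -/
theorem cnt_near (P : ℤ → Prop) (a b : ℤ) (g : ℕ) :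
    cnt (fun t => ∃ s, a ≤ s ∧ s ≤ t ∧ t - s < g ∧ P s) a b ≤ g * cnt P a b := by
  classical
  unfold cnt
  refine le_trans (Finset.card_le_card (t := ((Finset.Icc a b).filter P).biUnion
    fun s => Finset.Ico s (s + g)) fun t ht => ?_) (Finset.card_biUnion_le.trans (le_of_eq ?_))
  · simp only [Finset.mem_filter, Finset.mem_Icc, Finset.mem_biUnion, Finset.mem_Ico] at ht ⊢
    obtain ⟨h1, s, h2, h3, h4, h5⟩ := ht
    exact ⟨s, ⟨by omega, h5⟩, by omega⟩
  · simp [mul_comm]

open Classical in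
theorem sun_mem_cnt {P : ℤ → Prop} {a b t : ℤ} :
    t ∈ (Finset.Icc a b).filter P ↔ (a ≤ t ∧ t ≤ b) ∧ P t := by
  simp only [Finset.mem_filter, Finset.mem_Icc]

/-- One-sided maximal inequality: `sun_left` with `D x y = lam * cnt P (x+1) y` on `[a-1, b]`. -/
theorem cnt_maximal (P : ℤ → Prop) (a b : ℤ) {lam : ℝ} (hlam : 0 ≤ lam) :
    (cnt (fun t => ∃ a', a ≤ a' ∧ a' ≤ t ∧ (t : ℝ) - a' + 1 ≤ lam * cnt P a' t) a b : ℝ) ≤
      lam * cnt P a b := by
  by_cases hab : b < a
  · simp [cnt_empty _ hab]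
  have := sun_left (fun x y => lam * cnt P (x + 1) y) (fun x y _ => by positivity)
    (fun x y z h1 h2 => by
      rw [← cnt_split P (a := x + 1) (b := y) (c := z) (by omega) h2.le]
      push_cast
      linarith) (a - 1) b (by omega) _ (fun t ht => by
      obtain ⟨h1, a', h2, h3, h4⟩ := (sun_mem_cnt (P := fun t => ∃ a', a ≤ a' ∧ a' ≤ t ∧
        (t : ℝ) - a' + 1 ≤ lam * cnt P a' t) (a := a) (b := b)).1 ht
      refine ⟨h1.2, a' - 1, by omega, by omega, ?_⟩
      simp only [sub_add_cancel]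
      push_cast
      linarith)
  simp only [sub_add_cancel] at this
  exact this

/-- Union over a finite family. -/
theorem cnt_exists {ι : Type*} (I : Finset ι) (Q : ι → ℤ → Prop) (a b : ℤ) :
    cnt (fun t => ∃ i ∈ I, Q i t) a b ≤ ∑ i ∈ I, cnt (Q i) a b := by
  classical
  unfold cnt
  refine le_trans (Finset.card_le_card (t := I.biUnion
    fun i => (Finset.Icc a b).filter (Q i)) fun t ht => ?_) (Finset.card_biUnion_le.trans (le_of_eq ?_))
  · simp only [Finset.mem_filter, Finset.mem_biUnion] at ht ⊢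
    obtain ⟨h1, i, h2, h3⟩ := ht
    exact ⟨i, h2, h1, h3⟩
  · refine Finset.sum_congr rfl fun i _ => ?_
    congr

end Crest.Agent.R128
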