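import Crest.Agent.R128.Nrm
import Crest.Agent.R128.Sun

/-! Step counting for one solution. -/

set_option autoImplicit false

noncomputable section

open MeasureTheory Set

namespace Crest.Agent.R128

theorem a1_abs {X w x y : ℝ} (hw : X + 1 ≤ |w|) (hy : |y| ≤ |x|) : X * |x| ≤ |w * x - y| := by
  have h1 := abs_sub_abs_le_abs_sub (w * x) y
  rw [abs_mul] at h1
  nlinarith [mul_le_mul_of_nonneg_right hw (abs_nonneg x)]

theorem a1_ht {M η : ℝ} (hM : 1 < M) {u : ℤ → ℝ} (hp : ∀ s, 0 < nu u s) {a b : ℤ}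
    (h : M ^ (1 - η) * nu u a ≤ nu u b) : 1 - η ≤ ht M u b - ht M u a := by
  have M0 : 0 < M := by linarith
  rw [← nu_le_iff_ht hM (hp a) (hp b), Real.rpow_neg M0.le, ← div_eq_inv_mul,
    le_div_iff₀ (Real.rpow_pos_of_pos M0 _), mul_comm]
  exact h

theorem a1_up {M η : ℝ} {v u : ℤ → ℝ} (hu : IsSol v u) {c : ℤ} (h : |u c| ≤ |u (c + 1)|)
    (hg : Good M η (v (c + 1))) : M ^ (1 - η) * nu u c ≤ |u (c + 1 + 1)| := by
  rw [hu (c + 1), add_sub_cancel_right, show nu u c = |u (c + 1)| from max_eq_right h]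
  exact a1_abs hg h

theorem a1_down {M η : ℝ} {v u : ℤ → ℝ} (hu : IsSol v u) {c : ℤ} (h : |u (c + 1)| ≤ |u c|)
    (hg : Good M η (v c)) : M ^ (1 - η) * nu u c ≤ |u (c - 1)| := by
  rw [show u (c - 1) = v c * u c - u (c + 1) by rw [hu c]; ring,
    show nu u c = |u c| from max_eq_left h]
  exact a1_abs hg h

open Classical in
theorem a1_cnt_succ (P : ℤ → Prop) {a b : ℤ} (hab : a ≤ b + 1) :
    (cnt P a (b + 1) : ℝ) = cnt P a b + if P (b + 1) then 1 else 0 := by
  rw [← cnt_split P hab (show b ≤ b + 1 by omega), Nat.cast_add, cnt_eq_sum P (b + 1),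
    Finset.Icc_self, Finset.sum_singleton]

/-- Call cut `c` *falling* if `|u (c+1)| < |u c|`.  For a step `s ∈ (a, b]` (cut `s-1` to cut `s`):
if cut `s-1` is not falling and `v s` is good then `nu (s-1) = |u s|`,
`nu s ≥ |u (s+1)| ≥ (|v s| - 1)|u s| ≥ M^(1-η) nu (s-1)`, so `1 - Δht ≤ η`; always `1 - Δht ≤ 2` (`ht_step`).
A falling cut `c ∈ [a+1, b-1]` with `v c` good has `nu c = |u c|`, `nu (c-1) ≥ |u (c-1)| ≥ M^(1-η) |u c|`,
hence is `Steep`.  So `#falling [a, b-1] ≤ 1 + #bad + #steep`.  (Induction on `b` is convenient.) -/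
theorem step_count {M η : ℝ} (hη0 : 0 ≤ η) (hη : η ≤ 1 / 2) {v u : ℤ → ℝ} (hv : Bdd M v)
    (hu : IsSol v u) (hp : ∀ s, 0 < nu u s) {a b : ℤ} (hab : a ≤ b) :
    ((b : ℝ) - a) - (ht M u b - ht M u a) ≤
      η * ((b : ℝ) - a) + 4 * cnt (fun s => ¬ Good M η (v s)) (a + 1) b + 2 +
        2 * cnt (Steep M u) (a + 1) (b - 1) := by
  classical
  have hM : 1 < M := by linarith [hv.two_le]
  have key : ∀ b, a ≤ b → ((b : ℝ) - a) - (ht M u b - ht M u a) +
      (if b = a ∨ ¬ Good M η (v b) then 2 else 0) ≤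
      η * ((b : ℝ) - a) + 4 * cnt (fun s => ¬ Good M η (v s)) (a + 1) b + 2 +
        2 * cnt (Steep M u) (a + 1) (b - 1) := by
    intro b hb
    induction b, hb using Int.le_induction with
    | base =>
      rw [cnt_empty _ (by omega), cnt_empty _ (by omega)]
      simp
    | succ b hb ih =>
      have h1 := (abs_le.1 (ht_step hv hu hp b)).1
      have h2 : (cnt (Steep M u) (a + 1) (b - 1) : ℝ) ≤ cnt (Steep M u) (a + 1) b := by
        exact_mod_cast cnt_mono fun t h1 h2 h3 => ⟨h1, by omega, h3⟩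
      have h3 : (0 : ℝ) ≤ if b = a ∨ ¬ Good M η (v b) then 2 else 0 := by split_ifs <;> norm_num
      rw [a1_cnt_succ _ (by omega), add_sub_cancel_right]
      push_cast
      by_cases hg : Good M η (v (b + 1))
      · rw [if_neg (by push Not; exact ⟨by omega, hg⟩), if_neg (not_not.2 hg)]
        rcases le_total |u b| |u (b + 1)| with hf | hf
        · have h4 := a1_ht hM hp ((a1_up hu hf hg).trans (abs_succ_le_nu u (b + 1)))
          linarith
        · by_cases hr : b = a ∨ ¬ Good M η (v b)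
          · rw [if_pos hr] at ih
            linarith
          · push Not at hr
            have h4 := a1_ht hM hp ((a1_down hu hf hr.2).trans (abs_le_nu u (b - 1)))
            have h5 : Steep M u b := by
              unfold Steep
              linarith
            have h6 := a1_cnt_succ (Steep M u) (a := a + 1) (b := b - 1) (by omega)
            rw [sub_add_cancel, if_pos h5] at h6
            linarith
      · rw [if_pos (Or.inr hg), if_pos hg]
        linarith
  have h1 := key b hab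
  have h3 : (0 : ℝ) ≤ if b = a ∨ ¬ Good M η (v b) then 2 else 0 := by split_ifs <;> norm_num
  linarith

/-- After a strict ascent, good sites force ascents: `nu s < nu (s+1)` gives `|u (s+1)| < |u (s+2)|`
and then inductively `|u (c+1)| ≥ M^(1-η) |u c| > |u c| = nu (c-1)`. -/
theorem exc_bad {M η : ℝ} (hη : η ≤ 1 / 2) {v u : ℤ → ℝ} (hv : Bdd M v)
    (hu : IsSol v u) (hp : ∀ s, 0 < nu u s) {s t : ℤ} (hst : s + 1 ≤ t)
    (hup : ht M u s < ht M u (s + 1)) (hg : ∀ c, s + 2 ≤ c → c ≤ t → Good M η (v c)) :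
    ht M u (t - 1) < ht M u t := by
  have hM : 1 < M := by linarith [hv.two_le]
  have h1 : 1 < M ^ (1 - η) := Real.one_lt_rpow hM (by linarith)
  have key : ∀ t, s + 1 ≤ t → (∀ c, s + 2 ≤ c → c ≤ t → Good M η (v c)) →
      |u t| ≤ |u (t + 1)| ∧ ht M u (t - 1) < ht M u t := by
    intro t ht'
    induction t, ht' using Int.le_induction with
    | base =>
      intro _
      refine ⟨?_, by rwa [add_sub_cancel_right]⟩
      have h2 := (nu_lt_iff_ht hM (hp s) (hp (s + 1)) 0).2 (by linarith)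
      rw [neg_zero, Real.rpow_zero, one_mul] at h2
      by_contra h3
      rw [show nu u (s + 1) = |u (s + 1)| from max_eq_left (not_le.1 h3).le] at h2
      exact absurd (abs_succ_le_nu u s) (not_le.2 h2)
    | succ t ht' ih =>
      intro hg
      have h2 := (ih fun c h1 h2 => hg c h1 (by omega)).1
      have h3 := a1_up hu h2 (hg (t + 1) (by omega) le_rfl)
      have h4 := a1_ht hM hp (h3.trans (abs_succ_le_nu u (t + 1)))
      refine ⟨?_, by rw [add_sub_cancel_right]; linarith⟩
      have h5 := abs_succ_le_nu u t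
      have h6 := hp t
      nlinarith
  exact (key t hst hg).2

end Crest.Agent.R128
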