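import Crest.Agent.R128.Nrm
import Crest.Agent.R128.Sun

/-! Unmatched descents; the companion solution. -/

set_option autoImplicit false

noncomputable section

open MeasureTheory Set

namespace Crest.Agent.R128

theorem a1b_cnt_succ (P : ℤ → Prop) (n : ℕ) :
    cnt P 1 ((n + 1 : ℕ) : ℤ) ≤ cnt P 1 n + 1 ∧
      (¬ P ((n + 1 : ℕ) : ℤ) → cnt P 1 ((n + 1 : ℕ) : ℤ) = cnt P 1 n) := by
  classical
  have e : Finset.Icc (1 : ℤ) ((n + 1 : ℕ) : ℤ) =
      insert ((n + 1 : ℕ) : ℤ) (Finset.Icc (1 : ℤ) n) := by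
    ext x
    simp only [Finset.mem_Icc, Finset.mem_insert]
    push_cast
    omega
  unfold cnt
  rw [e, Finset.filter_insert]
  constructor
  · split_ifs
    · exact Finset.card_insert_le _ _
    · exact Nat.le_succ _
  · intro h
    rw [if_neg h]

theorem a1b_unmatched_aux (M : ℝ) (u : ℤ → ℝ) (n : ℕ) :
    ∃ s : ℤ, 0 ≤ s ∧ s ≤ n ∧
      (cnt (fun t => Steep M u t ∧ ¬ Matched M u t) 1 n : ℝ) ≤ 4 * (ht M u 0 - ht M u s) := by
  induction n with
  | zero =>
    refine ⟨0, le_rfl, le_rfl, ?_⟩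
    simp [cnt]
  | succ n ih =>
    obtain ⟨s, hs0, hsn, hc⟩ := ih
    obtain ⟨h1, h2⟩ := a1b_cnt_succ (fun t => Steep M u t ∧ ¬ Matched M u t) n
    by_cases hP : Steep M u ((n + 1 : ℕ) : ℤ) ∧ ¬ Matched M u ((n + 1 : ℕ) : ℤ)
    · refine ⟨((n + 1 : ℕ) : ℤ), by positivity, le_rfl, ?_⟩
      have h3 : ht M u ((n + 1 : ℕ) : ℤ) + 1 / 4 < ht M u s := by
        by_contra hcon
        exact hP.2 ⟨hP.1, s, hs0, by push_cast; omega, not_lt.mp hcon⟩
      have h4 : (cnt (fun t => Steep M u t ∧ ¬ Matched M u t) 1 ((n + 1 : ℕ) : ℤ) : ℝ) ≤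
          (cnt (fun t => Steep M u t ∧ ¬ Matched M u t) 1 n : ℝ) + 1 := by exact_mod_cast h1
      linarith
    · refine ⟨s, hs0, by push_cast; omega, ?_⟩
      rw [h2 hP]
      exact hc

theorem a1b_wr {v u w : ℤ → ℝ} (hu : IsSol v u) (hw : IsSol v w) (a : ℤ)
    (h : |u a * w (a + 1) - u (a + 1) * w a| = 1) (s : ℤ) : 1 ≤ 2 * (nu u s * nu w s) := by
  rw [wronskian hu hw a s] at h
  have h1 := abs_sub (u s * w (s + 1)) (u (s + 1) * w s)
  rw [abs_mul, abs_mul, h] at h1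
  have h2 : |u s| * |w (s + 1)| ≤ nu u s * nu w s :=
    mul_le_mul (abs_le_nu u s) (abs_succ_le_nu w s) (abs_nonneg _) (nu_nonneg u s)
  have h3 : |u (s + 1)| * |w s| ≤ nu u s * nu w s :=
    mul_le_mul (abs_succ_le_nu u s) (abs_le_nu w s) (abs_nonneg _) (nu_nonneg u s)
  linarith

theorem a1b_div_le {x y : ℝ} (hx : 1 / 2 ≤ |x|) (hy : |y| ≤ |x|) : |-y / x| ≤ 1 := by
  rw [abs_div, abs_neg, div_le_one (by linarith)]
  exact hy

theorem a1b_inv_le {x : ℝ} (hx : 1 / 2 ≤ |x|) : |1 / x| ≤ 2 := by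
  rw [abs_div, abs_one, div_le_iff₀ (by linarith)]
  linarith

/-- Unmatched steep descents are record lows, each more than `1/4` below all earlier heights:
if `ht 0 - h ≤ ht s` on `[0, n]` there are at most `4 h` of them.  (Induction on `n`: the number of unmatched
`t ≤ m` is at most `4 (ht 0 - min_{[0,m]} ht)`.) -/
theorem unmatched_count {M : ℝ} (u : ℤ → ℝ) (n : ℕ) {h : ℝ}
    (hh : ∀ s : ℤ, 0 ≤ s → s ≤ n → ht M u 0 - h ≤ ht M u s) :
    (cnt (fun t => Steep M u t ∧ ¬ Matched M u t) 1 n : ℝ) ≤ 4 * h := by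
  obtain ⟨s, hs0, hsn, hc⟩ := a1b_unmatched_aux M u n
  have := hh s hs0 hsn
  linarith

/-- The most expanded basis solution `u` and a companion `w` that is not expanded, with Wronskian `±1`.
Take the entry of largest absolute value `T_{ij}` (`|T_ij| ≥ nrm/4 ≥ 1/2`), `u` the basis solution `e_j`,
and `w` the solution whose value at cut `a` is killed by row `i`, normalised by `T_ij`. -/
theorem exists_pair (v : ℤ → ℝ) (a b : ℤ) :
    ∃ u w : ℤ → ℝ, IsSol v u ∧ IsSol v w ∧ nu u a = 1 ∧ nu w a = 1 ∧ nrm v a b ≤ 4 * nu u b ∧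
      nu w b ≤ 2 ∧ ∀ s, 1 ≤ 2 * (nu u s * nu w s) := by
  have h2 := two_le_nrm v a b
  have hdet := wronskian (sol_isSol v a 1 0) (sol_isSol v a 0 1) a b
  simp only [sol_left, sol_right] at hdet
  have l1 := abs_le_nu (sol v a 1 0) b
  have l2 := abs_succ_le_nu (sol v a 1 0) b
  have l3 := abs_le_nu (sol v a 0 1) b
  have l4 := abs_succ_le_nu (sol v a 0 1) b
  have first : ∀ p : ℝ, |p| ≤ 1 → nrm v a b ≤ 4 * nu (sol v a 1 0) b → nu (sol v a p 1) b ≤ 2 →
      ∃ u w : ℤ → ℝ, IsSol v u ∧ IsSol v w ∧ nu u a = 1 ∧ nu w a = 1 ∧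
        nrm v a b ≤ 4 * nu u b ∧ nu w b ≤ 2 ∧ ∀ s, 1 ≤ 2 * (nu u s * nu w s) := by
    intro p hp h1 h3
    refine ⟨sol v a 1 0, sol v a p 1, sol_isSol _ _ _ _, sol_isSol _ _ _ _, ?_, ?_, h1, h3,
      a1b_wr (sol_isSol _ _ _ _) (sol_isSol _ _ _ _) a (by simp)⟩
    · rw [nu_sol_self]; simp
    · rw [nu_sol_self, abs_one]; exact max_eq_right hp
  have second : ∀ q : ℝ, |q| ≤ 1 → nrm v a b ≤ 4 * nu (sol v a 0 1) b → nu (sol v a 1 q) b ≤ 2 →
      ∃ u w : ℤ → ℝ, IsSol v u ∧ IsSol v w ∧ nu u a = 1 ∧ nu w a = 1 ∧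
        nrm v a b ≤ 4 * nu u b ∧ nu w b ≤ 2 ∧ ∀ s, 1 ≤ 2 * (nu u s * nu w s) := by
    intro q hq h1 h3
    refine ⟨sol v a 0 1, sol v a 1 q, sol_isSol _ _ _ _, sol_isSol _ _ _ _, ?_, ?_, h1, h3,
      a1b_wr (sol_isSol _ _ _ _) (sol_isSol _ _ _ _) a (by simp)⟩
    · rw [nu_sol_self]; simp
    · rw [nu_sol_self, abs_one]; exact max_eq_left hq
  have hn : nrm v a b = |sol v a 1 0 b| + |sol v a 1 0 (b + 1)| + |sol v a 0 1 b| +
      |sol v a 0 1 (b + 1)| := rfl
  have val : ∀ p q : ℝ, nu (sol v a p q) b = max |p * sol v a 1 0 b + q * sol v a 0 1 b|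
      |p * sol v a 1 0 (b + 1) + q * sol v a 0 1 (b + 1)| := by
    intro p q
    rw [nu, sol_lin v a p q b, sol_lin v a p q (b + 1)]
  generalize sol v a 1 0 b = x at *
  generalize sol v a 1 0 (b + 1) = y at *
  generalize sol v a 0 1 b = z at *
  generalize sol v a 0 1 (b + 1) = t at *
  have hdet' : x * t - y * z = 1 := by linarith
  have hcases : (|y| ≤ |x| ∧ |z| ≤ |x| ∧ |t| ≤ |x|) ∨ (|x| ≤ |y| ∧ |z| ≤ |y| ∧ |t| ≤ |y|) ∨
      (|x| ≤ |z| ∧ |y| ≤ |z| ∧ |t| ≤ |z|) ∨ (|x| ≤ |t| ∧ |y| ≤ |t| ∧ |z| ≤ |t|) := by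
    rcases le_total |x| |y| with c1 | c1 <;> rcases le_total |z| |t| with c2 | c2 <;>
      rcases le_total |x| |z| with c3 | c3 <;> rcases le_total |x| |t| with c4 | c4 <;>
      rcases le_total |y| |z| with c5 | c5 <;> rcases le_total |y| |t| with c6 | c6 <;>
      first
        | exact Or.inl ⟨by linarith, by linarith, by linarith⟩
        | exact Or.inr (Or.inl ⟨by linarith, by linarith, by linarith⟩)
        | exact Or.inr (Or.inr (Or.inl ⟨by linarith, by linarith, by linarith⟩))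
        | exact Or.inr (Or.inr (Or.inr ⟨by linarith, by linarith, by linarith⟩))
  rcases hcases with ⟨c1, c2, c3⟩ | ⟨c1, c2, c3⟩ | ⟨c1, c2, c3⟩ | ⟨c1, c2, c3⟩
  · have hx : 1 / 2 ≤ |x| := by linarith
    have hx0 : x ≠ 0 := by
      intro h0
      rw [h0, abs_zero] at hx
      linarith
    refine first (-z / x) (a1b_div_le hx c2) (by linarith) ?_
    have e1 : -z / x * x + 1 * z = 0 := by field_simp; ring
    have e2 : -z / x * y + 1 * t = 1 / x := by field_simp; linarith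
    rw [val, e1, e2, abs_zero]
    exact max_le (by norm_num) (a1b_inv_le hx)
  · have hx : 1 / 2 ≤ |y| := by linarith
    have hx0 : y ≠ 0 := by
      intro h0
      rw [h0, abs_zero] at hx
      linarith
    refine first (-t / y) (a1b_div_le hx c3) (by linarith) ?_
    have e1 : -t / y * y + 1 * t = 0 := by field_simp; ring
    have e2 : -t / y * x + 1 * z = -(1 / y) := by field_simp; linarith
    rw [val, e1, e2, abs_zero, abs_neg]
    exact max_le (a1b_inv_le hx) (by norm_num)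
  · have hx : 1 / 2 ≤ |z| := by linarith
    have hx0 : z ≠ 0 := by
      intro h0
      rw [h0, abs_zero] at hx
      linarith
    refine second (-x / z) (a1b_div_le hx c1) (by linarith) ?_
    have e1 : 1 * x + -x / z * z = 0 := by field_simp; ring
    have e2 : 1 * y + -x / z * t = -(1 / z) := by field_simp; linarith
    rw [val, e1, e2, abs_zero, abs_neg]
    exact max_le (by norm_num) (a1b_inv_le hx)
  · have hx : 1 / 2 ≤ |t| := by linarith
    have hx0 : t ≠ 0 := by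
      intro h0
      rw [h0, abs_zero] at hx
      linarith
    refine second (-y / t) (a1b_div_le hx c2) (by linarith) ?_
    have e1 : 1 * y + -y / t * t = 0 := by field_simp; ring
    have e2 : 1 * x + -y / t * z = 1 / t := by field_simp; linarith
    rw [val, e1, e2, abs_zero]
    exact max_le (a1b_inv_le hx) (by norm_num)

end Crest.Agent.R128
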