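import Crest.Agent.R128.Key
import Crest.Agent.R128.A1

/-! Classification of matched steep descents. -/

set_option autoImplicit false

noncomputable section

open MeasureTheory Set

namespace Crest.Agent.R128

/-- A two-sided drop of the height around cut `z` gives the `W`-event at `z` or `z + 1`:
choose `c ∈ {z, z+1}` with `|u c| = nu u z` and normalise `u` by `u c` (`IsSol.smul`, `nu_smul`,
`nu_lt_iff_ht`). -/
theorem wev_of_drop {M κ : ℝ} (hM : 1 < M) {v u : ℤ → ℝ} (hu : IsSol v u) (hp : ∀ s, 0 < nu u s)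
    (z : ℤ) (p : ℕ)
    (h1 : (1 - κ) * p < ht M u z - ht M u (z + p)) (h2 : (1 - κ) * p < ht M u z - ht M u (z + 1 + p))
    (h3 : (1 - κ) * p < ht M u z - ht M u (z - p - 1)) (h4 : (1 - κ) * p < ht M u z - ht M u (z - p)) :
    Wev M κ p v z ∨ Wev M κ p v (z + 1) := by
  have key : ∀ c : ℤ, |u c| = nu u z → ∀ s : ℤ, (1 - κ) * p < ht M u z - ht M u s →
      nu (fun s => (u c)⁻¹ * u s) s < M ^ (-((1 - κ) * p)) := by
    intro c hc s hs
    have h0 : 0 < nu u z := hp z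
    have h := (nu_lt_iff_ht hM (hp s) (hp z) ((1 - κ) * p)).2 hs
    rw [nu_smul, abs_inv, hc, inv_mul_lt_iff₀ h0, mul_comm]
    exact h
  rcases le_total |u (z + 1)| |u z| with h | h
  · have hc : |u z| = nu u z := by unfold nu; exact (max_eq_left h).symm
    have h0 : u z ≠ 0 := by
      intro h0
      have := hp z
      rw [← hc, h0, abs_zero] at this
      exact lt_irrefl _ this
    exact Or.inl ⟨fun s => (u z)⁻¹ * u s, hu.smul _, inv_mul_cancel₀ h0, key z hc _ h1,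
      key z hc _ h3⟩
  · have hc : |u (z + 1)| = nu u z := by unfold nu; exact (max_eq_right h).symm
    have h0 : u (z + 1) ≠ 0 := by
      intro h0
      have := hp z
      rw [← hc, h0, abs_zero] at this
      exact lt_irrefl _ this
    refine Or.inr ⟨fun s => (u (z + 1))⁻¹ * u s, hu.smul _, inv_mul_cancel₀ h0, key _ hc _ h2, ?_⟩
    have e : z + 1 - (p : ℤ) - 1 = z - p := by ring
    rw [e]
    exact key _ hc _ h4

/-- Greatest integer of `[a, b]` with a property. -/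
theorem A2_exists_max (P : ℤ → Prop) {a b s : ℤ} (hs : a ≤ s) (hsb : s ≤ b) (hP : P s) :
    ∃ m, a ≤ m ∧ m ≤ b ∧ P m ∧ ∀ x, m < x → x ≤ b → ¬ P x := by
  classical
  obtain ⟨m, ⟨h1, h2, h3⟩, hm⟩ := Int.exists_greatest_of_bdd (P := fun x => a ≤ x ∧ x ≤ b ∧ P x)
    ⟨b, fun z hz => hz.2.1⟩ ⟨s, hs, hsb, hP⟩
  refine ⟨m, h1, h2, h3, fun x hx hxb hPx => ?_⟩
  have := hm x ⟨by omega, hxb, hPx⟩
  omega

/-- Least integer of `[a, b]` with a property. -/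
theorem A2_exists_min (P : ℤ → Prop) {a b s : ℤ} (hs : a ≤ s) (hsb : s ≤ b) (hP : P s) :
    ∃ m, a ≤ m ∧ m ≤ b ∧ P m ∧ ∀ x, a ≤ x → x < m → ¬ P x := by
  classical
  obtain ⟨m, ⟨h1, h2, h3⟩, hm⟩ := Int.exists_least_of_bdd (P := fun x => a ≤ x ∧ x ≤ b ∧ P x)
    ⟨a, fun z hz => hz.1⟩ ⟨s, hs, hsb, hP⟩
  refine ⟨m, h1, h2, h3, fun x hx hxb hPx => ?_⟩
  have := hm x ⟨hx, by omega, hPx⟩
  omega

theorem A2_regL {M κ : ℝ} {n : ℕ} {v : ℤ → ℝ} {a b : ℤ} (h : RegL M κ n v b) (hab : a ≤ b)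
    (hn : b - a ≤ n) : dfc M v a b ≤ κ * ((b : ℝ) - a) := by
  have h1 := h (b - a).toNat (by omega)
  have e : ((b - a).toNat : ℤ) = b - a := Int.toNat_of_nonneg (by omega)
  have e2 : (((b - a).toNat : ℕ) : ℝ) = (b : ℝ) - a := by
    have : (((b - a).toNat : ℤ) : ℝ) = ((b - a : ℤ) : ℝ) := by rw [e]
    push_cast at this
    exact this
  rw [e, e2, show b - (b - a) = a by ring] at h1
  exact h1

theorem A2_regR {M κ : ℝ} {n : ℕ} {v : ℤ → ℝ} {a b : ℤ} (h : RegR M κ n v a) (hab : a ≤ b)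
    (hn : b - a ≤ n) : dfc M v a b ≤ κ * ((b : ℝ) - a) := by
  have h1 := h (b - a).toNat (by omega)
  have e : ((b - a).toNat : ℤ) = b - a := Int.toNat_of_nonneg (by omega)
  have e2 : (((b - a).toNat : ℕ) : ℝ) = (b : ℝ) - a := by
    have : (((b - a).toNat : ℤ) : ℝ) = ((b - a : ℤ) : ℝ) := by rw [e]
    push_cast at this
    exact this
  rw [e, e2, show a + (b - a) = b by ring] at h1
  exact h1

/-- The numerical losses of the last case. -/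
theorem A2_loss {κ κ₂ q₀ q p T l : ℝ} (hκ0 : 0 ≤ κ) (hq : 24 ≤ q₀) (hκ₂ : 45 / q₀ + 40 * κ < κ₂)
    (hq0 : q₀ ≤ q) (hp : 6 ≤ p) (hqp : q ≤ 5 * p) (hT0 : 0 ≤ T) (hT : q₀ * T ≤ 2 * q)
    (hl : l ≤ 2 * (q + T) + 8) :
    2 * κ * q + 3 < κ₂ * p ∧ 2 * T + 2 * κ * l + 3 < κ₂ * p := by
  have hq0' : 0 < q₀ := by linarith
  have h1 : (45 / q₀ + 40 * κ) * p < κ₂ * p := mul_lt_mul_of_pos_right hκ₂ (by linarith)
  have h2 : 45 / q₀ * p = 45 * (p / q₀) := by ring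
  set x := p / q₀ with hx
  have hx1 : q₀ * x = p := by rw [hx]; field_simp
  have hx2 : 1 / 5 ≤ x := by
    rw [hx, le_div_iff₀ hq0']; linarith
  have hTx : T ≤ 10 * x := by
    have : q₀ * T ≤ q₀ * (10 * x) := by nlinarith
    exact le_of_mul_le_mul_left this hq0'
  have hTp : T ≤ 5 / 12 * p := by nlinarith
  have hl2 : l ≤ 25 / 2 * p := by linarith
  have h3 : κ * l ≤ κ * (25 / 2 * p) := mul_le_mul_of_nonneg_left hl2 hκ0
  have h4 : κ * q ≤ κ * (5 * p) := mul_le_mul_of_nonneg_left hqp hκ0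
  have h5 : 0 ≤ κ * p := mul_nonneg hκ0 (by linarith)
  constructor <;> nlinarith

/-- **Classification.**  Write `H = ht M u`, `g₁ = 3 q₀ + 50`.
Let `t' = max {s ∈ [0,t) : H s ≤ H t + 1/4}`.  Then `t' ≤ t - 2`, `H s > H t + 1/4` for `t' < s < t`,
`H t' < H (t'+1)` and `H t' > H t - 3/4`.
* If `t - t' ≤ g₁`: `exc_bad` (contrapositive, `H (t-1) ≥ H t`) gives a bad site in `[t'+2, t]`: case 1.
* Otherwise `¬ RegL t`: else `vlemma_right` on `[t'+1, t]` gives `l/2 - 3 ≤ 5/4` for `l = t-t'-1 ≥ g₁`.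
  If `¬ RegR t`, case 2 with `a = t`.  Else let `z₂ = min {z ∈ [t'+1,t] : RegR z}`, `q = t - z₂`;
  `vlemma_right` on `[z₂,t]`: `H z₂ - H t ≥ (1-2κ)q - 3`, so `z₂ - t' ≥ q/2 - 13/4`.
  Let `z₁ = max ({z ∈ [t'+1, z₂-1] : RegL z} ∪ {t'})`, `r = z₂ - z₁ - 1`; all cuts in `(z₁, z₂)` are `LR`.
  If `1 ≤ r` and `q ≤ q₀ r`: case 2 with `a = z₁ + 1`.  Otherwise `z₁ ≠ t'` (else `r ≥ q/2 - 17/4` and
  `q + r + 1 > g₁` force `1 ≤ r`, `q ≤ q₀ r`), so `RegL z₁`; `vlemma_left` on `[t', z₁]`, `l₁ = z₁ - t'`: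
  `H z₁ - H t' ≥ (1-2κ) l₁ - 3`, and `H z₁ ≤ H t' + 3/4 + q + r + 1`, so `l₁ ≤ 2(q+r+1) + 8`.
  If `q < q₀` then `r = 0` and `t - t' ≤ 3q₀ + 9 < g₁`, absurd.  So `q ≥ q₀`, `T = r + 1 ≤ 2q/q₀`,
  `p = q/4`, `q ≤ 5p`.  For `s ∈ [z₂,t]`: `H z₂ - H s ≥ (s - z₂) - 2κq - 3`; for `s ∈ [t',z₁]`:
  `H z₂ - H s ≥ (z₂ - s) - 2T - 2κ l₁ - 3`.  The losses are `≤ (35/q₀ + 25κ)p < κ₂ p`; the four cuts
  `z₂+p, z₂+1+p ∈ [z₂,t]`, `z₂-p-1, z₂-p ∈ [t',z₁]`; `wev_of_drop` gives case 3. -/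
theorem classify {M η κ κ₂ : ℝ} (hM : 16 ≤ M) (hη : η ≤ 1 / 2) (hκ0 : 0 ≤ κ) (hκ : κ ≤ 1 / 4)
    {q₀ : ℕ} (hq : 24 ≤ q₀) (hκ₂ : 45 / (q₀ : ℝ) + 40 * κ < κ₂)
    {v u : ℤ → ℝ} (hv : Bdd M v) (hu : IsSol v u) (hp : ∀ s, 0 < nu u s)
    (n : ℕ) {t : ℤ} (ht1 : 1 ≤ t) (htn : t ≤ n) (hm : Matched M u t) :
    (∃ s, 1 ≤ s ∧ s ≤ t ∧ t - s < ((3 * q₀ + 50 : ℕ) : ℤ) ∧ ¬ Good M η (v s)) ∨
    (∃ a, 0 ≤ a ∧ a ≤ t ∧ (t : ℝ) - a + 1 ≤ ((q₀ : ℝ) + 2) * cnt (LR M κ n v) a t) ∨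
    (∃ q : ℕ, q₀ ≤ q ∧ (q : ℤ) ≤ t ∧
      (Wev M κ₂ (q / 4) v (t - q) ∨ Wev M κ₂ (q / 4) v (t - q + 1))) := by
  classical
  obtain ⟨hst, s0, hs0, hs0t, hs0H⟩ := hm
  unfold Steep at hst
  have hd : ∀ a b : ℤ, a ≤ b → ht M u b - ht M u a ≤ (b : ℝ) - a ∧
      ht M u a - ht M u b ≤ (b : ℝ) - a := by
    intro a b hab
    have := abs_le.1 (ht_diff hv hu hp hab)
    constructor <;> linarith [this.1, this.2]
  obtain ⟨t', ht'0, ht't, ht'H, ht'max⟩ :=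
    A2_exists_max (fun s => ht M u s ≤ ht M u t + 1 / 4) (a := 0) (b := t - 1) hs0 (by omega) hs0H
  have hmid : ∀ s, t' < s → s < t → ht M u t + 1 / 4 < ht M u s := fun s h1 h2 =>
    not_le.1 (ht'max s h1 (by omega))
  have ht'2 : t' ≤ t - 2 := by
    by_contra h
    have e : t' = t - 1 := by omega
    rw [e] at ht'H
    linarith
  have hup : ht M u t' < ht M u (t' + 1) := by
    have := hmid (t' + 1) (by omega) (by omega)
    linarith
  have hlow : ht M u t - 3 / 4 < ht M u t' := by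
    have h1 := hmid (t' + 1) (by omega) (by omega)
    have h2 := (hd t' (t' + 1) (by omega)).1
    push_cast at h2
    linarith
  have hminR : ∀ s, t' < s → s ≤ t → ht M u t ≤ ht M u s := by
    intro s h1 h2
    rcases eq_or_lt_of_le h2 with h | h
    · rw [h]
    · have := hmid s h1 h
      linarith
  have hq' : (24 : ℝ) ≤ q₀ := by exact_mod_cast hq
  by_cases hg : t - t' ≤ 3 * (q₀ : ℤ) + 50
  · left
    by_contra hcon
    push Not at hcon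
    have := exc_bad hη hv hu hp (s := t') (t := t) (by omega) hup
      (fun c h1 h2 => hcon c (by omega) h2 (by push_cast; omega))
    linarith
  push Not at hg
  have hgR : 3 * (q₀ : ℝ) + 50 < (t : ℝ) - t' := by exact_mod_cast hg
  have hnL : ¬ RegL M κ n v t := by
    intro hL
    have h1 := A2_regL (a := t' + 1) hL (by omega) (by omega)
    have h0 : (0 : ℝ) ≤ (t : ℝ) - ((t' + 1 : ℤ) : ℝ) := by push_cast; linarith
    have h2 := vlemma_right hM hv hu hp (a := t' + 1) (b := t) (by omega) (mul_nonneg hκ0 h0) h1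
      (fun s h1 h2 => hminR s (by omega) h2)
    have h3 := (hd t' (t' + 1) (by omega)).1
    have h4 := mul_le_mul_of_nonneg_right hκ h0
    push_cast at h2 h3 h4
    linarith
  by_cases hR : RegR M κ n v t
  swap
  · right; left
    refine ⟨t, by omega, le_rfl, ?_⟩
    rw [cnt_all (P := LR M κ n v) (by omega) (fun s h1 h2 => by
      have e : s = t := by omega
      rw [e]; exact ⟨hnL, hR⟩)]
    nlinarith
  obtain ⟨z₂, hz₂1, hz₂t, hz₂R, hz₂min⟩ :=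
    A2_exists_min (RegR M κ n v) (a := t' + 1) (b := t) (s := t) (by omega) le_rfl hR
  obtain ⟨q, hqdef⟩ : ∃ q : ℕ, (q : ℤ) = t - z₂ := ⟨(t - z₂).toNat, Int.toNat_of_nonneg (by omega)⟩
  have hqR : (q : ℝ) = (t : ℝ) - z₂ := by exact_mod_cast hqdef
  have hq0 : (0 : ℝ) ≤ q := Nat.cast_nonneg q
  have hV2 : (q : ℝ) - 2 * (κ * q) - 3 ≤ ht M u z₂ - ht M u t := by
    have h1 := A2_regR (b := t) hz₂R hz₂t (by omega)
    rw [← hqR] at h1
    have h2 := vlemma_right hM hv hu hp hz₂t (mul_nonneg hκ0 hq0) h1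
      (fun s h1 h2 => hminR s (by omega) h2)
    rw [← hqR] at h2
    exact h2
  have hκq : κ * q ≤ 1 / 4 * q := mul_le_mul_of_nonneg_right hκ hq0
  have hz₂low : (q : ℝ) / 2 - 13 / 4 ≤ (z₂ : ℝ) - t' := by
    have := (hd t' z₂ (by omega)).1
    linarith
  have hz₂lowZ : (q : ℤ) ≤ 2 * (z₂ - t') + 6 := by
    have : (q : ℝ) < 2 * ((z₂ : ℝ) - t') + 7 := by linarith
    have h2 : (q : ℤ) < 2 * (z₂ - t') + 7 := by exact_mod_cast this
    omega
  obtain ⟨z₁, hz₁1, hz₁2, hz₁P, hz₁max⟩ :=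
    A2_exists_max (fun z => z = t' ∨ RegL M κ n v z) (a := t') (b := z₂ - 1) (s := t') le_rfl
      (by omega) (Or.inl rfl)
  have hLR : ∀ s, z₁ + 1 ≤ s → s ≤ z₂ - 1 → LR M κ n v s := fun s h1 h2 =>
    ⟨fun h => hz₁max s (by omega) h2 (Or.inr h), hz₂min s (by omega) (by omega)⟩
  obtain ⟨r, hrdef⟩ : ∃ r : ℕ, (r : ℤ) = z₂ - z₁ - 1 :=
    ⟨(z₂ - z₁ - 1).toNat, Int.toNat_of_nonneg (by omega)⟩
  have hrR : (r : ℝ) = (z₂ : ℝ) - z₁ - 1 := by exact_mod_cast hrdef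
  by_cases hc2 : 1 ≤ r ∧ q ≤ q₀ * r
  · right; left
    refine ⟨z₁ + 1, by omega, by omega, ?_⟩
    have h1 : (cnt (LR M κ n v) (z₁ + 1) (z₂ - 1) : ℝ) = r := by
      rw [cnt_all (by omega) hLR, hrR]; push_cast; ring
    have h2 : cnt (LR M κ n v) (z₁ + 1) (z₂ - 1) ≤ cnt (LR M κ n v) (z₁ + 1) t :=
      cnt_mono fun s h1 h2 h3 => ⟨h1, by omega, h3⟩
    have h3 : (r : ℝ) ≤ cnt (LR M κ n v) (z₁ + 1) t := by rw [← h1]; exact_mod_cast h2
    have h4 : (1 : ℝ) ≤ r := by exact_mod_cast hc2.1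
    have h5 : (q : ℝ) ≤ q₀ * r := by exact_mod_cast hc2.2
    have h6 : ((q₀ : ℝ) + 2) * r ≤ ((q₀ : ℝ) + 2) * cnt (LR M κ n v) (z₁ + 1) t :=
      mul_le_mul_of_nonneg_left h3 (by linarith)
    push_cast
    linarith
  have hz₁L : RegL M κ n v z₁ := by
    rcases hz₁P with h | h
    · exfalso
      apply hc2
      have h1 : q ≤ 2 * r + 8 := by omega
      have h2 : q₀ + 14 ≤ r := by omega
      refine ⟨by omega, ?_⟩
      have : 24 * r ≤ q₀ * r := Nat.mul_le_mul_right r hq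
      omega
    · exact h
  have hl0 : (0 : ℝ) ≤ (z₁ : ℝ) - t' := by
    have : (t' : ℝ) ≤ z₁ := by exact_mod_cast hz₁1
    linarith
  have hV1 : ((z₁ : ℝ) - t') - 2 * (κ * ((z₁ : ℝ) - t')) - 3 ≤ ht M u z₁ - ht M u t' := by
    have h1 := A2_regL (a := t') hz₁L hz₁1 (by omega)
    refine vlemma_left hM hv hu hp hz₁1 (mul_nonneg hκ0 hl0) h1 (fun s h1 h2 => ?_)
    rcases eq_or_lt_of_le h1 with h | h
    · rw [h]
    · have := hmid s h (by omega)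
      linarith
  have hκl : κ * ((z₁ : ℝ) - t') ≤ 1 / 4 * ((z₁ : ℝ) - t') := mul_le_mul_of_nonneg_right hκ hl0
  have hl1 : (z₁ : ℝ) - t' ≤ 2 * (q + (r + 1)) + 8 := by
    have := (hd z₁ t (by omega)).2
    linarith
  have hl1Z : z₁ - t' ≤ 2 * ((q : ℤ) + (r + 1)) + 8 := by exact_mod_cast hl1
  have hqq : q₀ ≤ q := by
    by_contra h
    have hr0 : r = 0 := by
      by_contra h0
      apply hc2
      refine ⟨by omega, ?_⟩
      have : q₀ * 1 ≤ q₀ * r := Nat.mul_le_mul_left q₀ (by omega)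
      omega
    omega
  have hT : q₀ * (r + 1) ≤ 2 * q := by
    rcases Nat.eq_zero_or_pos r with h | h
    · rw [h]; omega
    · have : ¬ q ≤ q₀ * r := fun h' => hc2 ⟨h, h'⟩
      rw [Nat.mul_add]
      omega
  have hT24 : 24 * (r + 1) ≤ 2 * q := le_trans (Nat.mul_le_mul_right _ hq) hT
  right; right
  refine ⟨q, hqq, by omega, ?_⟩
  have ez : t - (q : ℤ) = z₂ := by omega
  rw [ez]
  set p : ℕ := q / 4 with hpdef
  have hp6 : 6 ≤ p := by omega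
  have hqp : q ≤ 5 * p := by omega
  have hqp4 : 4 * p ≤ q := by omega
  obtain ⟨hA, hB⟩ := A2_loss (κ := κ) (κ₂ := κ₂) (q₀ := q₀) (q := q) (p := p) (T := (r : ℝ) + 1)
    (l := (z₁ : ℝ) - t') hκ0 hq' hκ₂ (by exact_mod_cast hqq) (by exact_mod_cast hp6)
    (by exact_mod_cast hqp) (by positivity) (by exact_mod_cast hT) hl1
  have hRt : ∀ s, z₂ ≤ s → s ≤ t → (s : ℝ) - z₂ - 2 * κ * q - 3 ≤ ht M u z₂ - ht M u s := by
    intro s h1 h2
    have := (hd s t h2).2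
    linarith
  have hLf : ∀ s, t' ≤ s → s ≤ z₁ →
      (z₂ : ℝ) - s - 2 * ((r : ℝ) + 1) - 2 * κ * ((z₁ : ℝ) - t') - 3 ≤ ht M u z₂ - ht M u s := by
    intro s h1 h2
    have h3 := (hd t' s h1).1
    have h4 := (hd z₁ z₂ (by omega)).2
    linarith
  refine wev_of_drop (by linarith) hu hp z₂ p ?_ ?_ ?_ ?_
  · have := hRt (z₂ + p) (by omega) (by omega)
    push_cast at this
    linarith
  · have := hRt (z₂ + 1 + p) (by omega) (by omega)
    push_cast at this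
    linarith
  · have := hLf (z₂ - p - 1) (by omega) (by omega)
    push_cast at this
    linarith
  · have := hLf (z₂ - p) (by omega) (by omega)
    push_cast at this
    linarith

end Crest.Agent.R128
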