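import Crest.Agent.R128.A2
import Crest.Agent.R128.A1b

/-! The deterministic bound (A). -/

set_option autoImplicit false

noncomputable section

open MeasureTheory Set

namespace Crest.Agent.R128

/-- From `classify`, `cnt_or`, `cnt_near`, `cnt_maximal`, `cnt_exists`, `cnt_shift`, `cnt_mono`. -/
theorem matched_count {M η κ κ₂ : ℝ} (hM : 16 ≤ M) (hη : η ≤ 1 / 2) (hκ0 : 0 ≤ κ) (hκ : κ ≤ 1 / 4)
    {q₀ : ℕ} (hq : 24 ≤ q₀) (hκ₂ : 45 / (q₀ : ℝ) + 40 * κ < κ₂)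
    {v u : ℤ → ℝ} (hv : Bdd M v) (hu : IsSol v u) (hp : ∀ s, 0 < nu u s) (n : ℕ) :
    (cnt (Matched M u) 1 n : ℝ) ≤
      (3 * (q₀ : ℝ) + 50) * cnt (fun s => ¬ Good M η (v s)) 1 n +
        ((q₀ : ℝ) + 2) * cnt (LR M κ n v) 0 n +
        2 * ∑ q ∈ Finset.Icc q₀ n, (cnt (Wev M κ₂ (q / 4) v) 0 (n + 1) : ℝ) := by
  classical
  set P1 : ℤ → Prop := fun t => ∃ s, 1 ≤ s ∧ s ≤ t ∧ t - s < ((3 * q₀ + 50 : ℕ) : ℤ) ∧
    ¬ Good M η (v s) with hP1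
  set P2 : ℤ → Prop := fun t => ∃ a, 0 ≤ a ∧ a ≤ t ∧
    (t : ℝ) - a + 1 ≤ ((q₀ : ℝ) + 2) * cnt (LR M κ n v) a t with hP2
  set Q : ℕ → ℤ → Prop := fun q t => (q : ℤ) ≤ t ∧
    (Wev M κ₂ (q / 4) v (t - q) ∨ Wev M κ₂ (q / 4) v (t - q + 1)) with hQ
  have h1 : cnt (Matched M u) 1 n ≤
      cnt P1 1 n + cnt (fun t => P2 t ∨ ∃ q ∈ Finset.Icc q₀ n, Q q t) 1 n := by
    refine cnt_or fun t ht1 htn hm => ?_
    rcases classify (η := η) hM hη hκ0 hκ hq hκ₂ hv hu hp n ht1 htn hm with h | h | ⟨q, hq1, hq2, h⟩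
    · exact Or.inl h
    · exact Or.inr (Or.inl h)
    · exact Or.inr (Or.inr ⟨q, Finset.mem_Icc.mpr ⟨hq1, by omega⟩, hq2, h⟩)
  have h2 : cnt (fun t => P2 t ∨ ∃ q ∈ Finset.Icc q₀ n, Q q t) 1 n ≤
      cnt P2 1 n + cnt (fun t => ∃ q ∈ Finset.Icc q₀ n, Q q t) 1 n := cnt_or fun _ _ _ h => h
  have h3 : cnt P1 1 n ≤ (3 * q₀ + 50) * cnt (fun s => ¬ Good M η (v s)) 1 n :=
    cnt_near (fun s => ¬ Good M η (v s)) 1 n (3 * q₀ + 50)
  have h4 : cnt P2 1 n ≤ cnt P2 0 n := cnt_mono fun t h1 h2 h => ⟨by omega, h2, h⟩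
  have h5 : (cnt P2 0 n : ℝ) ≤ ((q₀ : ℝ) + 2) * cnt (LR M κ n v) 0 n :=
    cnt_maximal (LR M κ n v) 0 n (by positivity)
  have h6 := cnt_exists (Finset.Icc q₀ n) Q 1 n
  have h7 : ∀ q ∈ Finset.Icc q₀ n, cnt (Q q) 1 n ≤ 2 * cnt (Wev M κ₂ (q / 4) v) 0 (n + 1) := by
    intro q _
    have a1 : cnt (Q q) 1 n ≤ cnt (fun t => (q : ℤ) ≤ t ∧ Wev M κ₂ (q / 4) v (t - q)) 1 n +
        cnt (fun t => (q : ℤ) ≤ t ∧ Wev M κ₂ (q / 4) v (t - q + 1)) 1 n :=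
      cnt_or fun t _ _ h => h.2.elim (fun h' => Or.inl ⟨h.1, h'⟩) (fun h' => Or.inr ⟨h.1, h'⟩)
    have a2 : cnt (fun t => (q : ℤ) ≤ t ∧ Wev M κ₂ (q / 4) v (t - q)) 1 n ≤
        cnt (fun t => Wev M κ₂ (q / 4) v (t + -(q : ℤ))) q (n + 1 + q) :=
      cnt_mono fun t _ h2 h => ⟨h.1, by omega, by simpa [sub_eq_add_neg] using h.2⟩
    have a3 : cnt (fun t => (q : ℤ) ≤ t ∧ Wev M κ₂ (q / 4) v (t - q + 1)) 1 n ≤
        cnt (fun t => Wev M κ₂ (q / 4) v (t + (1 - (q : ℤ)))) (q - 1) (n + q) :=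
      cnt_mono fun t _ h2 h => ⟨by omega, by omega, by
        have : t + (1 - (q : ℤ)) = t - q + 1 := by ring
        rw [this]; exact h.2⟩
    rw [cnt_shift] at a2 a3
    have e1 : (q : ℤ) + -(q : ℤ) = 0 := by ring
    have e2 : (n : ℤ) + 1 + q + -(q : ℤ) = n + 1 := by ring
    have e3 : (q : ℤ) - 1 + (1 - (q : ℤ)) = 0 := by ring
    have e4 : (n : ℤ) + q + (1 - (q : ℤ)) = n + 1 := by ring
    rw [e1, e2] at a2
    rw [e3, e4] at a3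
    omega
  have h8 := h6.trans (Finset.sum_le_sum h7)
  rw [← Finset.mul_sum] at h8
  have h9 : cnt (Matched M u) 1 n ≤ (3 * q₀ + 50) * cnt (fun s => ¬ Good M η (v s)) 1 n +
      cnt P2 0 n + 2 * ∑ q ∈ Finset.Icc q₀ n, cnt (Wev M κ₂ (q / 4) v) 0 (n + 1) := by omega
  have h10 : (cnt (Matched M u) 1 n : ℝ) ≤
      (3 * (q₀ : ℝ) + 50) * cnt (fun s => ¬ Good M η (v s)) 1 n +
      cnt P2 0 n + 2 * ∑ q ∈ Finset.Icc q₀ n, (cnt (Wev M κ₂ (q / 4) v) 0 (n + 1) : ℝ) := by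
    exact_mod_cast h9
  linarith

/-- Take `u, w` from `exists_pair v 0 n`, `H = ht M u`, `H' = ht M w`, `B = #bad [1,n]`,
`o = logb M 2 ≤ 1/4`.  `dfc ≤ n - (H n - H 0) + 1/2`; `step_count` for `u` on `[0,n]`; steep cuts are matched
or unmatched; `unmatched_count` with `h = H 0 - H s₀`, `s₀` a minimiser of `H` on `[0,n]`.
To bound `h`: `H' s₀ ≥ h - o`, `H' 0 = 0`, `H' n ≤ o`.  Let `s₁ ∈ [s₀, n]` be the first cut with `H' s₁ ≤ o`;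
`step_count` for `w` on `[s₀, s₁]`, where every steep cut in `(s₀, s₁)` is matched (by `s = 0`), gives
`h ≤ 4B + 3 + 2 #matched(w)`.  Finish with `matched_count` for `u` and for `w`. -/
theorem det_bound {M η κ κ₂ : ℝ} (hM : 16 ≤ M) (hη0 : 0 ≤ η) (hη : η ≤ 1 / 2) (hκ0 : 0 ≤ κ)
    (hκ : κ ≤ 1 / 4) {q₀ : ℕ} (hq : 24 ≤ q₀) (hκ₂ : 45 / (q₀ : ℝ) + 40 * κ < κ₂)
    {v : ℤ → ℝ} (hv : Bdd M v) (n : ℕ) :
    dfc M v 0 n ≤ η * n + 27 +
      (36 + 18 * (3 * (q₀ : ℝ) + 50)) * cnt (fun s => ¬ Good M η (v s)) 1 n +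
        18 * ((q₀ : ℝ) + 2) * cnt (LR M κ n v) 0 n +
        36 * ∑ q ∈ Finset.Icc q₀ n, (cnt (Wev M κ₂ (q / 4) v) 0 (n + 1) : ℝ) := by
  classical
  obtain ⟨u, w, hu, hw, hu0, hw0, -, hwn, hW⟩ := exists_pair v 0 n
  have hM1 : 1 < M := by linarith
  have hpu : ∀ s, 0 < nu u s := hu.nu_pos (a := 0) (by rw [hu0]; norm_num)
  have hpw : ∀ s, 0 < nu w s := hw.nu_pos (a := 0) (by rw [hw0]; norm_num)
  have hl16 : Real.logb M 16 ≤ 1 := by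
    have := Real.logb_le_logb_of_le hM1 (by norm_num : (0 : ℝ) < 16) hM
    rwa [Real.logb_self_eq_one hM1] at this
  have hl2 : Real.logb M 16 = 4 * Real.logb M 2 := by
    rw [show (16 : ℝ) = 2 ^ 4 by norm_num, Real.logb_pow]; norm_num
  have ho0 : 0 ≤ Real.logb M 2 := Real.logb_nonneg hM1 (by norm_num)
  have hH0 : ht M u 0 = 0 := by unfold ht; rw [hu0]; simp
  have hH0' : ht M w 0 = 0 := by unfold ht; rw [hw0]; simp
  have hHn' : ht M w n ≤ Real.logb M 2 := Real.logb_le_logb_of_le hM1 (hpw _) hwn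
  have hsum : ∀ s, 0 ≤ Real.logb M 2 + (ht M u s + ht M w s) := by
    intro s
    have := Real.logb_nonneg hM1 (hW s)
    rwa [Real.logb_mul (by norm_num) (mul_pos (hpu s) (hpw s)).ne',
      Real.logb_mul (hpu s).ne' (hpw s).ne'] at this
  have hd : dfc M v 0 n ≤ (n : ℝ) - ht M u n := by
    have h1 := nu_le_nrm hu 0 n
    rw [hu0, mul_one] at h1
    have h2 := Real.logb_le_logb_of_le hM1 (hpu n) h1
    unfold dfc ht
    push_cast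
    linarith
  have hn0 : (0 : ℤ) ≤ n := Int.natCast_nonneg n
  -- a minimiser of the height of `u`
  obtain ⟨s₀, hs₀, hmin⟩ := Finset.exists_min_image (Finset.Icc (0 : ℤ) n) (ht M u)
    ⟨0, Finset.mem_Icc.mpr ⟨le_rfl, hn0⟩⟩
  obtain ⟨hs0, hs0n⟩ := Finset.mem_Icc.mp hs₀
  have hU := unmatched_count (M := M) u n (h := -ht M u s₀) fun s h1 h2 => by
    have := hmin s (Finset.mem_Icc.mpr ⟨h1, h2⟩)
    linarith
  -- first return of the companion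
  obtain ⟨s₁, hs₁, hfirst⟩ := Finset.exists_min_image
    ((Finset.Icc s₀ n).filter fun s => ht M w s ≤ Real.logb M 2) id
    ⟨n, Finset.mem_filter.mpr ⟨Finset.mem_Icc.mpr ⟨hs0n, le_rfl⟩, hHn'⟩⟩
  obtain ⟨hs1, hs1w⟩ := Finset.mem_filter.mp hs₁
  obtain ⟨hs01, hs1n⟩ := Finset.mem_Icc.mp hs1
  have hc1 := step_count hη0 hη hv hw hpw hs01
  have hc2 : cnt (fun s => ¬ Good M η (v s)) (s₀ + 1) s₁ ≤ cnt (fun s => ¬ Good M η (v s)) 1 n :=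
    cnt_mono fun t h1 h2 h => ⟨by omega, by omega, h⟩
  have hc3 : cnt (Steep M w) (s₀ + 1) (s₁ - 1) ≤ cnt (Matched M w) 1 n := by
    refine cnt_mono fun t h1 h2 h => ⟨by omega, by omega, h, 0, le_rfl, by omega, ?_⟩
    have h3 : ¬ ht M w t ≤ Real.logb M 2 := by
      intro h3
      have := hfirst t (Finset.mem_filter.mpr ⟨Finset.mem_Icc.mpr ⟨by omega, by omega⟩, h3⟩)
      simp only [id] at this
      omega
    linarith [not_le.mp h3]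
  have hc2' : (cnt (fun s => ¬ Good M η (v s)) (s₀ + 1) s₁ : ℝ) ≤
      cnt (fun s => ¬ Good M η (v s)) 1 n := by exact_mod_cast hc2
  have hc3' : (cnt (Steep M w) (s₀ + 1) (s₁ - 1) : ℝ) ≤ cnt (Matched M w) 1 n := by
    exact_mod_cast hc3
  have hs01' : (0 : ℝ) ≤ (s₁ : ℝ) - s₀ := by
    have : (s₀ : ℝ) ≤ s₁ := by exact_mod_cast hs01
    linarith
  have hh : -ht M u s₀ ≤ 4 * (cnt (fun s => ¬ Good M η (v s)) 1 n : ℝ) + 3 +
      2 * cnt (Matched M w) 1 n := by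
    have h1 := hsum s₀
    have h2 : η * ((s₁ : ℝ) - s₀) ≤ (s₁ : ℝ) - s₀ := by nlinarith
    linarith
  have hc4 := step_count hη0 hη hv hu hpu hn0
  have hc5 : cnt (Steep M u) (0 + 1) (n - 1) ≤
      cnt (Matched M u) 1 n + cnt (fun t => Steep M u t ∧ ¬ Matched M u t) 1 n := by
    refine le_trans (cnt_mono (Q := Steep M u) (a' := 1) (b' := n)
      fun t h1 h2 h => ⟨by omega, by omega, h⟩) (cnt_or fun t _ _ h => ?_)
    by_cases hm : Matched M u t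
    · exact Or.inl hm
    · exact Or.inr ⟨h, hm⟩
  have hc5' : (cnt (Steep M u) (0 + 1) (n - 1) : ℝ) ≤
      cnt (Matched M u) 1 n + cnt (fun t => Steep M u t ∧ ¬ Matched M u t) 1 n := by
    exact_mod_cast hc5
  have m1 := matched_count (η := η) hM hη hκ0 hκ hq hκ₂ hv hu hpu n
  have m2 := matched_count (η := η) hM hη hκ0 hκ hq hκ₂ hv hw hpw n
  rw [zero_add] at hc4 hc5'
  push_cast at hc4
  linarith

end Crest.Agent.R128
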