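import Crest.Agent.R128.Cover

/-! Averaging over the threshold removes the overlaps of the relaxed sets. -/

set_option autoImplicit false

noncomputable section

open MeasureTheory Set

namespace Crest.Agent.R128

open Classical in
theorem avg_one (d : ℕ → ℝ) (κ : ℝ) (js N : ℕ) :
    (((Finset.Ioc js N).filter fun j => (∀ i : ℕ, js ≤ i → i < j → d i ≤ κ * (i : ℝ) ^ 2 + 1) ∧
        κ * (j : ℝ) ^ 2 - 1 < d j).card : ℝ) ≤
      1 + ((Finset.Ioc js N).filter fun j : ℕ => |d j - κ * (j : ℝ) ^ 2| ≤ 1).card := by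
  set A := (Finset.Ioc js N).filter fun j => (∀ i : ℕ, js ≤ i → i < j → d i ≤ κ * (i : ℝ) ^ 2 + 1) ∧
    κ * (j : ℝ) ^ 2 - 1 < d j with hA
  set B := (Finset.Ioc js N).filter fun j : ℕ => |d j - κ * (j : ℝ) ^ 2| ≤ 1 with hB
  have h1 : A ⊆ insert (A.sup id) B := by
    intro j hj
    by_cases hm : j = A.sup id
    · exact Finset.mem_insert.2 (Or.inl hm)
    obtain ⟨m, hmA, hm'⟩ := Finset.exists_mem_eq_sup A ⟨j, hj⟩ id
    have hjm : j ≤ A.sup id := Finset.le_sup (f := id) hj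
    obtain ⟨hj1, -, hj3⟩ := Finset.mem_filter.1 hj
    have h2 := (Finset.mem_filter.1 hmA).2.1 j (Finset.mem_Ioc.1 hj1).1.le
      (lt_of_le_of_ne (hjm.trans_eq hm') fun e => hm (e.trans hm'.symm))
    exact Finset.mem_insert.2 (Or.inr (Finset.mem_filter.2
      ⟨hj1, abs_le.2 ⟨by linarith, by linarith⟩⟩))
  have h2 := (Finset.card_le_card h1).trans (Finset.card_insert_le _ _)
  have h3 : (A.card : ℝ) ≤ B.card + 1 := by exact_mod_cast h2
  linarith

open Classical in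
theorem avg_two (x : ℝ) {y : ℝ} (hy : 0 < y) {N : ℕ} (hN : 0 < N) :
    (((Finset.range N).filter fun i : ℕ => |x - (1 + (i : ℝ) / N) * y| ≤ 1).card : ℝ) ≤
      2 * N / y + 1 := by
  set C := (Finset.range N).filter fun i : ℕ => |x - (1 + (i : ℝ) / N) * y| ≤ 1 with hC
  have hN' : (0 : ℝ) < N := by exact_mod_cast hN
  rcases C.eq_empty_or_nonempty with h | h
  · rw [h, Finset.card_empty, Nat.cast_zero]
    positivity
  have h1 : C ⊆ Finset.Icc (C.min' h) (C.max' h) := fun i hi =>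
    Finset.mem_Icc.2 ⟨C.min'_le i hi, C.le_max' i hi⟩
  have h2 := Finset.card_le_card h1
  have h3 := C.min'_le _ (C.max'_mem h)
  have h4 := abs_le.1 (Finset.mem_filter.1 (C.min'_mem h)).2
  have h5 := abs_le.1 (Finset.mem_filter.1 (C.max'_mem h)).2
  generalize C.min' h = a at *
  generalize C.max' h = b at *
  rw [Nat.card_Icc] at h2
  have h6 : (C.card : ℝ) + a ≤ b + 1 := by exact_mod_cast (by omega : C.card + a ≤ b + 1)
  have h7 : (b : ℝ) - a ≤ 2 * N / y := by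
    rw [le_div_iff₀ hy]
    have : ((b : ℝ) - a) * y / N ≤ 2 := by
      have e : ((b : ℝ) - a) * y / N = (1 + (b : ℝ) / N) * y - (1 + (a : ℝ) / N) * y := by ring
      linarith [h4.2, h5.1]
    rwa [div_le_iff₀ hN'] at this
  linarith

open Classical in
theorem avg_point (d : ℕ → ℝ) {κ₀ : ℝ} (h0 : 0 < κ₀) {js : ℕ} (hjs : 4 / κ₀ ≤ js) {N : ℕ}
    (hN : js < N) :
    ∑ i ∈ Finset.range N, (((Finset.Ioc js N).filter fun j =>
      (∀ l : ℕ, js ≤ l → l < j → d l ≤ κ₀ * (1 + (i : ℝ) / N) * (l : ℝ) ^ 2 + 1) ∧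
        κ₀ * (1 + (i : ℝ) / N) * (j : ℝ) ^ 2 - 1 < d j).card : ℝ) ≤ 3 * N := by
  have hjs0 : (0 : ℝ) < js := lt_of_lt_of_le (by positivity) hjs
  have hjs1 : js ≠ 0 := by
    rintro rfl
    simp at hjs0
  have hN0 : 0 < N := by omega
  have hN' : (0 : ℝ) < N := by exact_mod_cast hN0
  have h1 : ∑ i ∈ Finset.range N, (((Finset.Ioc js N).filter fun j : ℕ =>
      |d j - κ₀ * (1 + (i : ℝ) / N) * (j : ℝ) ^ 2| ≤ 1).card : ℝ) =
      ∑ j ∈ Finset.Ioc js N, (((Finset.range N).filter fun i : ℕ =>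
        |d j - (1 + (i : ℝ) / N) * (κ₀ * (j : ℝ) ^ 2)| ≤ 1).card : ℝ) := by
    simp only [Finset.card_filter, Nat.cast_sum]
    rw [Finset.sum_comm]
    refine Finset.sum_congr rfl fun j _ => Finset.sum_congr rfl fun i _ => ?_
    rw [mul_comm κ₀, mul_assoc]
  have h2 : ∑ j ∈ Finset.Ioc js N, (((Finset.range N).filter fun i : ℕ =>
      |d j - (1 + (i : ℝ) / N) * (κ₀ * (j : ℝ) ^ 2)| ≤ 1).card : ℝ) ≤
      ∑ j ∈ Finset.Ioc js N, (2 * N / κ₀ * ((j : ℝ) ^ 2)⁻¹ + 1) := by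
    refine Finset.sum_le_sum fun j hj => ?_
    have hj' : (0 : ℝ) < j := by exact_mod_cast (by have := (Finset.mem_Ioc.1 hj).1; omega : 0 < j)
    refine (avg_two (d j) (by positivity) hN0).trans_eq ?_
    field_simp
  have h3 := sum_Ioc_inv_sq_le_sub (α := ℝ) hjs1 hN.le
  have h4 : ((Finset.Ioc js N).card : ℝ) ≤ N := by
    rw [Nat.card_Ioc]
    exact_mod_cast Nat.sub_le _ _
  have h5 : 2 * N / κ₀ * ∑ j ∈ Finset.Ioc js N, ((j : ℝ) ^ 2)⁻¹ ≤ 2 * N / κ₀ * (js : ℝ)⁻¹ :=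
    mul_le_mul_of_nonneg_left (h3.trans (sub_le_self _ (by positivity))) (by positivity)
  have h6 : 2 * N / κ₀ * (js : ℝ)⁻¹ ≤ N := by
    rw [div_le_iff₀ h0] at hjs
    rw [← div_eq_mul_inv, div_div, div_le_iff₀ (by positivity)]
    nlinarith
  rw [Finset.sum_add_distrib, ← Finset.mul_sum, Finset.sum_const, nsmul_eq_mul, mul_one] at h2
  refine (Finset.sum_le_sum fun i _ => avg_one d _ js N).trans ?_
  rw [Finset.sum_add_distrib, Finset.sum_const, Finset.card_range, nsmul_eq_mul, mul_one, h1]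
  linarith

/-- Let `κ_i = κ₀ (1 + i/N)`, `i < N` (if `N ≤ js` the sum is empty).  Pointwise in `v`:
`Σ_j 1[v ∈ Rt κ j] ≤ 1[v ∈ Rhat] (1 + #{j ∈ (js,N] : |dfc(j²) - κ j²| ≤ 1})`, because every such `j` but the
largest is within `1` of the threshold, and `Rt κ j ⊆ Rhat (κ₀/2) (N²)` (`κ j² - 1 ≥ κ₀ j²/2`).
For fixed `j` and `v` at most `2N/(κ₀ j²) + 1` indices `i` are within the threshold, and
`Σ_{j > js} 2/(κ₀ j²) ≤ 2/(κ₀ js) ≤ 1`.  So `Σ_i Σ_j 1[v ∈ Rt κ_i j] ≤ 3N 1[v ∈ Rhat]`; integrate and pick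
the best `i` (`Finset.exists_le_of_sum_le`). -/
theorem avg_kappa (M : ℝ) (μ : Measure (ℤ → ℝ)) [IsFiniteMeasure μ] {κ₀ : ℝ} (h0 : 0 < κ₀)
    (h1 : κ₀ ≤ 1) {js : ℕ} (hjs : 4 / κ₀ ≤ js) (N : ℕ) :
    ∃ κ, κ₀ ≤ κ ∧ κ ≤ 2 * κ₀ ∧
      ∑ j ∈ Finset.Ioc js N, μ.real (Rt M κ js j) ≤ 3 * μ.real (Rhat M (κ₀ / 2) (N ^ 2)) := by
  classical
  by_cases hN : N ≤ js
  · refine ⟨κ₀, le_rfl, by linarith, ?_⟩
    rw [Finset.Ioc_eq_empty (not_lt.2 hN), Finset.sum_empty]
    exact mul_nonneg (by norm_num) measureReal_nonneg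
  have hN := not_le.1 hN
  have hN' : (0 : ℝ) < N := by exact_mod_cast (by omega : 0 < N)
  let κ : ℕ → ℝ := fun i => κ₀ * (1 + (i : ℝ) / N)
  have hκ : ∀ i, κ₀ ≤ κ i := fun i => le_mul_of_one_le_right h0.le (le_add_of_nonneg_right (by positivity))
  have hpt : ∀ v, ∑ i ∈ Finset.range N, ∑ j ∈ Finset.Ioc js N,
      (Rt M (κ i) js j).indicator (fun _ => (1 : ℝ)) v ≤
        (Rhat M (κ₀ / 2) (N ^ 2)).indicator (fun _ => 3 * (N : ℝ)) v := by
    intro v
    by_cases hv : v ∈ Rhat M (κ₀ / 2) (N ^ 2)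
    · rw [indicator_of_mem hv]
      refine le_trans (le_of_eq ?_) (avg_point (fun j => dfc M v 0 ((j ^ 2 : ℕ) : ℤ)) h0 hjs hN)
      refine Finset.sum_congr rfl fun i _ => ?_
      rw [Finset.card_filter, Nat.cast_sum]
      refine Finset.sum_congr rfl fun j _ => ?_
      by_cases hj : v ∈ Rt M (κ i) js j
      · rw [indicator_of_mem hj, if_pos (by exact hj), Nat.cast_one]
      · rw [indicator_of_notMem hj, if_neg (by exact hj), Nat.cast_zero]
    · rw [indicator_of_notMem hv]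
      refine le_of_eq (Finset.sum_eq_zero fun i _ => Finset.sum_eq_zero fun j hj => ?_)
      refine indicator_of_notMem (fun hj' => hv ?_) _
      obtain ⟨hj1, hj2⟩ := Finset.mem_Ioc.1 hj
      refine ⟨j ^ 2, Nat.one_le_pow _ _ (by omega), Nat.pow_le_pow_left hj2 2, ?_⟩
      refine lt_of_le_of_lt ?_ hj'.2
      have h2 : (js : ℝ) + 1 ≤ j := by exact_mod_cast hj1
      have h3 : (0 : ℝ) ≤ js := Nat.cast_nonneg js
      have h4 : κ₀ * (j : ℝ) ^ 2 ≤ κ i * (j : ℝ) ^ 2 := mul_le_mul_of_nonneg_right (hκ i) (by positivity)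
      have h5 : 4 ≤ κ₀ * js := by rwa [div_le_iff₀' h0] at hjs
      have h6 : (js : ℝ) ≤ (j : ℝ) ^ 2 := by nlinarith
      have h7 : κ₀ * js ≤ κ₀ * (j : ℝ) ^ 2 := mul_le_mul_of_nonneg_left h6 h0.le
      push_cast
      linarith
  have hint : ∀ i j, Integrable ((Rt M (κ i) js j).indicator fun _ => (1 : ℝ)) μ := fun i j =>
    (integrable_const 1).indicator (measurableSet_Rt M _ js j)
  have h2 := integral_mono (μ := μ)
    (integrable_finsetSum _ fun i _ => integrable_finsetSum _ fun j _ => hint i j)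
    ((integrable_const _).indicator (measurableSet_Rhat M _ _)) hpt
  rw [integral_finsetSum _ fun i _ => integrable_finsetSum _ fun j _ => hint i j,
    integral_indicator_const _ (measurableSet_Rhat M _ _), smul_eq_mul] at h2
  have h3 : ∑ i ∈ Finset.range N, ∑ j ∈ Finset.Ioc js N, μ.real (Rt M (κ i) js j) ≤
      ∑ _i ∈ Finset.range N, 3 * μ.real (Rhat M (κ₀ / 2) (N ^ 2)) := by
    rw [Finset.sum_const, Finset.card_range, nsmul_eq_mul]
    refine le_trans (le_of_eq (Finset.sum_congr rfl fun i _ => ?_)) (h2.trans_eq (by ring))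
    rw [integral_finsetSum _ fun j _ => hint i j]
    refine Finset.sum_congr rfl fun j _ => ?_
    rw [integral_indicator_const _ (measurableSet_Rt M _ js j), smul_eq_mul, mul_one]
  obtain ⟨i, hi, h4⟩ := Finset.exists_le_of_sum_le (Finset.nonempty_range_iff.2 (by omega)) h3
  refine ⟨κ i, hκ i, ?_, h4⟩
  have h5 : (i : ℝ) / N ≤ 1 := (div_le_one hN').2 (by exact_mod_cast (Finset.mem_range.1 hi).le)
  simp only [κ]
  nlinarith

end Crest.Agent.R128
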