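import Crest.Agent.R128.Indep
import Crest.Agent.R128.Avg

/-! Quadratic bound for the probability that a cut is irregular on both sides. -/

set_option autoImplicit false

noncomputable section

open MeasureTheory Set

namespace Crest.Agent.R128

/-- If all sites of `[1, js²]` are good and `v ∉ Rj j` for all `j ∈ (js, N]`, then all square scales
`js ≤ i ≤ N` are regular (strong induction; `i = js` by `dfc_good`), so `reg_squares` applies. -/
theorem regR_of_not_Rj {M η κ : ℝ} {v : ℤ → ℝ} (hv : Bdd M v) (hη0 : 0 ≤ η) (hη : η ≤ 1)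
    (hηκ : η ≤ κ) {js N : ℕ} (hjs : 3 ≤ js)
    (hg : ∀ s : ℤ, 1 ≤ s → s ≤ ((js ^ 2 : ℕ) : ℤ) → Good M η (v s))
    (hn : ∀ j ∈ Finset.Ioc js N, v ∉ Rj M η κ js j) : RegR M (2 * κ) (N ^ 2) v 0 := by
  have hM : 1 < M := by linarith [hv.two_le]
  have key : ∀ i : ℕ, js ≤ i → i ≤ N → dfc M v 0 ((i ^ 2 : ℕ) : ℤ) ≤ κ * (i : ℝ) ^ 2 := by
    intro i
    induction i using Nat.strong_induction_on with
    | _ i ih =>
      intro h1 h2
      rcases h1.eq_or_lt with rfl | h1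
      · have := dfc_good hM hη0 hη (v := v) (a := 0) (b := ((js ^ 2 : ℕ) : ℤ)) (by positivity)
          (fun s h3 h4 => hg s h3 h4)
        push_cast at this ⊢
        nlinarith [sq_nonneg (js : ℝ)]
      · by_contra h3
        exact hn i (Finset.mem_Ioc.2 ⟨h1, h2⟩)
          ⟨hg, fun i' h4 h5 => ih i' h5 h4 (by omega), not_le.1 h3⟩
  intro l hl
  rw [zero_add]
  exact reg_squares hv hη0 hη hηκ hjs hg key l hl

/-- Take `κ` from `avg_kappa`.  A.e. `v` with `LR` has a bad site in `[1, js²]`, or `refl v` has one, or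
`v ∈ refl ⁻¹' Rj j ∩ Rj j'` for some `j, j' ∈ (js, N]` (`regR_of_not_Rj`, `regL_iff`, `2κ ≤ 4κ₀`).
Union bound, shift and reflection invariance, `indep`, `Finset.sum_mul_sum`, `cover`. -/
theorem lr_bound {k η κ₀ : ℝ} (hM : (2 : ℝ) ^ 1000 ≤ Mk k) (h0 : 0 < κ₀) (h1 : κ₀ ≤ 1 / 800)
    (hη0 : 0 ≤ η) (hη : η ≤ κ₀) {js N : ℕ} (hjs : 1000 ≤ js) (hjs' : 4 / κ₀ ≤ js) (hN : 1 ≤ N) :
    (law k).real {v | LR (Mk k) (4 * κ₀) (N ^ 2) v 0} ≤
      2 * (js : ℝ) ^ 2 * (law k).real {v | ¬ Good (Mk k) η (v 0)} +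
        45000 * (8 * avg (Mk k) (law k) (N ^ 2) / (κ₀ * (N : ℝ) ^ 2)) ^ 2 := by
  have hk : 0 ≤ k := nonneg_of_big hM
  have hμ := stat_law hk
  have := hμ.prob
  set M := Mk k with hMdef
  set μ := law k with hμdef
  obtain ⟨κ, hκ1, hκ2, hκ3⟩ := avg_kappa M μ h0 (by linarith) hjs' N
  let Bad : Set (ℤ → ℝ) := ⋃ s ∈ Finset.Icc (1 : ℤ) ((js ^ 2 : ℕ) : ℤ), {v | ¬ Good M η (v s)}
  have hBm : MeasurableSet Bad :=
    Finset.measurableSet_biUnion _ (fun s _ => measurableSet_bad M η s)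
  have hB : μ.real Bad ≤ (js : ℝ) ^ 2 * μ.real {v | ¬ Good M η (v 0)} := by
    refine (measureReal_biUnion_finset_le _ _).trans (le_of_eq ?_)
    have h2 : ∀ s ∈ Finset.Icc (1 : ℤ) ((js ^ 2 : ℕ) : ℤ),
        μ.real {v | ¬ Good M η (v s)} = μ.real {v | ¬ Good M η (v 0)} := by
      intro s _
      rw [← (hμ.shift s).measureReal_preimage (measurableSet_bad M η 0).nullMeasurableSet]
      congr 1
      ext v
      simp [shift]
    rw [Finset.sum_congr rfl h2, Finset.sum_const, Int.card_Icc, nsmul_eq_mul]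
    congr 1
    rw [add_sub_cancel_right, Int.toNat_natCast]
    push_cast
    rfl
  have hB' : μ.real (refl ⁻¹' Bad) = μ.real Bad :=
    hμ.refl.measureReal_preimage hBm.nullMeasurableSet
  have hreg : ∀ v, Bdd M v → v ∉ Bad → ¬ RegR M (4 * κ₀) (N ^ 2) v 0 →
      ∃ j ∈ Finset.Ioc js N, v ∈ Rj M η κ js j := by
    intro v hv h2 h3
    by_contra h4
    push Not at h4
    refine h3 (fun l hl => ?_)
    have h5 := regR_of_not_Rj hv hη0 (by linarith) (hη.trans hκ1) (by omega : 3 ≤ js)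
      (fun s h6 h7 => by
        by_contra h8
        exact h2 (mem_biUnion (Finset.mem_Icc.2 ⟨h6, h7⟩) h8)) h4 l hl
    have h6 : (0 : ℝ) ≤ l := Nat.cast_nonneg l
    nlinarith
  have h2 : μ.real {v | LR M (4 * κ₀) (N ^ 2) v 0} ≤ μ.real (Bad ∪ refl ⁻¹' Bad ∪
      ⋃ j ∈ Finset.Ioc js N, ⋃ j' ∈ Finset.Ioc js N,
        (refl ⁻¹' Rj M η κ js j ∩ Rj M η κ js j')) := by
    refine ENNReal.toReal_mono (measure_ne_top _ _) (measure_mono_ae ?_)
    filter_upwards [hμ.bdd] with v hv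
    rintro ⟨h3, h4⟩
    by_cases h5 : v ∈ Bad
    · exact Or.inl (Or.inl h5)
    by_cases h6 : refl v ∈ Bad
    · exact Or.inl (Or.inr h6)
    obtain ⟨j, hj, h7⟩ := hreg (refl v) (fun s => hv _) h6 (by rwa [← regL_iff])
    obtain ⟨j', hj', h8⟩ := hreg v hv h5 h4
    exact Or.inr (mem_biUnion hj (mem_biUnion hj' ⟨h7, h8⟩))
  have h3 : μ.real (⋃ j ∈ Finset.Ioc js N, ⋃ j' ∈ Finset.Ioc js N,
      (refl ⁻¹' Rj M η κ js j ∩ Rj M η κ js j')) ≤
      5000 * (∑ j ∈ Finset.Ioc js N, μ.real (Rt M κ js j)) ^ 2 := by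
    refine (measureReal_biUnion_finset_le _ _).trans ?_
    rw [sq, Finset.sum_mul_sum, Finset.mul_sum]
    refine Finset.sum_le_sum (fun j hj => ?_)
    refine (measureReal_biUnion_finset_le _ _).trans ?_
    rw [Finset.mul_sum]
    exact Finset.sum_le_sum (fun j' hj' => indep hM hη0 (hη.trans hκ1) (by linarith) hjs
      (Finset.mem_Ioc.1 hj).1 (Finset.mem_Ioc.1 hj').1)
  have h4 := cover hμ (κ := κ₀ / 2) (by positivity) (n := N ^ 2) (Nat.one_le_pow _ _ hN)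
  have hN0 : (0 : ℝ) < N := by exact_mod_cast hN
  have h5 : 4 * avg M μ (N ^ 2) / (κ₀ / 2 * ((N ^ 2 : ℕ) : ℝ)) =
      8 * avg M μ (N ^ 2) / (κ₀ * (N : ℝ) ^ 2) := by
    push_cast
    field_simp
    ring
  rw [h5] at h4
  have h6 : 0 ≤ ∑ j ∈ Finset.Ioc js N, μ.real (Rt M κ js j) :=
    Finset.sum_nonneg (fun _ _ => measureReal_nonneg)
  have h7 : (∑ j ∈ Finset.Ioc js N, μ.real (Rt M κ js j)) ^ 2 ≤
      (3 * (8 * avg M μ (N ^ 2) / (κ₀ * (N : ℝ) ^ 2))) ^ 2 :=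
    pow_le_pow_left₀ h6 (by linarith) 2
  have h8 := measureReal_union_le (μ := μ) (Bad ∪ refl ⁻¹' Bad)
    (⋃ j ∈ Finset.Ioc js N, ⋃ j' ∈ Finset.Ioc js N, (refl ⁻¹' Rj M η κ js j ∩ Rj M η κ js j'))
  have h9 := measureReal_union_le (μ := μ) Bad (refl ⁻¹' Bad)
  nlinarith

end Crest.Agent.R128
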