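import Crest.Agent.R128.Boot1
import Crest.Agent.R128.LRb

/-! The bootstrap. -/

set_option autoImplicit false
set_option exponentiation.threshold 1100

noncomputable section

open MeasureTheory Set

namespace Crest.Agent.R128

theorem boot_improve {k η κ₀ κ₂ ε c C : ℝ} {q₀ js N : ℕ} (hM : (2 : ℝ) ^ 1000 ≤ Mk k)
    (h0 : 0 < κ₀) (h1 : κ₀ ≤ 1 / 800) (hη0 : 0 ≤ η) (hη : η ≤ κ₀) (hjs : 1000 ≤ js)
    (hjs' : 4 / κ₀ ≤ js) (hN : 1 ≤ N) (hq : 24 ≤ q₀) (hκ₂ : 45 / (q₀ : ℝ) + 40 * (4 * κ₀) < κ₂)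
    (hε : 0 < ε) (hεq : ε * ((q₀ : ℝ) + 2) = κ₀ ^ 2 / 1658880000) (hηε : η ≤ ε / 8)
    (hNε : 216 ≤ ε * N)
    (hW : ∀ p : ℕ, (law k).real {v | Wev (Mk k) κ₂ p v 0} ≤ C * Real.exp (-(c * p)))
    (htail : ∀ n : ℕ, ∑ q ∈ Finset.Icc q₀ n, C * Real.exp (-(c * ((q / 4 : ℕ) : ℝ))) ≤ ε / 864)
    (hb : (36 + 18 * (3 * (q₀ : ℝ) + 50) + 72 * ((q₀ : ℝ) + 2) * (js : ℝ) ^ 2) *
      (law k).real {v | ¬ Good (Mk k) η (v 0)} ≤ ε / 8)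
    (ha : avg (Mk k) (law k) (N ^ 2) ≤ 2 * ε * (N : ℝ) ^ 2) :
    avg (Mk k) (law k) (N ^ 2) ≤ ε * (N : ℝ) ^ 2 := by
  have hk : 0 ≤ k := nonneg_of_big hM
  have hμ := stat_law hk
  have hM16 : (16 : ℝ) ≤ Mk k := by
    have := (pow_le_pow_right₀ (one_le_two (α := ℝ)) (by norm_num : 4 ≤ 1000)).trans hM
    linarith
  have hN1 : (1 : ℝ) ≤ N := by exact_mod_cast hN
  have hn1 : (1 : ℝ) ≤ (N : ℝ) ^ 2 := one_le_pow₀ hN1
  have hB := avg_bound (η := η) (κ := 4 * κ₀) hμ hM16 hη0 (by linarith) (by linarith) (by linarith)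
    hq hκ₂ (N ^ 2)
  have hL := lr_bound hM h0 h1 hη0 hη hjs hjs' hN
  have ha0 := avg_nonneg hμ (n := N ^ 2) (Nat.one_le_pow _ _ hN)
  set n : ℝ := (N : ℝ) ^ 2 with hn
  have hcast : ((N ^ 2 : ℕ) : ℝ) = n := by push_cast; rfl
  rw [hcast] at hB
  set a := avg (Mk k) (law k) (N ^ 2) with hadef
  set Pb := (law k).real {v | ¬ Good (Mk k) η (v 0)} with hPb
  set PL := (law k).real {v | LR (Mk k) (4 * κ₀) (N ^ 2) v 0} with hPL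
  have hPb0 : 0 ≤ Pb := measureReal_nonneg
  have hPL0 : 0 ≤ PL := measureReal_nonneg
  have hq0 : (0 : ℝ) ≤ q₀ := Nat.cast_nonneg _
  have hnpos : 0 < n := by linarith
  -- the `W` sum
  have hS : ∑ q ∈ Finset.Icc q₀ (N ^ 2), ((n + 2) * (law k).real {v | Wev (Mk k) κ₂ (q / 4) v 0}) ≤
      3 * n * (ε / 864) := by
    rw [← Finset.mul_sum]
    have h2 : ∑ q ∈ Finset.Icc q₀ (N ^ 2), (law k).real {v | Wev (Mk k) κ₂ (q / 4) v 0} ≤ ε / 864 :=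
      (Finset.sum_le_sum fun q _ => hW (q / 4)).trans (htail _)
    have h3 : 0 ≤ ∑ q ∈ Finset.Icc q₀ (N ^ 2), (law k).real {v | Wev (Mk k) κ₂ (q / 4) v 0} :=
      Finset.sum_nonneg fun _ _ => measureReal_nonneg
    exact mul_le_mul (by linarith) h2 h3 (by positivity)
  -- the quadratic term
  have hQ : 36 * ((q₀ : ℝ) + 2) * (45000 * (8 * a / (κ₀ * n)) ^ 2) ≤ ε / 4 := by
    have h2 : 8 * a / (κ₀ * n) ≤ 16 * ε / κ₀ := by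
      rw [div_le_div_iff₀ (by positivity) h0]
      nlinarith [mul_le_mul_of_nonneg_left ha h0.le]
    have h3 : (8 * a / (κ₀ * n)) ^ 2 ≤ (16 * ε / κ₀) ^ 2 :=
      pow_le_pow_left₀ (by positivity) h2 2
    have h4 : 36 * ((q₀ : ℝ) + 2) * (45000 * (16 * ε / κ₀) ^ 2) = ε / 4 := by
      have : 36 * ((q₀ : ℝ) + 2) * (45000 * (16 * ε / κ₀) ^ 2) =
          (ε * ((q₀ : ℝ) + 2)) * (414720000 * ε / κ₀ ^ 2) := by field_simp; ring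
      rw [this, hεq]; field_simp; norm_num
    rw [← h4]
    gcongr
  have hLR : 18 * ((q₀ : ℝ) + 2) * ((n + 1) * PL) ≤
      n * (72 * ((q₀ : ℝ) + 2) * (js : ℝ) ^ 2 * Pb) + n * (ε / 4) := by
    have h2 : (n + 1) * PL ≤ 2 * n * PL := mul_le_mul_of_nonneg_right (by linarith) hPL0
    have h3 : 36 * ((q₀ : ℝ) + 2) * PL ≤ 72 * ((q₀ : ℝ) + 2) * (js : ℝ) ^ 2 * Pb + ε / 4 := by
      have := mul_le_mul_of_nonneg_left hL (show 0 ≤ 36 * ((q₀ : ℝ) + 2) by positivity)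
      nlinarith
    calc 18 * ((q₀ : ℝ) + 2) * ((n + 1) * PL) ≤ 18 * ((q₀ : ℝ) + 2) * (2 * n * PL) := by gcongr
      _ = n * (36 * ((q₀ : ℝ) + 2) * PL) := by ring
      _ ≤ n * (72 * ((q₀ : ℝ) + 2) * (js : ℝ) ^ 2 * Pb + ε / 4) := by gcongr
      _ = _ := by ring
  have h27 : (27 : ℝ) ≤ n * (ε / 8) := by
    have : ε * N ≤ ε * n := by
      apply mul_le_mul_of_nonneg_left _ hε.le
      rw [hn]; nlinarith
    nlinarith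
  have hbn := mul_le_mul_of_nonneg_left hb hnpos.le
  have hηn := mul_le_mul_of_nonneg_right hηε hnpos.le
  have hεn : 0 ≤ ε * n := by positivity
  nlinarith

set_option maxHeartbeats 2000000 in
theorem boot : ∃ k₀ > 0, ∀ k ≥ k₀, ∃ N₀ : ℕ, 1 ≤ N₀ ∧ ∀ N : ℕ, N₀ ≤ N →
    avg (Mk k) (law k) (N ^ 2) ≤ (N : ℝ) ^ 2 / 4 := by
  obtain ⟨κ₂, hκ₂, c, hc, C, MW, hC, hW⟩ := law_W
  obtain ⟨κ₀, hκ₀⟩ : ∃ x : ℝ, x = min (1 / 800) (κ₂ / 320) := ⟨_, rfl⟩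
  have h0 : 0 < κ₀ := hκ₀ ▸ lt_min (by norm_num) (by positivity)
  have h1 : κ₀ ≤ 1 / 800 := hκ₀ ▸ min_le_left _ _
  have h2 : κ₀ ≤ κ₂ / 320 := hκ₀ ▸ min_le_right _ _
  obtain ⟨A, hA⟩ : ∃ x : ℝ, x = κ₀ ^ 2 / 1658880000 := ⟨_, rfl⟩
  have hA0 : 0 < A := by rw [hA]; positivity
  obtain ⟨Q, hQ⟩ := tail_small hc hC (show 0 < A / 864 by positivity)
  obtain ⟨Q', hQ'⟩ := exists_nat_gt (90 / κ₂)
  obtain ⟨q₀, hq₀⟩ : ∃ x : ℕ, x = max 24 (max Q Q') := ⟨_, rfl⟩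
  have hq24 : 24 ≤ q₀ := hq₀ ▸ le_max_left _ _
  have hqQ : Q ≤ q₀ := hq₀ ▸ (le_max_left _ _).trans (le_max_right _ _)
  have hqQ' : (Q' : ℝ) ≤ q₀ := by
    rw [hq₀]; exact_mod_cast (le_max_right _ _).trans (le_max_right _ _)
  have hq0 : (24 : ℝ) ≤ q₀ := by exact_mod_cast hq24
  have hκq : 45 / (q₀ : ℝ) + 40 * (4 * κ₀) < κ₂ := by
    have h3 : 90 / κ₂ < q₀ := hQ'.trans_le hqQ'
    rw [div_lt_iff₀ hκ₂] at h3
    have h4 : 45 / (q₀ : ℝ) < κ₂ / 2 := by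
      rw [div_lt_iff₀ (by linarith)]; linarith
    linarith
  obtain ⟨ε, hεdef⟩ : ∃ x : ℝ, x = A / ((q₀ : ℝ) + 2) := ⟨_, rfl⟩
  have hε : 0 < ε := by rw [hεdef]; positivity
  have hεq : ε * ((q₀ : ℝ) + 2) = κ₀ ^ 2 / 1658880000 := by
    rw [hεdef, ← hA]; field_simp
  have hε4 : ε ≤ 1 / 4 := by
    have h3 : ε ≤ A := by
      rw [hεdef]; exact div_le_self hA0.le (by linarith)
    have h4 : A ≤ 1 / 4 := by rw [hA]; nlinarith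
    linarith
  obtain ⟨η, hη⟩ : ∃ x : ℝ, x = min κ₀ (ε / 8) := ⟨_, rfl⟩
  have hη0 : 0 < η := hη ▸ lt_min h0 (by positivity)
  have hη1 : η ≤ κ₀ := hη ▸ min_le_left _ _
  have hη2 : η ≤ ε / 8 := hη ▸ min_le_right _ _
  obtain ⟨J, hJ⟩ := exists_nat_ge (4 / κ₀)
  obtain ⟨js, hjs⟩ : ∃ x : ℕ, x = max 1000 J := ⟨_, rfl⟩
  have hjs1 : 1000 ≤ js := hjs ▸ le_max_left _ _
  have hjs2 : 4 / κ₀ ≤ js := hJ.trans (by rw [hjs]; exact_mod_cast le_max_right _ _)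
  obtain ⟨N', hN'⟩ := exists_nat_ge (216 / ε)
  obtain ⟨N₀, hN₀⟩ : ∃ x : ℕ, x = max 1 N' := ⟨_, rfl⟩
  have hN₀1 : 1 ≤ N₀ := hN₀ ▸ le_max_left _ _
  have hN₀ε : 216 ≤ ε * N₀ := by
    have h3 : 216 / ε ≤ N₀ := hN'.trans (by rw [hN₀]; exact_mod_cast le_max_right _ _)
    rw [div_le_iff₀ hε] at h3; linarith
  obtain ⟨C₁, hC₁⟩ : ∃ x : ℝ, x = 36 + 18 * (3 * (q₀ : ℝ) + 50) + 72 * ((q₀ : ℝ) + 2) * (js : ℝ) ^ 2 := ⟨_, rfl⟩
  have hC₁0 : 0 < C₁ := by rw [hC₁]; positivity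
  have hN₀0 : (0 : ℝ) < N₀ := by exact_mod_cast hN₀1
  obtain ⟨kb, hkb, hbad⟩ := bad_small hη0
    (show 0 < min (ε / 8 / C₁) (ε / 2 / (N₀ : ℝ) ^ 2) from lt_min (by positivity) (by positivity))
  obtain ⟨B, hB⟩ : ∃ x : ℝ, x = 2 ^ 1000 := ⟨_, rfl⟩
  refine ⟨max kb (max B MW), lt_of_lt_of_le hkb (le_max_left _ _), fun k hk => ?_⟩
  have hk1 : k ≥ kb := (le_max_left _ _).trans hk
  have hk0 : 0 ≤ k := hkb.le.trans hk1
  have hkM : k ≤ Mk k := by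
    unfold Mk; nlinarith [Real.pi_gt_three]
  have hM' : B ≤ Mk k :=
    (((le_max_left _ _).trans (le_max_right _ _)).trans hk).trans hkM
  have hMW : MW ≤ Mk k := (((le_max_right _ _).trans (le_max_right _ _)).trans hk).trans hkM
  have hμ := stat_law hk0
  have hPb := hbad k hk1
  obtain ⟨Pb, hPbdef⟩ : ∃ x : ℝ, x = (law k).real {v | ¬ Good (Mk k) η (v 0)} := ⟨_, rfl⟩
  rw [← hPbdef] at hPb
  have hPb1 : C₁ * Pb ≤ ε / 8 := by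
    have := hPb.trans (min_le_left _ _)
    rw [le_div_iff₀ hC₁0] at this; linarith
  have hPb2 : (N₀ : ℝ) ^ 2 * Pb ≤ ε / 2 := by
    have := hPb.trans (min_le_right _ _)
    rw [le_div_iff₀ (by positivity)] at this; linarith
  have htail : ∀ n : ℕ,
      ∑ q ∈ Finset.Icc q₀ n, C * Real.exp (-(c * ((q / 4 : ℕ) : ℝ))) ≤ ε / 864 := by
    intro n
    have h3 := hQ q₀ hqQ n
    rw [hεdef, div_right_comm, le_div_iff₀ (by linarith)]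
    linarith
  refine ⟨N₀, hN₀1, fun N hN => ?_⟩
  have key : avg (Mk k) (law k) (N ^ 2) ≤ ε * (N : ℝ) ^ 2 := by
    induction N, hN using Nat.le_induction with
    | base =>
      have h3 := avg_small hμ hη0.le (by linarith) (N₀ ^ 2)
      push_cast at h3
      rw [← hPbdef] at h3
      have h4 : ((N₀ : ℝ) ^ 2) ^ 2 * Pb ≤ (N₀ : ℝ) ^ 2 * (ε / 2) := by
        rw [sq ((N₀ : ℝ) ^ 2), mul_assoc]; gcongr
      have h5 : η * (N₀ : ℝ) ^ 2 ≤ ε / 8 * (N₀ : ℝ) ^ 2 := by gcongr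
      have h6 : 0 ≤ ε * (N₀ : ℝ) ^ 2 := by positivity
      nlinarith
    | succ N hN ih =>
      have hNr : (N₀ : ℝ) ≤ N := by exact_mod_cast hN
      have hNε : 216 ≤ ε * ((N + 1 : ℕ) : ℝ) := by
        push_cast; nlinarith
      refine boot_improve (hB ▸ hM') h0 h1 hη0.le hη1 hjs1 hjs2 (Nat.le_add_left _ _) hq24 hκq hε hεq hη2 hNε
        (hW k hMW) htail (by rw [← hC₁, ← hPbdef]; exact hPb1) ?_
      have h3 := avg_ext hμ (show N ^ 2 ≤ (N + 1) ^ 2 from Nat.pow_le_pow_left (Nat.le_succ _) 2)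
      push_cast at h3 hNε ⊢
      have hN0 : (0 : ℝ) ≤ N := Nat.cast_nonneg _
      nlinarith [mul_le_mul_of_nonneg_right hNε (show (0 : ℝ) ≤ N + 1 by linarith)]
  have h7 : 0 ≤ (N : ℝ) ^ 2 := by positivity
  nlinarith

end Crest.Agent.R128
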