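import Crest.Agent.R128.Nrm
import Crest.Agent.R128.Sun

/-! Expectations under a stationary law; the covering estimate. -/

set_option autoImplicit false

noncomputable section

open MeasureTheory Set

namespace Crest.Agent.R128

theorem cover_cnt_eq (S : Set (ℤ → ℝ)) (a b : ℤ) :
    (fun v => (cnt (fun t => shift t v ∈ S) a b : ℝ)) =
      fun v => ∑ t ∈ Finset.Icc a b, (shift t ⁻¹' S).indicator (fun _ => (1 : ℝ)) v := by
  funext v
  rw [cnt_eq_sum]
  refine Finset.sum_congr rfl fun t _ => ?_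
  by_cases h : shift t v ∈ S <;> simp [h, indicator]

theorem integrable_cnt {μ : Measure (ℤ → ℝ)} [IsFiniteMeasure μ] {S : Set (ℤ → ℝ)}
    (hS : MeasurableSet S) (a b : ℤ) :
    Integrable (fun v => (cnt (fun t => shift t v ∈ S) a b : ℝ)) μ := by
  rw [cover_cnt_eq]
  exact integrable_finsetSum _ fun t _ => (integrable_const 1).indicator (measurable_shift t hS)

theorem integral_cnt {M : ℝ} {μ : Measure (ℤ → ℝ)} (hμ : Stat M μ) {S : Set (ℤ → ℝ)}
    (hS : MeasurableSet S) {a b : ℤ} (hab : a ≤ b + 1) :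
    ∫ v, (cnt (fun t => shift t v ∈ S) a b : ℝ) ∂μ = ((b : ℝ) - a + 1) * μ.real S := by
  have := hμ.prob
  rw [cover_cnt_eq, integral_finsetSum _
    fun t _ => (integrable_const 1).indicator (measurable_shift t hS)]
  have h1 : ∀ t ∈ Finset.Icc a b,
      ∫ v, (shift t ⁻¹' S).indicator (fun _ => (1 : ℝ)) v ∂μ = μ.real S := fun t _ => by
    rw [integral_indicator_const _ (measurable_shift t hS), smul_eq_mul, mul_one,
      (hμ.shift t).measureReal_preimage hS.nullMeasurableSet]
  rw [Finset.sum_congr rfl h1, Finset.sum_const, Int.card_Icc, nsmul_eq_mul]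
  congr 1
  have h2 : (((b + 1 - a).toNat : ℤ) : ℝ) = ((b + 1 - a : ℤ) : ℝ) := by
    rw [Int.toNat_of_nonneg (by omega)]
  rw [Int.cast_natCast] at h2
  rw [h2]
  push_cast
  ring

theorem Stat.two_le {M : ℝ} {μ : Measure (ℤ → ℝ)} (hμ : Stat M μ) : 2 ≤ M := by
  have := hμ.prob
  obtain ⟨v, hv⟩ := hμ.bdd.exists
  exact hv.two_le

theorem integrable_dfc {M : ℝ} {μ : Measure (ℤ → ℝ)} (hμ : Stat M μ) {a b : ℤ} (hab : a ≤ b) :
    Integrable (fun v => dfc M v a b) μ := by
  have := hμ.prob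
  have hM : 1 < M := by linarith [hμ.two_le]
  refine Integrable.of_bound (measurable_dfc M a b).aestronglyMeasurable ((b : ℝ) - a + 1) ?_
  filter_upwards [hμ.bdd] with v hv
  have h1 := neg_one_le_dfc hv hab
  have h2 := dfc_le hM v a b
  have h3 : (a : ℝ) ≤ b := by exact_mod_cast hab
  rw [Real.norm_eq_abs, abs_le]
  constructor <;> linarith

theorem avg_nonneg {M : ℝ} {μ : Measure (ℤ → ℝ)} (hμ : Stat M μ) {n : ℕ} (hn : 1 ≤ n) :
    0 ≤ avg M μ n := by
  refine integral_nonneg_of_ae ?_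
  filter_upwards [hμ.bdd] with v hv
  exact dfc_nonneg hv (by omega)

theorem avg_ext {M : ℝ} {μ : Measure (ℤ → ℝ)} (hμ : Stat M μ) {m n : ℕ} (h : m ≤ n) :
    avg M μ n ≤ avg M μ m + 2 * ((n : ℝ) - m) := by
  have := hμ.prob
  have hm := integrable_dfc hμ (a := 0) (b := m) (by omega)
  have hn := integrable_dfc hμ (a := 0) (b := n) (by omega)
  have h1 : ∫ v, dfc M v 0 n ∂μ ≤ ∫ v, (dfc M v 0 m + 2 * ((n : ℝ) - m)) ∂μ := by
    refine integral_mono_ae hn (hm.add (integrable_const _)) ?_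
    filter_upwards [hμ.bdd] with v hv
    have := dfc_ext_right hv 0 (b := m) (c := n) (by omega)
    simpa using this
  rw [integral_add hm (integrable_const _), integral_const, probReal_univ, one_smul] at h1
  exact h1

/-- Markov. -/
theorem markov_dfc {M : ℝ} {μ : Measure (ℤ → ℝ)} (hμ : Stat M μ) {n : ℕ} (hn : 1 ≤ n) {x : ℝ}
    (hx : 0 < x) : μ.real {v | x < dfc M v 0 n} ≤ avg M μ n / x := by
  have := hμ.prob
  have h1 : x * μ.real {v | x ≤ dfc M v 0 n} ≤ avg M μ n := by
    refine mul_meas_ge_le_integral_of_nonneg ?_ (integrable_dfc hμ (by omega)) x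
    filter_upwards [hμ.bdd] with v hv
    exact dfc_nonneg hv (by omega)
  have h2 : μ.real {v | x < dfc M v 0 n} ≤ μ.real {v | x ≤ dfc M v 0 n} :=
    measureReal_mono fun v (hv : x < dfc M v 0 n) => hv.le
  rw [le_div_iff₀ hx]
  nlinarith

/-- If no site of `[1, n]` is bad, `dfc ≤ η n` (`dfc_good`); always `dfc ≤ n`. -/
theorem avg_small {M η : ℝ} {μ : Measure (ℤ → ℝ)} (hμ : Stat M μ) (hη0 : 0 ≤ η) (hη : η ≤ 1) (n : ℕ) :
    avg M μ n ≤ η * n + (n : ℝ) ^ 2 * μ.real {v | ¬ Good M η (v 0)} := by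
  have := hμ.prob
  have hM : 1 < M := by linarith [hμ.two_le]
  have hS : MeasurableSet {v : ℤ → ℝ | ¬ Good M η (v 0)} :=
    (measurableSet_le measurable_const (measurable_pi_apply (0 : ℤ)).abs).compl
  have hc := integrable_cnt (μ := μ) hS 1 n
  have h1 : avg M μ n ≤ ∫ v, (η * n +
      n * (cnt (fun t => shift t v ∈ {v : ℤ → ℝ | ¬ Good M η (v 0)}) 1 n : ℝ)) ∂μ := by
    refine integral_mono (integrable_dfc hμ (by omega))
      ((integrable_const _).add (hc.const_mul _)) fun v => ?_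
    have hn0 : (0 : ℝ) ≤ n := Nat.cast_nonneg n
    by_cases hg : ∀ s : ℤ, 0 < s → s ≤ n → Good M η (v s)
    · have h2 := dfc_good hM hη0 hη (v := v) (a := 0) (b := n) (by omega) hg
      have h3 : (0 : ℝ) ≤ n * (cnt (fun t => shift t v ∈ {v : ℤ → ℝ | ¬ Good M η (v 0)}) 1 n : ℝ) :=
        by positivity
      simp only [Int.cast_natCast, Int.cast_zero, sub_zero] at h2
      linarith
    · push Not at hg
      obtain ⟨s, hs0, hsn, hs⟩ := hg
      have h2 := dfc_le hM v 0 n
      have h3 : cnt (fun _ => True) s s ≤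
          cnt (fun t => shift t v ∈ {v : ℤ → ℝ | ¬ Good M η (v 0)}) 1 n := by
        refine cnt_mono fun t h1 h2 _ => ?_
        obtain rfl : t = s := by omega
        refine ⟨by omega, hsn, ?_⟩
        change ¬ Good M η (v (0 + t))
        rwa [zero_add]
      have h4 := cnt_all (P := fun _ => True) (a := s) (b := s) (by omega) fun _ _ _ => trivial
      have h5 : (1 : ℝ) ≤ cnt (fun t => shift t v ∈ {v : ℤ → ℝ | ¬ Good M η (v 0)}) 1 n := by
        have : ((cnt (fun _ => True) s s : ℕ) : ℝ) ≤ _ := Nat.cast_le.2 h3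
        linarith
      simp only [Int.cast_natCast, Int.cast_zero, sub_zero] at h2
      have h6 : 0 ≤ η * n := by positivity
      nlinarith
  rw [integral_add (integrable_const _) (hc.const_mul _), integral_const, probReal_univ, one_smul,
    integral_const_mul, integral_cnt hμ hS (by omega)] at h1
  refine h1.trans (le_of_eq ?_)
  push_cast
  ring

theorem measurableSet_bad (M η : ℝ) (s : ℤ) : MeasurableSet {v : ℤ → ℝ | ¬ Good M η (v s)} := by
  exact (measurableSet_le measurable_const (measurable_pi_apply s).abs).compl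

theorem measurableSet_Rhat (M κ : ℝ) (n : ℕ) : MeasurableSet (Rhat M κ n) := by
  unfold Rhat
  rw [ofPred_exists]
  refine MeasurableSet.iUnion fun l => ?_
  exact (MeasurableSet.const _).inter ((MeasurableSet.const _).inter
    (measurableSet_lt measurable_const (measurable_dfc M _ _)))

theorem measurableSet_Rj (M η κ : ℝ) (js j : ℕ) : MeasurableSet (Rj M η κ js j) := by
  refine MeasurableSet.inter ?_ (MeasurableSet.inter ?_
    (measurableSet_lt measurable_const (measurable_dfc M _ _)))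
  · change MeasurableSet {v : ℤ → ℝ | ∀ s : ℤ, _}
    rw [ofPred_forall]
    refine MeasurableSet.iInter fun s => ?_
    have : Measurable fun v : ℤ → ℝ => Good M η (v s) :=
      measurableSet_setOfPred.1 (measurableSet_le measurable_const (measurable_pi_apply s).abs)
    measurability
  · change MeasurableSet {v : ℤ → ℝ | ∀ s : ℕ, _}
    rw [ofPred_forall]
    refine MeasurableSet.iInter fun i => ?_
    have := measurable_dfc M 0 ((i ^ 2 : ℕ) : ℤ)
    measurability

theorem measurableSet_Rt (M κ : ℝ) (js j : ℕ) : MeasurableSet (Rt M κ js j) := by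
  refine MeasurableSet.inter ?_ (measurableSet_lt measurable_const (measurable_dfc M _ _))
  change MeasurableSet {v : ℤ → ℝ | ∀ s : ℕ, _}
  rw [ofPred_forall]
  refine MeasurableSet.iInter fun i => ?_
  have := measurable_dfc M 0 ((i ^ 2 : ℕ) : ℤ)
  measurability

theorem measurableSet_LR (M κ : ℝ) (n : ℕ) (t : ℤ) : MeasurableSet {v | LR M κ n v t} := by
  refine MeasurableSet.inter (MeasurableSet.compl ?_) (MeasurableSet.compl ?_)
  · change MeasurableSet {v : ℤ → ℝ | ∀ s : ℕ, _}
    rw [ofPred_forall]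
    refine MeasurableSet.iInter fun l => ?_
    have := measurable_dfc M (t - l) t
    measurability
  · change MeasurableSet {v : ℤ → ℝ | ∀ s : ℕ, _}
    rw [ofPred_forall]
    refine MeasurableSet.iInter fun l => ?_
    have := measurable_dfc M t (t + l)
    measurability

theorem LR_shift (M κ : ℝ) (n : ℕ) (v : ℤ → ℝ) (t : ℤ) : LR M κ n (shift t v) 0 ↔ LR M κ n v t := by
  simp only [LR, RegL, RegR, dfc_shift, zero_add, sub_eq_add_neg, add_comm _ t, add_zero]

theorem regL_iff (M κ : ℝ) (n : ℕ) (v : ℤ → ℝ) : RegL M κ n v 0 ↔ RegR M κ n (refl v) 0 := by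
  simp only [RegL, RegR, dfc_refl, zero_add, zero_sub, neg_zero]

/-- Let `m = n / 2`.  Windows with `l ≤ m`: by `sun_right` with `D = dfc / κ` on `[0, n]`, the number of
cuts `t ∈ [0, n - m - 1]` with `shift t v ∈ Rhat M κ m` is `≤ dfc(0,n)/κ`; take expectations
(`integral_cnt`, `n - m ≥ n/2`).  Windows with `l > n/2`: `dfc(0,n) ≥ dfc(0,l) > κ n/2`, `markov_dfc`. -/
theorem cover {M κ : ℝ} {μ : Measure (ℤ → ℝ)} (hμ : Stat M μ) (hκ : 0 < κ) {n : ℕ} (hn : 1 ≤ n) :
    μ.real (Rhat M κ n) ≤ 4 * avg M μ n / (κ * n) := by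
  classical
  have := hμ.prob
  have hM : 1 < M := by linarith [hμ.two_le]
  have hn0 : (0 : ℝ) < n := by exact_mod_cast hn
  obtain ⟨m, hm1, hm2⟩ : ∃ m : ℕ, 2 * m ≤ n ∧ n ≤ 2 * m + 1 := ⟨n / 2, by omega, by omega⟩
  have hm1' : 2 * (m : ℝ) ≤ n := by exact_mod_cast hm1
  have hA := avg_nonneg hμ hn
  have h1 : μ.real (Rhat M κ n) ≤
      μ.real (Rhat M κ m) + μ.real {v | κ * n / 2 < dfc M v 0 n} := by
    refine le_trans ?_ (measureReal_union_le _ _)
    refine ENNReal.toReal_mono (measure_ne_top _ _) (measure_mono_ae ?_)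
    filter_upwards [hμ.bdd] with v hv
    rintro ⟨l, hl1, hl2, hl⟩
    by_cases hlm : l ≤ m
    · exact Or.inl ⟨l, hl1, hlm, hl⟩
    · refine Or.inr ?_
      have h2 := dfc_mono hv (a := 0) (a' := 0) (b' := l) (b := n) le_rfl (by omega) (by omega)
      have h3 : (n : ℝ) ≤ 2 * l := by exact_mod_cast (by omega : n ≤ 2 * l)
      change κ * n / 2 < dfc M v 0 n
      nlinarith
  have h2 := markov_dfc hμ hn (x := κ * n / 2) (by positivity)
  have h3 : ∫ v, (cnt (fun t => shift t v ∈ Rhat M κ m) 0 ((n : ℤ) - m - 1) : ℝ) ∂μ ≤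
      ∫ v, dfc M v 0 n / κ ∂μ := by
    refine integral_mono_ae (integrable_cnt (measurableSet_Rhat M κ m) _ _)
      ((integrable_dfc hμ (by omega)).div_const _) ?_
    filter_upwards [hμ.bdd] with v hv
    refine sun_right (fun a b => dfc M v a b / κ)
      (fun a b hab => div_nonneg (dfc_nonneg hv hab) hκ.le)
      (fun a b c _ _ => by
        rw [← add_div]; exact div_le_div_of_nonneg_right (dfc_super hM v a b c) hκ.le)
      0 n (by omega) _ fun t ht => ?_
    rw [Finset.mem_filter, Finset.mem_Icc] at ht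
    obtain ⟨⟨ht0, ht1⟩, l, hl1, hl2, hl⟩ := ht
    rw [dfc_shift, zero_add] at hl
    refine ⟨ht0, l + t, by omega, by omega, ?_⟩
    rw [le_div_iff₀ hκ]
    push_cast
    linarith
  rw [integral_cnt hμ (measurableSet_Rhat M κ m) (by omega), integral_div] at h3
  change _ ≤ avg M μ n / κ at h3
  have h4 : 0 ≤ μ.real (Rhat M κ m) := measureReal_nonneg
  have h5 : μ.real (Rhat M κ m) ≤ 2 * avg M μ n / (κ * n) := by
    rw [le_div_iff₀ hκ] at h3
    rw [le_div_iff₀ (by positivity)]
    push_cast at h3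
    have h6 : 0 ≤ ((n : ℝ) - 2 * m) * (μ.real (Rhat M κ m) * κ) :=
      mul_nonneg (by linarith) (by positivity)
    nlinarith
  have h6 : avg M μ n / (κ * n / 2) = 2 * avg M μ n / (κ * n) := by field_simp
  have h7 : 4 * avg M μ n / (κ * n) = 2 * avg M μ n / (κ * n) + 2 * avg M μ n / (κ * n) := by ring
  linarith

end Crest.Agent.R128
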