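import Crest.Agent.R128.Per

/-! The law of the potential. -/

set_option autoImplicit false

noncomputable section

open MeasureTheory Set

namespace Crest.Agent.R128

theorem law_apply (k : ℝ) {S : Set (ℤ → ℝ)} (hS : MeasurableSet S) :
    law k S = volume (pot k ⁻¹' S ∩ Q0) := by
  rw [law, Measure.map_apply (measurable_pot k) hS,
    Measure.restrict_apply (measurable_pot k hS)]

theorem law_shift_one (k : ℝ) : MeasurePreserving (shift 1) (law k) (law k) := by
  refine ⟨measurable_shift 1, ?_⟩
  ext S hS
  have hφ : Measurable (phi k) :=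
    (continuous_iff_continuousAt.2 fun x => (hasDerivAt_phi k x).continuousAt).measurable
  rw [Measure.map_apply (measurable_shift 1) hS, law_apply k (measurable_shift 1 hS),
    law_apply k hS, ← per_skew hφ (measurable_pot k hS) (per_pot k S)]
  congr 2
  ext z
  simp only [mem_preimage, ← sp_one, pot_sp]

theorem law_shift_neg_one (k : ℝ) : MeasurePreserving (shift (-1)) (law k) (law k) := by
  refine ⟨measurable_shift _, ?_⟩
  ext S hS
  rw [Measure.map_apply (measurable_shift _) hS,
    ← (law_shift_one k).measure_preimage (measurable_shift _ hS).nullMeasurableSet]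
  congr 1
  ext v
  simp only [mem_preimage, shift_shift, neg_add_cancel, shift_zero]

/-- `shift 1` from `per_skew`, `sp_one`, `pot_sp`, `per_pot`; then all `t` by induction;
`refl` from `per_swap` and `pot_swap`. -/
theorem stat_law {k : ℝ} (hk : 0 ≤ k) : Stat (Mk k) (law k) := by
  refine ⟨⟨?_⟩, fun t => ?_, ⟨measurable_refl, ?_⟩, ?_⟩
  · rw [law_apply k MeasurableSet.univ, preimage_univ, univ_inter, volume_Q0]
  · induction t using Int.induction_on with
    | zero =>
      have e : shift 0 = id := funext shift_zero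
      rw [e]
      exact MeasurePreserving.id _
    | succ t ih =>
      have e : shift ((t : ℤ) + 1) = shift t ∘ shift 1 := funext fun v => (shift_shift _ _ v).symm
      rw [e]
      exact ih.comp (law_shift_one k)
    | pred t ih =>
      have e : shift (-(t : ℤ) - 1) = shift (-(t : ℤ)) ∘ shift (-1) :=
        funext fun v => (shift_shift _ _ v).symm
      rw [e]
      exact ih.comp (law_shift_neg_one k)
  · ext S hS
    rw [Measure.map_apply measurable_refl hS, law_apply k (measurable_refl hS), law_apply k hS,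
      ← per_swap (measurable_pot k hS)]
    congr 2
    ext z
    simp only [mem_preimage, pot_swap]
  · have hB : MeasurableSet {v : ℤ → ℝ | Bdd (Mk k) v} := by
      change MeasurableSet {v : ℤ → ℝ | ∀ s, _}
      rw [ofPred_forall]
      exact MeasurableSet.iInter fun s =>
        measurableSet_le (measurable_pi_apply s).abs measurable_const
    exact (ae_map_iff (measurable_pot k).aemeasurable hB).2 (ae_of_all _ (pot_bdd hk))

theorem law_cos_low {x : ℝ} (h0 : 0 ≤ x) (h1 : x ≤ 1 / 2) :
    4 * |x - 1 / 4| ≤ |Real.cos (2 * Real.pi * x)| := by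
  have hpi := Real.pi_pos
  have e : Real.pi / 2 - 2 * Real.pi * x = -(2 * Real.pi) * (x - 1 / 4) := by ring
  have h2 : |Real.pi / 2 - 2 * Real.pi * x| = 2 * Real.pi * |x - 1 / 4| := by
    rw [e, abs_mul, abs_neg, abs_of_pos (by positivity : 0 < 2 * Real.pi)]
  have h3 : |x - 1 / 4| ≤ 1 / 4 := abs_le.2 ⟨by linarith, by linarith⟩
  have h4 := Real.mul_abs_le_abs_sin (x := Real.pi / 2 - 2 * Real.pi * x) (by rw [h2]; nlinarith)
  rw [Real.sin_pi_div_two_sub, h2] at h4
  refine le_of_eq_of_le ?_ h4
  field_simp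
  ring

/-- `|2 + K cos 2πx| < V` forces `|cos 2πx| < θ = (V+2)/K`, and `|cos 2πx| ≥ 4 dist(x, {1/4, 3/4})`
on `[0,1]`; the two intervals have total length `θ`. -/
theorem law_bad {k V : ℝ} (hk : 0 < k) (hV : 0 ≤ V) :
    (law k).real {v | |v 0| < V} ≤ (V + 2) / (2 * Real.pi * k) := by
  have hK : 0 < 2 * Real.pi * k := by positivity
  set θ := (V + 2) / (2 * Real.pi * k) with hθ
  have hθ0 : 0 ≤ θ := by positivity
  have hS : MeasurableSet {v : ℤ → ℝ | |v 0| < V} :=
    measurableSet_lt (measurable_pi_apply (0 : ℤ)).abs measurable_const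
  have hsub : pot k ⁻¹' {v : ℤ → ℝ | |v 0| < V} ∩ Q0 ⊆
      (Ioo (1 / 4 - θ / 4) (1 / 4 + θ / 4) ∪ Ioo (3 / 4 - θ / 4) (3 / 4 + θ / 4)) ×ˢ
        Ico (0 : ℝ) 1 := by
    rintro ⟨x, y⟩ ⟨h1, hx, hy⟩
    refine ⟨?_, hy⟩
    have h2 : |vee k x| < V := by
      have : |vee k (orb k (x, y) 0)| < V := h1
      rwa [orb_zero] at this
    have h3 : |Real.cos (2 * Real.pi * x)| < θ := by
      rw [hθ, lt_div_iff₀ hK]
      have h4 : |Real.cos (2 * Real.pi * x)| * (2 * Real.pi * k) =
          |2 * Real.pi * k * Real.cos (2 * Real.pi * x)| := by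
        rw [abs_mul (2 * Real.pi * k), abs_of_pos hK, mul_comm]
      rw [h4]
      unfold vee at h2
      rw [abs_lt] at h2 ⊢
      constructor <;> linarith [h2.1, h2.2]
    rcases le_total x (1 / 2) with h | h
    · have := (law_cos_low hx.1 h).trans_lt h3
      have h5 : |x - 1 / 4| < θ / 4 := by linarith
      rw [abs_lt] at h5
      exact Or.inl ⟨by linarith [h5.1], by linarith [h5.2]⟩
    · have h6 := law_cos_low (x := 1 - x) (by linarith [hx.2]) (by linarith)
      rw [show 2 * Real.pi * (1 - x) = 2 * Real.pi - 2 * Real.pi * x by ring,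
        Real.cos_two_pi_sub] at h6
      have := h6.trans_lt h3
      have h5 : |1 - x - 1 / 4| < θ / 4 := by linarith
      rw [abs_lt] at h5
      exact Or.inr ⟨by linarith [h5.2], by linarith [h5.1]⟩
  have h7 : law k {v : ℤ → ℝ | |v 0| < V} ≤ ENNReal.ofReal θ := by
    rw [law_apply k hS]
    refine (measure_mono hsub).trans ?_
    rw [Measure.volume_eq_prod, Measure.prod_prod, Real.volume_Ico, sub_zero, ENNReal.ofReal_one,
      mul_one]
    refine (measure_union_le _ _).trans ?_
    rw [Real.volume_Ioo, Real.volume_Ioo,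
      ← ENNReal.ofReal_add (by linarith) (by linarith)]
    exact ENNReal.ofReal_le_ofReal (by linarith)
  exact ENNReal.toReal_le_of_le_ofReal hθ0 h7

end Crest.Agent.R128
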