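import Crest.Agent.R128.Line
import Crest.Agent.R128.Law

/-! The bound (D) for the law of the potential. -/

set_option autoImplicit false

noncomputable section

open MeasureTheory Set

namespace Crest.Agent.R128

/-- `Wev` is a union over `α = u (c+1)` of open sets (`IsSol.eq_sol`, `continuous_sol`). -/
theorem isOpen_Wev (M κ : ℝ) (p : ℕ) (c : ℤ) : IsOpen {v | Wev M κ p v c} := by
  have e : {v | Wev M κ p v c} = ⋃ α : ℝ, {v | nu (sol v c 1 α) (c + p) < M ^ (-((1 - κ) * p))} ∩
      {v | nu (sol v c 1 α) (c - p - 1) < M ^ (-((1 - κ) * p))} := by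
    ext v
    simp only [mem_setOf_eq, mem_iUnion, mem_inter_iff]
    constructor
    · rintro ⟨u, hu, h0, h1, h2⟩
      refine ⟨u (c + 1), ?_⟩
      have e := hu.eq_sol c
      rw [h0] at e
      rw [← e]
      exact ⟨h1, h2⟩
    · rintro ⟨α, h1, h2⟩
      exact ⟨_, sol_isSol v c 1 α, sol_left v c 1 α, h1, h2⟩
  have hs : ∀ (α : ℝ) (s : ℤ), Continuous fun v : ℤ → ℝ => sol v c 1 α s := fun α s =>
    (continuous_sol c s).comp (f := fun v : ℤ → ℝ => (v, (1 : ℝ), α)) (by fun_prop)
  have hn : ∀ (α : ℝ) (s : ℤ), Continuous fun v : ℤ → ℝ => nu (sol v c 1 α) s := fun α s =>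
    (hs α s).abs.max (hs α (s + 1)).abs
  rw [e]
  exact isOpen_iUnion fun α =>
    (isOpen_lt (hn α _) continuous_const).inter (isOpen_lt (hn α _) continuous_const)

theorem Wev_shift (M κ : ℝ) (p : ℕ) (v : ℤ → ℝ) (t : ℤ) :
    Wev M κ p (shift t v) 0 ↔ Wev M κ p v t := by
  constructor
  · rintro ⟨u, hu, h0, h1, h2⟩
    have h := hu.shift (-t)
    rw [shift_shift, neg_add_cancel, shift_zero] at h
    refine ⟨_, h, ?_, ?_, ?_⟩
    · simpa [shift] using h0
    · rw [nu_shift, show t + (p : ℤ) + -t = 0 + p by ring]; exact h1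
    · rw [nu_shift, show t - (p : ℤ) - 1 + -t = 0 - p - 1 by ring]; exact h2
  · rintro ⟨u, hu, h0, h1, h2⟩
    refine ⟨_, hu.shift t, ?_, ?_, ?_⟩
    · simpa [shift] using h0
    · rw [nu_shift, show 0 + (p : ℤ) + t = t + p by ring]; exact h1
    · rw [nu_shift, show 0 - (p : ℤ) - 1 + t = t - p - 1 by ring]; exact h2

theorem WLaw_lin (k a t : ℝ) (w : ℕ → ℝ) (h0 : w 0 = 1)
    (h : ∀ n, w (n + 2) = vee k (rX k a t (n + 1)) * w (n + 1) - w n) :
    w = fun n => rxi k a t n + w 1 * rchi k a t n := by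
  funext n
  induction n using Nat.twoStepInduction with
  | zero => simp [rxi, rchi, fwd, h0]
  | one => simp [rxi, rchi, fwd]
  | more n ih1 ih2 =>
    have e1 : rxi k a t (n + 2) = vee k (rX k a t (n + 1)) * rxi k a t (n + 1) - rxi k a t n := rfl
    have e2 : rchi k a t (n + 2) =
        vee k (rX k a t (n + 1)) * rchi k a t (n + 1) - rchi k a t n := rfl
    rw [h, ih1, ih2, e1, e2]
    ring

/-- `α = u 1`, `α' = u (-1)`; `u n = ξ n + α χ n` and `u (-n) = ξ' n + α' χ' n` by two-step induction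
(`orb_nat`, `orb_neg_nat`). -/
theorem Wline_of_Wev {k κ : ℝ} {p : ℕ} {a t : ℝ} (h : Wev (Mk k) κ p (pot k (a, t)) 0) :
    Wline k κ p a t (phi k a - t) := by
  obtain ⟨u, hu, h0, h1, h2⟩ := h
  have e1 := WLaw_lin k a t (fun n => u n) h0 fun n => by
    have := hu ((n + 1 : ℕ) : ℤ)
    rw [pot, orb_nat] at this
    convert this using 2 <;> push_cast <;> ring_nf
  have e2 := WLaw_lin k a (phi k a - t) (fun n => u (-(n : ℤ))) h0 fun n => by
    have := hu (-((n + 1 : ℕ) : ℤ))
    rw [pot, orb_neg_nat] at this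
    rw [show (-((n + 1 : ℕ) : ℤ) + 1) = -(n : ℤ) by push_cast; ring,
      show (-((n + 1 : ℕ) : ℤ) - 1) = -((n + 2 : ℕ) : ℤ) by push_cast; ring] at this
    rw [this]
    ring
  refine ⟨u ((1 : ℕ) : ℤ), u (-((1 : ℕ) : ℤ)), ?_, ?_, ?_⟩
  · have := hu 0
    rw [h0, pot, orb_zero] at this
    simp only [zero_add, zero_sub, mul_one] at this
    simp only [Nat.cast_one, this]
    ring
  · rw [← e1]
    convert h1 using 1
    simp [nuN, nu]
  · rw [← e2]
    convert h2 using 1
    rw [nuN, nu, max_comm]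
    congr 3 <;> push_cast <;> ring

/-- `law_apply`, Fubini (`Measure.prod_apply`), `line_bound`. -/
theorem law_W : ∃ κ > 0, ∃ c > 0, ∃ C M₀ : ℝ, 0 ≤ C ∧ ∀ (k : ℝ), M₀ ≤ Mk k → ∀ p : ℕ,
    (law k).real {v | Wev (Mk k) κ p v 0} ≤ C * Real.exp (-(c * p)) := by
  obtain ⟨κ, hκ, c, hc, C, M₀, h⟩ := line_bound
  refine ⟨κ, hκ, c, hc, max C 0, M₀, le_max_right _ _, fun k hk p => ?_⟩
  have hm : MeasurableSet {v | Wev (Mk k) κ p v 0} := (isOpen_Wev _ _ _ _).measurableSet
  have hQ : MeasurableSet Q0 := measurableSet_Ico.prod measurableSet_Ico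
  refine ENNReal.toReal_le_of_le_ofReal (by positivity) ?_
  rw [law_apply k hm, Measure.volume_eq_prod,
    Measure.prod_apply ((measurable_pot k hm).inter hQ)]
  calc _ ≤ ∫⁻ a, (Ico (0 : ℝ) 1).indicator
        (fun _ => ENNReal.ofReal (max C 0 * Real.exp (-(c * p)))) a := by
        refine lintegral_mono fun a => ?_
        by_cases ha : a ∈ Ico (0 : ℝ) 1
        · rw [indicator_of_mem ha]
          refine le_trans (measure_mono ?_) ((h k hk p a).trans (ENNReal.ofReal_le_ofReal ?_))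
          · rintro t ⟨h1, h2⟩
            exact ⟨h2.2, Wline_of_Wev h1⟩
          · gcongr
            exact le_max_left _ _
        · rw [indicator_of_notMem ha]
          refine (measure_mono_null ?_ measure_empty).le
          rintro t ⟨-, h2⟩
          exact ha h2.1
    _ = _ := by
        rw [lintegral_indicator measurableSet_Ico]
        simp

end Crest.Agent.R128
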