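import Crest.Agent.R128.A3
import Crest.Agent.R128.Cover
import Crest.Agent.R128.WLaw

/-! The deterministic bound in expectation. -/

set_option autoImplicit false

noncomputable section

open MeasureTheory Set

namespace Crest.Agent.R128

/-- Integrate `det_bound` (`integral_mono_ae`, `integral_cnt`, `integrable_cnt`, `LR_shift`, `Wev_shift`,
`isOpen_Wev`, `measurableSet_bad`, `measurableSet_LR`). -/
theorem avg_bound {M η κ κ₂ : ℝ} {μ : Measure (ℤ → ℝ)} (hμ : Stat M μ) (hM : 16 ≤ M) (hη0 : 0 ≤ η)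
    (hη : η ≤ 1 / 2) (hκ0 : 0 ≤ κ) (hκ : κ ≤ 1 / 4) {q₀ : ℕ} (hq : 24 ≤ q₀)
    (hκ₂ : 45 / (q₀ : ℝ) + 40 * κ < κ₂) (n : ℕ) :
    avg M μ n ≤ η * n + 27 +
      (36 + 18 * (3 * (q₀ : ℝ) + 50)) * (n * μ.real {v | ¬ Good M η (v 0)}) +
        18 * ((q₀ : ℝ) + 2) * ((n + 1) * μ.real {v | LR M κ n v 0}) +
        36 * ∑ q ∈ Finset.Icc q₀ n, ((n + 2) * μ.real {v | Wev M κ₂ (q / 4) v 0}) := by
  have := hμ.prob
  have m1 := measurableSet_bad M η 0
  have m2 := measurableSet_LR M κ n 0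
  have m3 : ∀ q : ℕ, MeasurableSet {v | Wev M κ₂ (q / 4) v 0} := fun q =>
    (isOpen_Wev M κ₂ (q / 4) 0).measurableSet
  have i1 := integrable_cnt (μ := μ) m1 1 n
  have i2 := integrable_cnt (μ := μ) m2 0 n
  have i3 := fun q : ℕ => integrable_cnt (μ := μ) (m3 q) 0 (n + 1)
  have e1 := integral_cnt hμ m1 (a := 1) (b := n) (by omega)
  have e2 := integral_cnt hμ m2 (a := 0) (b := n) (by omega)
  have e3 := fun q : ℕ => integral_cnt hμ (m3 q) (a := 0) (b := n + 1) (by omega)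
  have i4 : Integrable (fun v => ∑ q ∈ Finset.Icc q₀ n,
      (cnt (fun t => shift t v ∈ {v | Wev M κ₂ (q / 4) v 0}) 0 (n + 1) : ℝ)) μ :=
    integrable_finsetSum _ fun q _ => i3 q
  have j0 : Integrable (fun _ : ℤ → ℝ => η * n + 27) μ := integrable_const _
  have j1 := i1.const_mul (36 + 18 * (3 * (q₀ : ℝ) + 50))
  have j2 := i2.const_mul (18 * ((q₀ : ℝ) + 2))
  have j3 := i4.const_mul 36
  have j01 := j0.fun_add j1
  have j012 := j01.fun_add j2
  have key : avg M μ n ≤ ∫ v, (η * n + 27 +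
      (36 + 18 * (3 * (q₀ : ℝ) + 50)) *
        (cnt (fun t => shift t v ∈ {v : ℤ → ℝ | ¬ Good M η (v 0)}) 1 n : ℝ) +
      18 * ((q₀ : ℝ) + 2) * (cnt (fun t => shift t v ∈ {v | LR M κ n v 0}) 0 n : ℝ) +
      36 * ∑ q ∈ Finset.Icc q₀ n,
        (cnt (fun t => shift t v ∈ {v | Wev M κ₂ (q / 4) v 0}) 0 (n + 1) : ℝ)) ∂μ := by
    refine integral_mono_ae (integrable_dfc hμ (by omega)) (j012.fun_add j3) ?_
    filter_upwards [hμ.bdd] with v hv
    have h := det_bound hM hη0 hη hκ0 hκ hq hκ₂ hv n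
    have f1 : (fun t => shift t v ∈ {v : ℤ → ℝ | ¬ Good M η (v 0)}) = fun s => ¬ Good M η (v s) := by
      funext t
      simp [shift]
    have f2 : (fun t => shift t v ∈ {v | LR M κ n v 0}) = LR M κ n v :=
      funext fun t => propext (LR_shift M κ n v t)
    have f3 : ∀ q : ℕ, (fun t => shift t v ∈ {v | Wev M κ₂ (q / 4) v 0}) = Wev M κ₂ (q / 4) v :=
      fun q => funext fun t => propext (Wev_shift M κ₂ (q / 4) v t)
    rw [← f1, ← f2, Finset.sum_congr rfl fun q _ => by rw [← f3 q]] at h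
    exact h
  refine key.trans (le_of_eq ?_)
  rw [integral_add j012 j3, integral_add j01 j2, integral_add j0 j1,
    integral_const_mul, integral_const_mul, integral_const_mul,
    integral_finsetSum _ fun q _ => i3 q, e1, e2, Finset.sum_congr rfl fun q _ => e3 q]
  simp only [integral_const, probReal_univ, smul_eq_mul, one_mul]
  push_cast
  congr 1
  · ring
  · congr 1
    exact Finset.sum_congr rfl fun q _ => by ring

/-- The tail of the `W`-series is `o(1/q₀)`: `exp (-(c ⌊q/4⌋)) ≤ exp c · exp (-(c/4) q)`, geometric series,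
and `q exp (-(c/4) q) → 0`. -/
theorem tail_small {c C ε : ℝ} (hc : 0 < c) (hC : 0 ≤ C) (hε : 0 < ε) :
    ∃ Q : ℕ, ∀ q₀ : ℕ, Q ≤ q₀ → ∀ n : ℕ,
      ((q₀ : ℝ) + 2) * ∑ q ∈ Finset.Icc q₀ n, C * Real.exp (-(c * ((q / 4 : ℕ) : ℝ))) ≤ ε := by
  set r := Real.exp (-(c / 4)) with hr
  have hr0 : 0 < r := Real.exp_pos _
  have hr1 : r < 1 := Real.exp_lt_one_iff.2 (by linarith)
  have h1 : ∀ q : ℕ, C * Real.exp (-(c * ((q / 4 : ℕ) : ℝ))) ≤ C * Real.exp c * r ^ q := fun q => by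
    rw [mul_assoc, hr, ← Real.exp_nat_mul, ← Real.exp_add]
    refine mul_le_mul_of_nonneg_left (Real.exp_le_exp.2 ?_) hC
    have h2 : (q : ℝ) ≤ 4 * ((q / 4 : ℕ) : ℝ) + 4 := by
      exact_mod_cast (by omega : q ≤ 4 * (q / 4) + 4)
    nlinarith
  have t1 := tendsto_self_mul_const_pow_of_lt_one hr0.le hr1
  have t2 := tendsto_pow_atTop_nhds_zero_of_lt_one hr0.le hr1
  have t3 := (t1.add (t2.const_mul 2)).const_mul (C * Real.exp c / (1 - r))
  simp only [mul_zero, add_zero] at t3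
  obtain ⟨Q, hQ⟩ := Filter.eventually_atTop.1 (t3.eventually (ge_mem_nhds hε))
  refine ⟨Q, fun q₀ hq n => le_trans ?_ (hQ q₀ hq)⟩
  have h3 : ∑ q ∈ Finset.Icc q₀ n, C * Real.exp (-(c * ((q / 4 : ℕ) : ℝ))) ≤
      C * Real.exp c * (r ^ q₀ / (1 - r)) := by
    refine (Finset.sum_le_sum fun q _ => h1 q).trans ?_
    rw [← Finset.mul_sum, ← Finset.Ico_add_one_right_eq_Icc]
    exact mul_le_mul_of_nonneg_left (geom_sum_Ico_le_of_lt_one hr0.le hr1) (by positivity)
  refine (mul_le_mul_of_nonneg_left h3 (by positivity)).trans (le_of_eq ?_)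
  ring

/-- Bad sites are rare for large `k` (`law_bad` with `V = M^(1-η) + 1`; `M^(-η) → 0`). -/
theorem bad_small {η ε : ℝ} (hη : 0 < η) (hε : 0 < ε) :
    ∃ k₀ > 0, ∀ k ≥ k₀, (law k).real {v | ¬ Good (Mk k) η (v 0)} ≤ ε := by
  have hπ := Real.pi_gt_three
  have t0 : Filter.Tendsto Mk Filter.atTop Filter.atTop :=
    Filter.tendsto_atTop_add_const_right _ 4 (Filter.tendsto_id.const_mul_atTop (by positivity))
  have t1 := ((tendsto_rpow_neg_atTop hη).comp t0).const_mul 2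
  have t2 := (tendsto_inv_atTop_zero.comp t0).const_mul 6
  have t3 := t1.add t2
  simp only [mul_zero, add_zero] at t3
  obtain ⟨k₁, hk₁⟩ := Filter.eventually_atTop.1 (t3.eventually (ge_mem_nhds hε))
  refine ⟨max k₁ 1, lt_max_of_lt_right one_pos, fun k hk => ?_⟩
  have hk1 : 1 ≤ k := (le_max_right _ _).trans hk
  have hK : 4 ≤ 2 * Real.pi * k := by nlinarith
  have hM : 0 < Mk k := by unfold Mk; linarith
  have hMK : Mk k ≤ 2 * (2 * Real.pi * k) := by unfold Mk; linarith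
  have hp : 0 < Mk k ^ (1 - η) := Real.rpow_pos_of_pos hM _
  have h1 := law_bad (k := k) (V := Mk k ^ (1 - η) + 1) (by linarith) (by linarith)
  have e : {v : ℤ → ℝ | ¬ Good (Mk k) η (v 0)} = {v | |v 0| < Mk k ^ (1 - η) + 1} := by
    ext v
    simp [Good]
  rw [e]
  refine h1.trans (le_trans ?_ (hk₁ k ((le_max_left _ _).trans hk)))
  have e2 : Mk k ^ (1 - η) = Mk k ^ (-η) * Mk k := by
    rw [← Real.rpow_add_one hM.ne']
    congr 1
    ring
  have hq : 0 < Mk k ^ (-η) := Real.rpow_pos_of_pos hM _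
  simp only [Function.comp]
  rw [div_le_iff₀ (by linarith), e2]
  have h2 : 1 ≤ (Mk k)⁻¹ * (2 * (2 * Real.pi * k)) := by
    rw [inv_mul_eq_div, le_div_iff₀ hM]
    linarith
  nlinarith [mul_le_mul_of_nonneg_left hMK hq.le]

end Crest.Agent.R128
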