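import Crest.Agent.R128.Orb

/-! Basic facts on the one-sided real and complex objects. -/

set_option autoImplicit false

noncomputable section

open MeasureTheory Set

namespace Crest.Agent.R128

@[simp] theorem rX_zero (k a t : ℝ) : rX k a t 0 = a := rfl
@[simp] theorem rX_one (k a t : ℝ) : rX k a t 1 = t := rfl
theorem rX_rec (k a t : ℝ) (n : ℕ) : rX k a t (n + 2) = phi k (rX k a t (n + 1)) - rX k a t n := rfl
@[simp] theorem rchi_zero (k a t : ℝ) : rchi k a t 0 = 0 := rfl
@[simp] theorem rchi_one (k a t : ℝ) : rchi k a t 1 = 1 := rfl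
theorem rchi_rec (k a t : ℝ) (n : ℕ) :
    rchi k a t (n + 2) = vee k (rX k a t (n + 1)) * rchi k a t (n + 1) - rchi k a t n := rfl
@[simp] theorem rxi_zero (k a t : ℝ) : rxi k a t 0 = 1 := rfl
@[simp] theorem rxi_one (k a t : ℝ) : rxi k a t 1 = 0 := rfl
theorem rxi_rec (k a t : ℝ) (n : ℕ) :
    rxi k a t (n + 2) = vee k (rX k a t (n + 1)) * rxi k a t (n + 1) - rxi k a t n := rfl
@[simp] theorem cX_zero (k a : ℝ) (t : ℂ) : cX k a t 0 = a := rfl
@[simp] theorem cX_one (k a : ℝ) (t : ℂ) : cX k a t 1 = t := rfl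
theorem cX_rec (k a : ℝ) (t : ℂ) (n : ℕ) :
    cX k a t (n + 2) = cphi k (cX k a t (n + 1)) - cX k a t n := rfl
@[simp] theorem cchi_zero (k a : ℝ) (t : ℂ) : cchi k a t 0 = 0 := rfl
@[simp] theorem cchi_one (k a : ℝ) (t : ℂ) : cchi k a t 1 = 1 := rfl
theorem cchi_rec (k a : ℝ) (t : ℂ) (n : ℕ) :
    cchi k a t (n + 2) = cvee k (cX k a t (n + 1)) * cchi k a t (n + 1) - cchi k a t n := rfl
@[simp] theorem cxi_zero (k a : ℝ) (t : ℂ) : cxi k a t 0 = 1 := rfl
@[simp] theorem cxi_one (k a : ℝ) (t : ℂ) : cxi k a t 1 = 0 := rfl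
theorem cxi_rec (k a : ℝ) (t : ℂ) (n : ℕ) :
    cxi k a t (n + 2) = cvee k (cX k a t (n + 1)) * cxi k a t (n + 1) - cxi k a t n := rfl

theorem cphi_ofReal (k x : ℝ) : cphi k x = (phi k x : ℝ) := by
  simp [cphi, phi]

theorem cvee_ofReal (k x : ℝ) : cvee k x = (vee k x : ℝ) := by
  simp [cvee, vee]

theorem cX_ofReal (k a t : ℝ) (n : ℕ) : cX k a t n = (rX k a t n : ℝ) := by
  induction n using Nat.twoStepInduction with
  | zero => simp
  | one => simp
  | more n h1 h2 => rw [cX_rec, rX_rec, h1, h2, cphi_ofReal]; push_cast; rfl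

theorem cchi_ofReal (k a t : ℝ) (n : ℕ) : cchi k a t n = (rchi k a t n : ℝ) := by
  induction n using Nat.twoStepInduction with
  | zero => simp
  | one => simp
  | more n h1 h2 => rw [cchi_rec, rchi_rec, h1, h2, cX_ofReal, cvee_ofReal]; push_cast; rfl

theorem cxi_ofReal (k a t : ℝ) (n : ℕ) : cxi k a t n = (rxi k a t n : ℝ) := by
  induction n using Nat.twoStepInduction with
  | zero => simp
  | one => simp
  | more n h1 h2 => rw [cxi_rec, rxi_rec, h1, h2, cX_ofReal, cvee_ofReal]; push_cast; rfl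

theorem hasDerivAt_cphi (k : ℝ) (x : ℂ) : HasDerivAt (cphi k) (cvee k x) x := by
  have h1 : HasDerivAt (fun x : ℂ => 2 * (Real.pi : ℂ) * x) (2 * Real.pi) x := by
    simpa using (hasDerivAt_id x).const_mul (2 * (Real.pi : ℂ))
  have h2 : HasDerivAt (fun x : ℂ => 2 * x) 2 x := by
    simpa using (hasDerivAt_id x).const_mul (2 : ℂ)
  have h3 := h2.add (h1.csin.const_mul (k : ℂ))
  exact h3.congr_deriv (by unfold cvee; ring)

theorem differentiable_cvee (k : ℝ) : Differentiable ℂ (cvee k) := by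
  unfold cvee
  fun_prop

theorem hasDerivAt_cX (k a : ℝ) (t : ℂ) (n : ℕ) :
    HasDerivAt (fun t => cX k a t n) (cchi k a t n) t := by
  induction n using Nat.twoStepInduction with
  | zero => exact hasDerivAt_const _ _
  | one => exact hasDerivAt_id t
  | more n h1 h2 => exact ((hasDerivAt_cphi k _).comp t h2).sub h1

theorem hasDerivAt_rX (k a t : ℝ) (n : ℕ) :
    HasDerivAt (fun t => rX k a t n) (rchi k a t n) t := by
  induction n using Nat.twoStepInduction with
  | zero => exact hasDerivAt_const _ _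
  | one => exact hasDerivAt_id t
  | more n h1 h2 => exact ((hasDerivAt_phi k _).comp t h2).sub h1

theorem differentiable_cX (k a : ℝ) (n : ℕ) : Differentiable ℂ fun t => cX k a t n := by
  exact fun t => (hasDerivAt_cX k a t n).differentiableAt

theorem differentiable_cchi (k a : ℝ) (n : ℕ) : Differentiable ℂ fun t => cchi k a t n := by
  induction n using Nat.twoStepInduction with
  | zero => exact differentiable_const _
  | one => exact differentiable_const _
  | more n h1 h2 =>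
    exact (((differentiable_cvee k).comp (differentiable_cX k a (n + 1))).mul h2).sub h1

theorem differentiable_cxi (k a : ℝ) (n : ℕ) : Differentiable ℂ fun t => cxi k a t n := by
  induction n using Nat.twoStepInduction with
  | zero => exact differentiable_const _
  | one => exact differentiable_const _
  | more n h1 h2 =>
    exact (((differentiable_cvee k).comp (differentiable_cX k a (n + 1))).mul h2).sub h1

theorem cwronsk (k a : ℝ) (t : ℂ) (n : ℕ) :
    cxi k a t n * cchi k a t (n + 1) - cxi k a t (n + 1) * cchi k a t n = 1 := by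
  induction n with
  | zero => simp
  | succ n ih => rw [cchi_rec, cxi_rec]; linear_combination ih

theorem rwronsk (k a t : ℝ) (n : ℕ) :
    rxi k a t n * rchi k a t (n + 1) - rxi k a t (n + 1) * rchi k a t n = 1 := by
  induction n with
  | zero => simp
  | succ n ih => rw [rchi_rec, rxi_rec]; linear_combination ih

theorem cbasic_norm_sin {z : ℂ} (h : |z.im| ≤ 1) : ‖Complex.sin z‖ ≤ 2 := by
  have h1 : ‖Complex.sin z‖ ≤ (Real.exp z.im + Real.exp (-z.im)) / 2 := by
    have h2 := congrArg (fun w => ‖w‖) (Complex.two_sin z)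
    simp only [norm_mul, Complex.norm_I, mul_one, Complex.norm_ofNat] at h2
    have h3 := norm_sub_le (Complex.exp (-z * Complex.I)) (Complex.exp (z * Complex.I))
    rw [Complex.norm_exp, Complex.norm_exp] at h3
    simp only [Complex.mul_re, Complex.I_re, mul_zero, Complex.I_im, mul_one, zero_sub,
      Complex.neg_im, neg_neg] at h3
    linarith
  have he := Real.exp_one_lt_d9
  rw [abs_le] at h
  rcases le_total 0 z.im with h0 | h0
  · have h2 : Real.exp z.im ≤ Real.exp 1 := Real.exp_le_exp.2 h.2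
    have h3 : Real.exp (-z.im) ≤ 1 := Real.exp_le_one_iff.2 (by linarith)
    linarith
  · have h2 : Real.exp (-z.im) ≤ Real.exp 1 := Real.exp_le_exp.2 (by linarith)
    have h3 : Real.exp z.im ≤ 1 := Real.exp_le_one_iff.2 h0
    linarith

theorem cbasic_norm_cos (z : ℂ) : ‖Complex.cos z‖ ≤ Real.exp |z.im| := by
  have h2 := congrArg (fun w => ‖w‖) (Complex.two_cos z)
  simp only [norm_mul, Complex.norm_ofNat] at h2
  have h3 := norm_add_le (Complex.exp (z * Complex.I)) (Complex.exp (-z * Complex.I))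
  rw [Complex.norm_exp, Complex.norm_exp] at h3
  simp only [Complex.mul_re, Complex.I_re, mul_zero, Complex.I_im, mul_one, zero_sub,
    Complex.neg_im, neg_neg] at h3
  have h4 : Real.exp z.im ≤ Real.exp |z.im| := Real.exp_le_exp.2 (le_abs_self _)
  have h5 : Real.exp (-z.im) ≤ Real.exp |z.im| := Real.exp_le_exp.2 (neg_le_abs _)
  linarith

/-- `|cos (x + w) - cos x| ≤ |w| cosh |w|`-type bound (mean value inequality on the segment, or the
addition formula): `K · 2π · cosh(2π/7) ≤ 14 M`. -/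
theorem cvee_sub_le {k : ℝ} (hk : 0 ≤ k) (x : ℝ) (w : ℂ) (hw : ‖w‖ ≤ 1 / 7) :
    ‖cvee k (x + w) - (vee k x : ℝ)‖ ≤ 14 * Mk k * ‖w‖ := by
  have hpi := Real.pi_pos
  have hpi' := Real.pi_lt_d2
  have hd : ∀ z ∈ Metric.closedBall (x : ℂ) (1 / 7), HasDerivWithinAt (cvee k)
      (2 * Real.pi * k * (-Complex.sin (2 * Real.pi * z) * (2 * Real.pi)))
      (Metric.closedBall (x : ℂ) (1 / 7)) z := fun z _ => by
    have h1 : HasDerivAt (fun x : ℂ => 2 * (Real.pi : ℂ) * x) (2 * Real.pi) z := by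
      simpa using (hasDerivAt_id z).const_mul (2 * (Real.pi : ℂ))
    exact ((h1.ccos.const_mul (2 * Real.pi * k : ℂ)).const_add 2).hasDerivWithinAt
  have hb : ∀ z ∈ Metric.closedBall (x : ℂ) (1 / 7),
      ‖(2 * Real.pi * k * (-Complex.sin (2 * Real.pi * z) * (2 * Real.pi)) : ℂ)‖ ≤ 14 * Mk k := by
    intro z hz
    have h1 : |z.im| ≤ 1 / 7 := by
      have := (Complex.abs_im_le_norm (z - x)).trans (mem_closedBall_iff_norm.1 hz)
      simpa using this
    have h2 : (2 * (Real.pi : ℂ) * z).im = 2 * Real.pi * z.im := by simp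
    have h3 : |(2 * (Real.pi : ℂ) * z).im| ≤ 1 := by
      rw [h2, abs_mul, abs_of_pos (by positivity : 0 < 2 * Real.pi)]
      nlinarith [abs_nonneg z.im]
    have h4 := cbasic_norm_sin h3
    have h5 : ‖(2 * Real.pi * k * (-Complex.sin (2 * Real.pi * z) * (2 * Real.pi)) : ℂ)‖ =
        2 * Real.pi * k * (‖Complex.sin (2 * Real.pi * z)‖ * (2 * Real.pi)) := by
      simp [abs_of_nonneg hk, abs_of_pos hpi]
    rw [h5, Mk]
    have h6 : ‖Complex.sin (2 * Real.pi * z)‖ * (2 * Real.pi) ≤ 14 := by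
      nlinarith [norm_nonneg (Complex.sin (2 * Real.pi * z))]
    have h7 : 0 ≤ 2 * Real.pi * k := by positivity
    nlinarith
  have := (convex_closedBall (x : ℂ) (1 / 7)).norm_image_sub_le_of_norm_hasDerivWithin_le hd hb
    (Metric.mem_closedBall_self (by norm_num)) (y := x + w)
    (mem_closedBall_iff_norm.2 (by simpa using hw))
  rwa [cvee_ofReal, add_sub_cancel_left] at this

/-- `‖cos (x + i y)‖ ≤ cosh y ≤ exp |y|`. -/
theorem norm_cvee_le {k : ℝ} (hk : 0 ≤ k) (x : ℝ) (w : ℂ) :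
    ‖cvee k (x + w)‖ ≤ 2 + 2 * Real.pi * k * Real.exp (2 * Real.pi * ‖w‖) := by
  have hpi := Real.pi_pos
  have h1 : |(2 * (Real.pi : ℂ) * (x + w)).im| ≤ 2 * Real.pi * ‖w‖ := by
    have : (2 * (Real.pi : ℂ) * (x + w)).im = 2 * Real.pi * w.im := by simp
    rw [this, abs_mul, abs_of_pos (by positivity : 0 < 2 * Real.pi)]
    exact mul_le_mul_of_nonneg_left (Complex.abs_im_le_norm w) (by positivity)
  have h2 := (cbasic_norm_cos _).trans (Real.exp_le_exp.2 h1)
  unfold cvee
  refine (norm_add_le _ _).trans ?_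
  have h3 : ‖(2 * Real.pi * k * Complex.cos (2 * Real.pi * (x + w)) : ℂ)‖ =
      2 * Real.pi * k * ‖Complex.cos (2 * Real.pi * (x + w))‖ := by
    simp [abs_of_nonneg hk, abs_of_pos hpi]
  rw [h3, Complex.norm_ofNat]
  have h4 : 0 ≤ 2 * Real.pi * k := by positivity
  gcongr

theorem nuN_nonneg (u : ℕ → ℝ) (s : ℕ) : 0 ≤ nuN u s := by
  exact (abs_nonneg _).trans (le_max_left _ _)

theorem abs_le_nuN (u : ℕ → ℝ) (s : ℕ) : |u s| ≤ nuN u s := by
  exact le_max_left _ _

theorem abs_succ_le_nuN (u : ℕ → ℝ) (s : ℕ) : |u (s + 1)| ≤ nuN u s := by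
  exact le_max_right _ _

@[simp] theorem nuN_rchi_zero (k a t : ℝ) : nuN (rchi k a t) 0 = 1 := by
  simp [nuN]

theorem nuN_rchi_pos (k a t : ℝ) (s : ℕ) : 0 < nuN (rchi k a t) s := by
  refine (nuN_nonneg _ s).lt_of_ne fun h => ?_
  have h1 := abs_le_nuN (rchi k a t) s
  have h2 := abs_succ_le_nuN (rchi k a t) s
  rw [← h, abs_nonpos_iff] at h1 h2
  have := rwronsk k a t s
  rw [h1, h2] at this
  simp at this

theorem nuN_rchi_up {k : ℝ} (hk : 0 ≤ k) (a t : ℝ) (s : ℕ) :
    nuN (rchi k a t) (s + 1) ≤ Mk k * nuN (rchi k a t) s := by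
  have hM : 4 ≤ Mk k := by
    have := Real.pi_pos
    have : 0 ≤ 2 * Real.pi * k := by positivity
    unfold Mk; linarith
  have h0 := nuN_nonneg (rchi k a t) s
  have h1 := abs_le_nuN (rchi k a t) s
  have h2 := abs_succ_le_nuN (rchi k a t) s
  have h3 := abs_vee_le hk (rX k a t (s + 1))
  refine max_le (by nlinarith) ?_
  rw [rchi_rec]
  refine (abs_sub _ _).trans ?_
  rw [abs_mul]
  have := mul_le_mul h3 h2 (abs_nonneg _) (by linarith)
  nlinarith

theorem nuN_rchi_down {k : ℝ} (hk : 0 ≤ k) (a t : ℝ) (s : ℕ) :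
    nuN (rchi k a t) s ≤ Mk k * nuN (rchi k a t) (s + 1) := by
  have hM : 4 ≤ Mk k := by
    have := Real.pi_pos
    have : 0 ≤ 2 * Real.pi * k := by positivity
    unfold Mk; linarith
  have h0 := nuN_nonneg (rchi k a t) (s + 1)
  have h1 := abs_le_nuN (rchi k a t) (s + 1)
  have h2 := abs_succ_le_nuN (rchi k a t) (s + 1)
  have h3 := abs_vee_le hk (rX k a t (s + 1))
  refine max_le ?_ (by nlinarith)
  have e : rchi k a t s =
      vee k (rX k a t (s + 1)) * rchi k a t (s + 1) - rchi k a t (s + 1 + 1) := by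
    rw [rchi_rec]; ring
  rw [e]
  refine (abs_sub _ _).trans ?_
  rw [abs_mul]
  have := mul_le_mul h3 h1 (abs_nonneg _) (by linarith)
  nlinarith

theorem nuN_rchi_le {k : ℝ} (hk : 0 ≤ k) (a t : ℝ) {s s' : ℕ} (h : s ≤ s') :
    nuN (rchi k a t) s' ≤ Mk k ^ (s' - s) * nuN (rchi k a t) s := by
  have hM : 0 ≤ Mk k := by
    have := Real.pi_pos
    unfold Mk; positivity
  induction s', h using Nat.le_induction with
  | base => simp
  | succ n hn ih =>
    rw [show n + 1 - s = n - s + 1 by omega, pow_succ', mul_assoc]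
    exact (nuN_rchi_up hk a t n).trans (mul_le_mul_of_nonneg_left ih hM)

/-- At a backward Pliss cut the norm is carried by the last entry (`N = 0` directly; otherwise
`|χ N| ≤ ν(N-1) ≤ M^(-49/50) ν(N) < ν(N)`). -/
theorem PlM.abs_succ {k a t : ℝ} (hk : 0 ≤ k) {N : ℕ} (h : PlM (Mk k) (rchi k a t) N) :
    |rchi k a t (N + 1)| = nuN (rchi k a t) N ∧
      |rchi k a t N| ≤ Mk k ^ (-(49 / 50 : ℝ)) * nuN (rchi k a t) N := by
  have hM : 4 ≤ Mk k := by
    have := Real.pi_pos
    have : 0 ≤ 2 * Real.pi * k := by positivity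
    unfold Mk; linarith
  have hp := nuN_rchi_pos k a t N
  have hr : 0 < Mk k ^ (-(49 / 50 : ℝ)) := Real.rpow_pos_of_pos (by linarith) _
  have hlt : Mk k ^ (-(49 / 50 : ℝ)) < 1 :=
    Real.rpow_lt_one_of_one_lt_of_neg (by linarith) (by norm_num)
  have h2 : |rchi k a t N| ≤ Mk k ^ (-(49 / 50 : ℝ)) * nuN (rchi k a t) N := by
    rcases N with _ | N
    · simpa using hr.le
    · have h3 := h N (Nat.le_succ N)
      rw [show (49 / 50 : ℝ) * (((N + 1 : ℕ) : ℝ) - N) = 49 / 50 by push_cast; ring] at h3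
      exact (abs_succ_le_nuN _ N).trans h3
  refine ⟨?_, h2⟩
  have h4 : |rchi k a t N| < nuN (rchi k a t) N := by nlinarith
  rcases max_choice |rchi k a t N| |rchi k a t (N + 1)| with h5 | h5
  · exact absurd h5.symm h4.ne
  · exact h5.symm

end Crest.Agent.R128
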