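import Crest.Agent.R128.CBasic

/-! Complex distortion estimate below a Pliss cut. -/

set_option autoImplicit false

noncomputable section

open MeasureTheory Set

namespace Crest.Agent.R128

/-- Mean value inequality on a disc for the complex orbit. -/
theorem cdist_mv (k a t₀ : ℝ) (n : ℕ) {r C : ℝ}
    (h : ∀ τ : ℂ, ‖τ‖ ≤ r → ‖cchi k a (t₀ + τ) n‖ ≤ C) (τ : ℂ) (hτ : ‖τ‖ ≤ r) :
    ‖cX k a (t₀ + τ) n - (rX k a t₀ n : ℝ)‖ ≤ C * r := by
  have hr : 0 ≤ r := (norm_nonneg _).trans hτ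
  have hC : 0 ≤ C := (norm_nonneg _).trans (h 0 (by simpa using hr))
  have hd : ∀ x ∈ Metric.closedBall (0 : ℂ) r,
      HasDerivWithinAt (fun x : ℂ => cX k a (t₀ + x) n) (cchi k a (t₀ + x) n)
        (Metric.closedBall (0 : ℂ) r) x := by
    intro x _
    exact ((hasDerivAt_cX k a (t₀ + x) n).comp_const_add (t₀ : ℂ) x).hasDerivWithinAt
  have := Convex.norm_image_sub_le_of_norm_hasDerivWithin_le (C := C) hd
    (fun x hx => h x (by simpa using hx)) (convex_closedBall _ _)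
    (Metric.mem_closedBall_self hr) (show τ ∈ Metric.closedBall (0 : ℂ) r by simpa using hτ)
  simp only [add_zero, sub_zero, cX_ofReal] at this
  exact this.trans (mul_le_mul_of_nonneg_left hτ hC)

/-- The inductive estimate, with abstract majorants. -/
theorem cdist_ind {k a t₀ : ℝ} (hk : 0 ≤ k) {S : ℕ} {r q : ℝ} (hr : 0 ≤ r) (B : ℕ → ℝ)
    (hB0 : ∀ s, 0 ≤ B s) (hBq : ∀ s, B s = q * B (s + 1))
    (hB : ∀ s, s ≤ S → nuN (rchi k a t₀) s ≤ B s)
    (hq : Mk k * q ^ 2 ≤ 1 / 2)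
    (h3 : ∀ s, s ≤ S → 112 * Mk k * q ^ 2 * (r * B s) ≤ 1)
    (h4 : ∀ s, s < S → r * B s ≤ 1 / 28) :
    ∀ s, s ≤ S → ∀ τ : ℂ, ‖τ‖ ≤ r →
      ‖cchi k a (t₀ + τ) s - (rchi k a t₀ s : ℝ)‖ ≤ 112 * r * Mk k * (q * B s) ^ 2 ∧
      ‖cchi k a (t₀ + τ) (s + 1) - (rchi k a t₀ (s + 1) : ℝ)‖ ≤ 112 * r * Mk k * (q * B s) ^ 2 ∧
      ‖cvee k (cX k a (t₀ + τ) s)‖ ≤ 2 * Mk k := by
  have hM4 : 4 ≤ Mk k := by
    have : 0 ≤ 2 * Real.pi * k := by positivity
    unfold Mk; linarith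
  have hM0 : 0 ≤ Mk k := by linarith
  intro s
  induction s with
  | zero =>
    intro _ τ _
    have h0 : 0 ≤ 112 * r * Mk k * (q * B 0) ^ 2 := by positivity
    refine ⟨by simpa using h0, by simpa using h0, ?_⟩
    rw [cX_zero, cvee_ofReal, Complex.norm_real, Real.norm_eq_abs]
    have := abs_vee_le hk a
    linarith
  | succ s ih =>
    intro hs τ hτ
    have hs' : s ≤ S := by omega
    have ih' := ih hs'
    set E : ℝ := 112 * r * Mk k * (q * B s) ^ 2 with hE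
    have hE0 : 0 ≤ E := by positivity
    have hEB : E ≤ B s := by
      have h := mul_le_mul_of_nonneg_right (h3 s hs') (hB0 s)
      calc E = 112 * Mk k * q ^ 2 * (r * B s) * B s := by rw [hE]; ring
        _ ≤ 1 * B s := h
        _ = B s := one_mul _
    have hc : ∀ τ : ℂ, ‖τ‖ ≤ r → ‖cchi k a (t₀ + τ) (s + 1)‖ ≤ 2 * B s := by
      intro τ hτ
      have h1 := (ih' τ hτ).2.1
      have h2 : ‖((rchi k a t₀ (s + 1) : ℝ) : ℂ)‖ ≤ B s := by
        rw [Complex.norm_real, Real.norm_eq_abs]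
        exact (abs_succ_le_nuN _ s).trans (hB s hs')
      calc ‖cchi k a (t₀ + τ) (s + 1)‖
          = ‖(cchi k a (t₀ + τ) (s + 1) - (rchi k a t₀ (s + 1) : ℝ)) + (rchi k a t₀ (s + 1) : ℝ)‖ := by
            rw [sub_add_cancel]
        _ ≤ _ := norm_add_le _ _
        _ ≤ 2 * B s := by linarith
    have hw := cdist_mv k a t₀ (s + 1) hc τ hτ
    have hrB := h4 s (by omega)
    set w : ℂ := cX k a (t₀ + τ) (s + 1) - (rX k a t₀ (s + 1) : ℝ) with hwdef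
    have hw14 : ‖w‖ ≤ 1 / 14 := by linarith
    have hv := cvee_sub_le hk (rX k a t₀ (s + 1)) w (by linarith)
    have hxw : ((rX k a t₀ (s + 1) : ℝ) : ℂ) + w = cX k a (t₀ + τ) (s + 1) := by
      rw [hwdef]; ring
    rw [hxw] at hv
    have hvee : ‖((vee k (rX k a t₀ (s + 1)) : ℝ) : ℂ)‖ ≤ Mk k - 2 := by
      rw [Complex.norm_real, Real.norm_eq_abs]
      exact abs_vee_le hk _
    rw [← hBq s]
    have hME : Mk k * E ≤ 56 * r * Mk k * B s ^ 2 := by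
      have h := mul_le_mul_of_nonneg_left hq
        (show 0 ≤ 112 * r * Mk k * B s ^ 2 by positivity)
      calc Mk k * E = 112 * r * Mk k * B s ^ 2 * (Mk k * q ^ 2) := by rw [hE]; ring
        _ ≤ 112 * r * Mk k * B s ^ 2 * (1 / 2) := h
        _ = 56 * r * Mk k * B s ^ 2 := by ring
    have hpos : 0 ≤ 56 * r * Mk k * B s ^ 2 := by positivity
    obtain ⟨e0, e1, -⟩ := ih' τ hτ
    refine ⟨?_, ?_, ?_⟩
    · nlinarith
    · have hid : cchi k a (t₀ + τ) (s + 1 + 1) - (rchi k a t₀ (s + 1 + 1) : ℝ) =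
          (cvee k (cX k a (t₀ + τ) (s + 1)) - (vee k (rX k a t₀ (s + 1)) : ℝ)) *
              cchi k a (t₀ + τ) (s + 1) +
            (vee k (rX k a t₀ (s + 1)) : ℝ) *
              (cchi k a (t₀ + τ) (s + 1) - (rchi k a t₀ (s + 1) : ℝ)) -
            (cchi k a (t₀ + τ) s - (rchi k a t₀ s : ℝ)) := by
        rw [show s + 1 + 1 = s + 2 from rfl, cchi_rec, rchi_rec]
        push_cast
        ring
      rw [hid]
      have t1 : ‖(cvee k (cX k a (t₀ + τ) (s + 1)) - (vee k (rX k a t₀ (s + 1)) : ℝ)) *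
          cchi k a (t₀ + τ) (s + 1)‖ ≤ (14 * Mk k * (2 * B s * r)) * (2 * B s) := by
        rw [norm_mul]
        refine mul_le_mul (hv.trans ?_) (hc τ hτ) (norm_nonneg _) ?_
        · exact mul_le_mul_of_nonneg_left hw (by positivity)
        · have := hB0 s
          positivity
      have t2 : ‖((vee k (rX k a t₀ (s + 1)) : ℝ) : ℂ) *
          (cchi k a (t₀ + τ) (s + 1) - (rchi k a t₀ (s + 1) : ℝ))‖ ≤ (Mk k - 2) * E := by
        rw [norm_mul]
        exact mul_le_mul hvee e1 (norm_nonneg _) (by linarith)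
      refine (norm_sub_le _ _).trans ?_
      have t3 := norm_add_le ((cvee k (cX k a (t₀ + τ) (s + 1)) - (vee k (rX k a t₀ (s + 1)) : ℝ)) *
          cchi k a (t₀ + τ) (s + 1)) (((vee k (rX k a t₀ (s + 1)) : ℝ) : ℂ) *
          (cchi k a (t₀ + τ) (s + 1) - (rchi k a t₀ (s + 1) : ℝ)))
      nlinarith
    · have h14 : 14 * Mk k * ‖w‖ ≤ Mk k := by nlinarith
      calc ‖cvee k (cX k a (t₀ + τ) (s + 1))‖
          = ‖(cvee k (cX k a (t₀ + τ) (s + 1)) - (vee k (rX k a t₀ (s + 1)) : ℝ)) +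
              (vee k (rX k a t₀ (s + 1)) : ℝ)‖ := by rw [sub_add_cancel]
        _ ≤ _ := norm_add_le _ _
        _ ≤ 2 * Mk k := by linarith

theorem cdist_pow {M : ℝ} (hM : (2 : ℝ) ^ 1000 ≤ M) {x : ℝ} (hx : 7 ≤ 1000 * x) :
    128 * M ^ (-x) ≤ 1 := by
  have hM0 : 0 < M := lt_of_lt_of_le (by positivity) hM
  have h := big_rpow hM 7 (by exact_mod_cast hx)
  have hp : 0 < M ^ x := Real.rpow_pos_of_pos hM0 x
  rw [Real.rpow_neg hM0.le, ← div_eq_mul_inv, div_le_one hp]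
  norm_num at h
  exact h

/-- Fix `S ≤ N`, `j = N - S`, `r = M^((4/5)(j+1)) / ν(N)`, `B s = M^(-(49/50)(N - s)) ν(N)` (real exponent, also
for `s = -1`).  Induction on the cut `s ≤ S`, uniformly for `‖τ‖ ≤ r`: the errors
`‖cchi (t₀+τ) s - rchi s‖`, `‖cchi (t₀+τ) (s+1) - rchi (s+1)‖` are `≤ E s = 112 r M B(s-1)²  (≤ B s)`.
Step: `‖cX (t₀+τ) (s+1) - rX (s+1)‖ ≤ r · 2 B s ≤ 1/7` (mean value inequality on the disc with
`hasDerivAt_cX`; `r B s ≤ M^(-(9/50)(j+1))` for `s < S`), `cvee_sub_le`, and the recursion give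
`E(s+1) ≥ M E s + 14 M · 2 r B s · 2 B s`.  At `s = S`: `ν(S) ≥ M^(-j) ν(N)` (`nuN_rchi_le`) and
`E S / ν(S) ≤ 112 M^(-(4/25)(j+1)) ≤ M^(-1/10)`. -/
theorem cdist {k a t₀ : ℝ} (hM : (2 : ℝ) ^ 1000 ≤ Mk k) {N : ℕ} (hP : PlM (Mk k) (rchi k a t₀) N)
    {S : ℕ} (hS : S ≤ N) (τ : ℂ)
    (hτ : ‖τ‖ * nuN (rchi k a t₀) N ≤ Mk k ^ (4 / 5 * ((N : ℝ) - S + 1))) :
    ‖cchi k a (t₀ + τ) S - (rchi k a t₀ S : ℝ)‖ ≤ Mk k ^ (-(1 / 10 : ℝ)) * nuN (rchi k a t₀) S ∧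
    ‖cchi k a (t₀ + τ) (S + 1) - (rchi k a t₀ (S + 1) : ℝ)‖ ≤
      Mk k ^ (-(1 / 10 : ℝ)) * nuN (rchi k a t₀) S ∧
    ‖cvee k (cX k a (t₀ + τ) S)‖ ≤ 2 * Mk k := by
  set M := Mk k with hMdef
  have hM1 : 1 ≤ M := le_trans (one_le_pow₀ (by norm_num)) hM
  have hM0 : 0 < M := lt_of_lt_of_le one_pos hM1
  have hk : 0 ≤ k := by
    by_contra hneg
    have hk' : k < 0 := lt_of_not_ge hneg
    have h16 : (16 : ℝ) ≤ M := le_trans (by norm_num) (le_trans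
      (pow_le_pow_right₀ (by norm_num : (1 : ℝ) ≤ 2) (by norm_num : 4 ≤ 1000)) hM)
    have h2 : 2 * Real.pi * k < 0 := mul_neg_of_pos_of_neg (by positivity) hk'
    have h3 : M = 2 * Real.pi * k + 4 := rfl
    linarith only [h16, h2, h3]
  have hp1 := cdist_pow hM (x := 24 / 25) (by norm_num)
  have hp2 := cdist_pow hM (x := 4 / 25) (by norm_num)
  have hp3 := cdist_pow hM (x := 9 / 50) (by norm_num)
  have hp4 := cdist_pow hM (x := 3 / 50) (by norm_num)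
  clear hM
  set ν := nuN (rchi k a t₀) N with hν
  have hν0 : 0 < ν := nuN_rchi_pos k a t₀ N
  have hSN : (S : ℝ) ≤ N := by exact_mod_cast hS
  set r : ℝ := M ^ (4 / 5 * ((N : ℝ) - S + 1)) / ν with hr
  have hr0 : 0 ≤ r := by positivity
  have hτr : ‖τ‖ ≤ r := by rw [hr, le_div_iff₀ hν0]; exact hτ
  set q : ℝ := M ^ (-(49 / 50 : ℝ)) with hq
  let B : ℕ → ℝ := fun s => M ^ (-(49 / 50 * ((N : ℝ) - s))) * ν
  have hB0 : ∀ s, 0 ≤ B s := fun s => by positivity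
  have hBq : ∀ s, B s = q * B (s + 1) := by
    intro s
    simp only [B, hq]
    rw [← mul_assoc, ← Real.rpow_add hM0]
    congr 2
    push_cast; ring
  have hq2 : q ^ 2 = M ^ (-(49 / 25 : ℝ)) := by
    rw [hq, sq, ← Real.rpow_add hM0]; norm_num
  have hMq : M * q ^ 2 = M ^ (-(24 / 25 : ℝ)) := by
    rw [hq2]
    conv_lhs => rw [show M * M ^ (-(49 / 25 : ℝ)) = M ^ (1 : ℝ) * M ^ (-(49 / 25 : ℝ)) by
      rw [Real.rpow_one]]
    rw [← Real.rpow_add hM0]; norm_num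
  have hrB : ∀ s : ℕ, r * B s = M ^ (4 / 5 * ((N : ℝ) - S + 1) - 49 / 50 * ((N : ℝ) - s)) := by
    intro s
    simp only [B, hr]
    rw [sub_eq_add_neg (4 / 5 * ((N : ℝ) - S + 1)), Real.rpow_add hM0]
    field_simp
  have key := cdist_ind (a := a) (t₀ := t₀) hk (S := S) (q := q) hr0 B hB0 hBq
    (fun s hs => hP s (hs.trans hS))
    (by
      have := hp1
      have h0 : 0 ≤ M ^ (-(24 / 25 : ℝ)) := by positivity
      rw [← hMdef, hMq]; linarith)
    (by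
      intro s hs
      have hs' : (s : ℝ) ≤ S := by exact_mod_cast hs
      have h1 := hp2
      have h2 : M * q ^ 2 * (r * B s) ≤ M ^ (-(4 / 25 : ℝ)) := by
        rw [hMq, hrB, ← Real.rpow_add hM0]
        exact Real.rpow_le_rpow_of_exponent_le hM1 (by linarith)
      have h0 : 0 ≤ M ^ (-(4 / 25 : ℝ)) := by positivity
      rw [← hMdef]
      linarith)
    (by
      intro s hs
      have hs' : (s : ℝ) + 1 ≤ S := by exact_mod_cast hs
      have h1 := hp3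
      have h2 : r * B s ≤ M ^ (-(9 / 50 : ℝ)) := by
        rw [hrB]
        exact Real.rpow_le_rpow_of_exponent_le hM1 (by linarith)
      have h0 : 0 ≤ M ^ (-(9 / 50 : ℝ)) := by positivity
      linarith)
    S le_rfl τ hτr
  have hνS : ν ≤ M ^ ((N : ℝ) - S) * nuN (rchi k a t₀) S := by
    have h := nuN_rchi_le hk a t₀ hS
    rw [← Real.rpow_natCast, Nat.cast_sub hS] at h
    exact h
  have hS0 : 0 < nuN (rchi k a t₀) S := nuN_rchi_pos k a t₀ S
  have hE : 112 * r * M * (q * B S) ^ 2 ≤ M ^ (-(1 / 10 : ℝ)) * nuN (rchi k a t₀) S := by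
    have h1 := hp4
    have h2 : B S ≤ M ^ (-(49 / 50 * ((N : ℝ) - S)) + ((N : ℝ) - S)) * nuN (rchi k a t₀) S := by
      simp only [B]
      rw [Real.rpow_add hM0, mul_assoc]
      exact mul_le_mul_of_nonneg_left hνS (by positivity)
    have h3 : M * q ^ 2 * (r * B S) * M ^ (-(49 / 50 * ((N : ℝ) - S)) + ((N : ℝ) - S)) ≤
        M ^ (-(3 / 50 : ℝ)) * M ^ (-(1 / 10 : ℝ)) := by
      rw [hMq, hrB, ← Real.rpow_add hM0, ← Real.rpow_add hM0, ← Real.rpow_add hM0]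
      exact Real.rpow_le_rpow_of_exponent_le hM1 (by linarith)
    have h4 : 0 ≤ M * q ^ 2 * (r * B S) := by have := hB0 S; positivity
    have h5 : 0 ≤ M ^ (-(1 / 10 : ℝ)) * nuN (rchi k a t₀) S := by positivity
    have h6 : 0 ≤ M ^ (-(3 / 50 : ℝ)) := by positivity
    calc 112 * r * M * (q * B S) ^ 2 = 112 * (M * q ^ 2 * (r * B S) * B S) := by ring
      _ ≤ 112 * (M * q ^ 2 * (r * B S) *
          (M ^ (-(49 / 50 * ((N : ℝ) - S)) + ((N : ℝ) - S)) * nuN (rchi k a t₀) S)) := by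
          gcongr
      _ = 112 * ((M * q ^ 2 * (r * B S) *
          M ^ (-(49 / 50 * ((N : ℝ) - S)) + ((N : ℝ) - S))) * nuN (rchi k a t₀) S) := by ring
      _ ≤ 112 * ((M ^ (-(3 / 50 : ℝ)) * M ^ (-(1 / 10 : ℝ))) * nuN (rchi k a t₀) S) := by
          gcongr
      _ = (112 * M ^ (-(3 / 50 : ℝ))) * (M ^ (-(1 / 10 : ℝ)) * nuN (rchi k a t₀) S) := by ring
      _ ≤ 1 * (M ^ (-(1 / 10 : ℝ)) * nuN (rchi k a t₀) S) :=
          mul_le_mul_of_nonneg_right (by linarith) h5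
      _ = _ := one_mul _
  exact ⟨key.1.trans hE, key.2.1.trans hE, key.2.2⟩

end Crest.Agent.R128
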