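import Crest.Agent.R128.Sun

/-! Combinatorics of the rounded data: levels. -/

set_option autoImplicit false

noncomputable section

open MeasureTheory Set

namespace Crest.Agent.R128

/-- At most `2Z` indices are not two-sided Pliss indices (`sun_right`, `sun_left` with
`D a b = h b.toNat - h a.toNat`). -/
theorem card_not_goodH {h : ℕ → ℕ} (hm : Monotone h) {p Z : ℕ} (hZ : h p ≤ Z) (S : Finset ℕ)
    (hS : ∀ N ∈ S, N ≤ p ∧ ¬ GoodH h p N) : S.card ≤ 2 * Z := by
  classical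
  rcases Nat.eq_zero_or_pos p with hp | hp
  · subst hp
    have : S = ∅ := by
      refine Finset.eq_empty_of_forall_notMem fun N hN => (hS N hN).2 ?_
      have h0 : N = 0 := by have := (hS N hN).1; omega
      subst h0
      intro s hs
      have : s = 0 := by omega
      subst this
      simp
    simp [this]
  set D : ℤ → ℤ → ℝ := fun a b => (h b.toNat : ℝ) - h a.toNat with hD
  have hnn : ∀ a b, a < b → 0 ≤ D a b := by
    intro a b hab
    have : h a.toNat ≤ h b.toNat := hm (by omega)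
    have : (h a.toNat : ℝ) ≤ h b.toNat := by exact_mod_cast this
    simp only [hD]; linarith
  have hsup : ∀ a b c, a < b → b < c → D a b + D b c ≤ D a c := by
    intro a b c _ _; simp only [hD]; linarith
  have htot : D 0 p ≤ Z := by
    have : (h p : ℝ) ≤ Z := by exact_mod_cast hZ
    have h0 : (0 : ℝ) ≤ h 0 := Nat.cast_nonneg _
    simp only [hD, Int.toNat_natCast, Int.toNat_zero]; linarith
  set S1 := S.filter (fun N => ∃ s, s ≤ p ∧ N < s ∧ h N + (s - N) < h s) with hS1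
  set S2 := S.filter (fun N => ∃ s, s < N ∧ h s + (N - s) < h N) with hS2
  have hsub : S ⊆ S1 ∪ S2 := by
    intro N hN
    obtain ⟨hNp, hg⟩ := hS N hN
    unfold GoodH at hg
    push Not at hg
    obtain ⟨s, hs, hg⟩ := hg
    by_cases h1 : s ≤ N → h N ≤ h s + (N - s)
    · obtain ⟨h2, h3⟩ := hg h1
      refine Finset.mem_union_left _ (Finset.mem_filter.mpr ⟨hN, s, hs, ?_, h3⟩)
      rcases h2.lt_or_eq with h4 | h4
      · exact h4
      · subst h4; omega
    · push Not at h1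
      refine Finset.mem_union_right _ (Finset.mem_filter.mpr ⟨hN, s, ?_, h1.2⟩)
      rcases h1.1.lt_or_eq with h4 | h4
      · exact h4
      · subst h4; omega
  have hinj : Function.Injective (Nat.cast : ℕ → ℤ) := Nat.cast_injective
  have c1 : (S1.card : ℝ) ≤ Z := by
    rw [← Finset.card_image_of_injective S1 hinj]
    refine (sun_right D hnn hsup 0 p (by exact_mod_cast hp) _ fun t ht => ?_).trans htot
    obtain ⟨N, hN, rfl⟩ := Finset.mem_image.mp ht
    obtain ⟨-, s, hs, h1, h2⟩ := Finset.mem_filter.mp hN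
    refine ⟨by omega, s, by omega, by omega, ?_⟩
    have h3 : s + h N ≤ h s + N := by omega
    have h4 : (s : ℝ) + h N ≤ h s + N := by exact_mod_cast h3
    simp only [hD, Int.toNat_natCast]; push_cast; linarith
  have c2 : (S2.card : ℝ) ≤ Z := by
    rw [← Finset.card_image_of_injective S2 hinj]
    refine (sun_left D hnn hsup 0 p (by exact_mod_cast hp) _ fun t ht => ?_).trans htot
    obtain ⟨N, hN, rfl⟩ := Finset.mem_image.mp ht
    obtain ⟨hNS, s, h1, h2⟩ := Finset.mem_filter.mp hN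
    have := (hS N hNS).1
    refine ⟨by omega, s, by omega, by omega, ?_⟩
    have h3 : N + h s ≤ h N + s := by omega
    have h4 : (N : ℝ) + h s ≤ h N + s := by exact_mod_cast h3
    simp only [hD, Int.toNat_natCast]; push_cast; linarith
  have c1' : S1.card ≤ Z := by exact_mod_cast c1
  have c2' : S2.card ≤ Z := by exact_mod_cast c2
  have := (Finset.card_le_card hsub).trans (Finset.card_union_le _ _)
  omega

/-- Let `Ĥ_i s = s - h_i s/100`.  For `N ≤ p/2` let `m N` be the least `s` with `Ĥ₂ s ≥ Ĥ₁ N - 1/2`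
(`Ĥ₂ s ≥ s - Z/100` for `s ≤ p`; up-steps of `Ĥ₂` are `≤ 1`, `Ĥ₂ 0 = 0 ≤ Ĥ₁ N` for good `N`).
On `h₁`-good indices `Ĥ₁ N' - Ĥ₁ N ≥ (99/100)(N' - N)`, so `m` is at most two-to-one there.
Remove from `[1, p/2]` the `≤ 2Z` bad indices and the `≤ 4Z` good indices with bad `m N`. -/
theorem data_levels {h₁ h₂ : ℕ → ℕ} (m₁ : Monotone h₁) (m₂ : Monotone h₂) (z₁ : h₁ 0 = 0)
    (z₂ : h₂ 0 = 0) {p Z : ℕ} (hp : 10 ≤ p) (hZ : Z ≤ p) (b₁ : h₁ p ≤ Z) (b₂ : h₂ p ≤ Z) :
    ∃ (L : Finset ℕ) (m : ℕ → ℕ), (p : ℝ) / 2 - 6 * Z - 1 ≤ L.card ∧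
      ∀ N ∈ L, 1 ≤ N ∧ 2 * N ≤ p ∧ GoodH h₁ p N ∧ GoodH h₂ p (m N) ∧
        (m N : ℝ) ≤ (p : ℝ) / 2 + (Z : ℝ) / 100 + 1 ∧
        |((N : ℝ) - (h₁ N : ℝ) / 100) - ((m N : ℝ) - (h₂ (m N) : ℝ) / 100)| ≤ 1 / 2 := by
  classical
  -- integer form: `100 Ĥ₂ s ≥ 100 Ĥ₁ N - 50`
  have hex : ∀ N : ℕ, ∃ s : ℕ, 2 * N ≤ p → (100 * N + h₂ s ≤ 100 * s + h₁ N + 50 ∧
      200 * s ≤ 100 * p + 2 * Z + 200 ∧
      100 * s + h₁ N ≤ 100 * N + h₂ s + 50 ∨ ¬ GoodH h₁ p N) := by
    intro N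
    by_cases hN : 2 * N ≤ p
    swap
    · exact ⟨0, fun h => absurd h hN⟩
    by_cases hg : GoodH h₁ p N
    swap
    · exact ⟨0, fun _ => Or.inr hg⟩
    have hg0 : h₁ N ≤ N := by
      have := (hg 0 (Nat.zero_le _)).1 (Nat.zero_le _)
      omega
    have hs0 : ∃ s : ℕ, 100 * N + h₂ s ≤ 100 * s + h₁ N + 50 := by
      refine ⟨p, ?_⟩; omega
    refine ⟨Nat.find hs0, fun _ => Or.inl ⟨Nat.find_spec hs0, ?_, ?_⟩⟩
    · have h1 : Nat.find hs0 ≤ (100 * p + 2 * Z) / 200 + 1 := by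
        apply Nat.find_min'
        have : h₂ ((100 * p + 2 * Z) / 200 + 1) ≤ h₂ p := m₂ (by omega)
        omega
      omega
    · rcases Nat.eq_zero_or_pos (Nat.find hs0) with h0 | h0
      · rw [h0]; omega
      · have h1 := Nat.find_min hs0 (show Nat.find hs0 - 1 < Nat.find hs0 by omega)
        have h2 : h₂ (Nat.find hs0 - 1) ≤ h₂ (Nat.find hs0) := m₂ (by omega)
        omega
  choose m hm using hex
  set A := Finset.Icc 1 (p / 2) with hA
  set G := A.filter (fun N => GoodH h₁ p N) with hG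
  set L := G.filter (fun N => GoodH h₂ p (m N)) with hL
  have hGm : ∀ N ∈ G, 1 ≤ N ∧ 2 * N ≤ p ∧ GoodH h₁ p N ∧ 100 * N + h₂ (m N) ≤ 100 * m N + h₁ N + 50 ∧
      200 * m N ≤ 100 * p + 2 * Z + 200 ∧ 100 * m N + h₁ N ≤ 100 * N + h₂ (m N) + 50 := by
    intro N hN
    obtain ⟨hNA, hg⟩ := Finset.mem_filter.mp hN
    obtain ⟨h1, h2⟩ := Finset.mem_Icc.mp hNA
    have h3 : 2 * N ≤ p := by omega
    rcases hm N h3 with h | h
    · exact ⟨h1, h3, hg, h⟩
    · exact absurd hg h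
  have c1 : (A.filter (fun N => ¬ GoodH h₁ p N)).card ≤ 2 * Z :=
    card_not_goodH m₁ b₁ _ fun N hN => by
      obtain ⟨hNA, hg⟩ := Finset.mem_filter.mp hN
      obtain ⟨h1, h2⟩ := Finset.mem_Icc.mp hNA
      exact ⟨by omega, hg⟩
  set B := G.filter (fun N => ¬ GoodH h₂ p (m N)) with hB
  have c2 : (B.image m).card ≤ 2 * Z :=
    card_not_goodH m₂ b₂ _ fun s hs => by
      obtain ⟨N, hN, rfl⟩ := Finset.mem_image.mp hs
      obtain ⟨hNG, hg⟩ := Finset.mem_filter.mp hN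
      obtain ⟨-, -, -, -, h4, -⟩ := hGm N hNG
      exact ⟨by omega, hg⟩
  have c3 : B.card ≤ 2 * (B.image m).card := by
    refine Finset.card_le_mul_card_image B 2 fun s _ => ?_
    set F := B.filter (fun N => m N = s) with hF
    rcases F.eq_empty_or_nonempty with h0 | h0
    · rw [h0]; simp
    have hsub : F ⊆ Finset.Icc (F.min' h0) (F.min' h0 + 1) := by
      intro N hN
      have h1 := F.min'_le N hN
      obtain ⟨hB1, e1⟩ := Finset.mem_filter.mp hN
      obtain ⟨hB2, e2⟩ := Finset.mem_filter.mp (F.min'_mem h0)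
      obtain ⟨-, a2, -, a4, -, -⟩ := hGm N (Finset.mem_filter.mp hB1).1
      obtain ⟨-, -, b3, -, -, b6⟩ := hGm _ (Finset.mem_filter.mp hB2).1
      have h2 := (b3 N (by omega)).2 h1
      rw [e1] at a4
      rw [e2] at b6
      exact Finset.mem_Icc.mpr ⟨h1, by omega⟩
    have := Finset.card_le_card hsub
    simp at this
    omega
  have c4 := Finset.card_filter_add_card_filter_not (s := A) (fun N => GoodH h₁ p N)
  have c5 := Finset.card_filter_add_card_filter_not (s := G) (fun N => GoodH h₂ p (m N))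
  have c6 : A.card = p / 2 := by simp [hA]
  have c7 : p ≤ 2 * L.card + 12 * Z + 1 := by
    rw [← hG] at c4
    rw [← hL, ← hB] at c5
    omega
  refine ⟨L, m, ?_, fun N hN => ?_⟩
  · have : (p : ℝ) ≤ 2 * L.card + 12 * Z + 1 := by exact_mod_cast c7
    linarith
  · obtain ⟨hNG, hg⟩ := Finset.mem_filter.mp hN
    obtain ⟨a1, a2, a3, a4, a5, a6⟩ := hGm N hNG
    have a4' : (100 * N + h₂ (m N) : ℝ) ≤ 100 * m N + h₁ N + 50 := by exact_mod_cast a4
    have a5' : (200 * m N : ℝ) ≤ 100 * p + 2 * Z + 200 := by exact_mod_cast a5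
    have a6' : (100 * m N + h₁ N : ℝ) ≤ 100 * N + h₂ (m N) + 50 := by exact_mod_cast a6
    exact ⟨a1, a2, a3, hg, by linarith, abs_le.mpr ⟨by linarith, by linarith⟩⟩

end Crest.Agent.R128
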