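import Crest.Agent.R128.CBasic

/-! The rounded data of a point. -/

set_option autoImplicit false

noncomputable section

open MeasureTheory Set

namespace Crest.Agent.R128

theorem DataPt_one_lt {k : ℝ} (hk : 0 ≤ k) : 1 < Mk k := by
  unfold Mk
  have := Real.pi_pos
  have : 0 ≤ 2 * Real.pi * k := by positivity
  linarith

theorem DataPt_logb_step {k : ℝ} (hk : 0 ≤ k) (a t : ℝ) (s : ℕ) :
    Real.logb (Mk k) (nuN (rchi k a t) (s + 1)) ≤ 1 + Real.logb (Mk k) (nuN (rchi k a t) s) := by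
  have hM := DataPt_one_lt hk
  have h1 := nuN_rchi_up hk a t s
  have hp := nuN_rchi_pos k a t s
  have hp' := nuN_rchi_pos k a t (s + 1)
  have h2 := Real.logb_le_logb_of_le hM hp' h1
  rw [Real.logb_mul (by linarith) hp.ne', Real.logb_self_eq_one hM] at h2
  exact h2

theorem DataPt_logb_le {k : ℝ} (hk : 0 ≤ k) (a t : ℝ) (s : ℕ) :
    Real.logb (Mk k) (nuN (rchi k a t) s) ≤ s := by
  induction s with
  | zero => simp
  | succ s ih =>
    have := DataPt_logb_step hk a t s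
    push_cast
    linarith

theorem DataPt_logb_bounds {k : ℝ} (hk : 0 ≤ k) (a t : ℝ) (s : ℕ) :
    (s : ℝ) - (hOf (Mk k) (rchi k a t) s : ℝ) / 100 - 1 / 100 ≤
        Real.logb (Mk k) (nuN (rchi k a t) s) ∧
      Real.logb (Mk k) (nuN (rchi k a t) s) ≤ (s : ℝ) - (hOf (Mk k) (rchi k a t) s : ℝ) / 100 := by
  have h0 : 0 ≤ 100 * ((s : ℝ) - Real.logb (Mk k) (nuN (rchi k a t) s)) := by
    have := DataPt_logb_le hk a t s
    linarith
  have h1 := Nat.floor_le h0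
  have h2 := Nat.lt_floor_add_one (100 * ((s : ℝ) - Real.logb (Mk k) (nuN (rchi k a t) s)))
  unfold hOf
  constructor <;> linarith

theorem DataPt_rpow_logb {k : ℝ} (hk : 0 ≤ k) (a t : ℝ) (s : ℕ) :
    Mk k ^ Real.logb (Mk k) (nuN (rchi k a t) s) = nuN (rchi k a t) s := by
  have hM := DataPt_one_lt hk
  exact Real.rpow_logb (by linarith) hM.ne' (nuN_rchi_pos k a t s)

theorem hOf_mono {k : ℝ} (hk : 0 ≤ k) (a t : ℝ) : Monotone (hOf (Mk k) (rchi k a t)) := by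
  refine monotone_nat_of_le_succ fun s => ?_
  unfold hOf
  apply Nat.floor_le_floor
  have := DataPt_logb_step hk a t s
  push_cast
  linarith

theorem hOf_zero (k a t : ℝ) : hOf (Mk k) (rchi k a t) 0 = 0 := by
  simp [hOf]

/-- `M^(Ĥ - 1/100) ≤ ν(s) ≤ M^Ĥ` with `Ĥ = s - h s/100` (note `logb M ν(s) ≤ s`). -/
theorem nuN_bounds {k : ℝ} (hk : 0 ≤ k) (a t : ℝ) (s : ℕ) :
    Mk k ^ ((s : ℝ) - (hOf (Mk k) (rchi k a t) s : ℝ) / 100 - 1 / 100) ≤ nuN (rchi k a t) s ∧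
      nuN (rchi k a t) s ≤ Mk k ^ ((s : ℝ) - (hOf (Mk k) (rchi k a t) s : ℝ) / 100) := by
  have hM := DataPt_one_lt hk
  obtain ⟨h1, h2⟩ := DataPt_logb_bounds hk a t s
  have h3 := DataPt_rpow_logb hk a t s
  constructor
  · calc _ ≤ Mk k ^ Real.logb (Mk k) (nuN (rchi k a t) s) :=
          Real.rpow_le_rpow_of_exponent_le hM.le h1
      _ = _ := h3
  · calc _ = Mk k ^ Real.logb (Mk k) (nuN (rchi k a t) s) := h3.symm
      _ ≤ _ := Real.rpow_le_rpow_of_exponent_le hM.le h2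

/-- Good indices of the data are Pliss cuts. -/
theorem pl_of_goodH {k : ℝ} (hk : 0 ≤ k) (a t : ℝ) {h : ℕ → ℕ} {p N : ℕ} (hN : N ≤ p)
    (hh : ∀ s, s ≤ p → h s = hOf (Mk k) (rchi k a t) s) (hg : GoodH h p N) :
    PlM (Mk k) (rchi k a t) N ∧ PlP (Mk k) (rchi k a t) N p := by
  have hM := DataPt_one_lt hk
  have hM0 : 0 < Mk k := by linarith
  obtain ⟨n1, n2⟩ := DataPt_logb_bounds hk a t N
  rw [← hh N hN] at n1 n2
  constructor
  · intro s hs
    rcases hs.eq_or_lt with rfl | hlt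
    · simp
    obtain ⟨s1, s2⟩ := DataPt_logb_bounds hk a t s
    rw [← hh s (hs.trans hN)] at s1 s2
    have hg1 := (hg s (hs.trans hN)).1 hs
    have hg2 : (h N : ℝ) ≤ h s + ((N : ℝ) - s) := by
      have : ((h N : ℕ) : ℝ) ≤ ((h s + (N - s) : ℕ) : ℝ) := by exact_mod_cast hg1
      rwa [Nat.cast_add, Nat.cast_sub hs] at this
    have hlt' : (s : ℝ) + 1 ≤ N := by exact_mod_cast hlt
    rw [← DataPt_rpow_logb hk a t s, ← DataPt_rpow_logb hk a t N, ← Real.rpow_add hM0]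
    apply Real.rpow_le_rpow_of_exponent_le hM.le
    linarith
  · intro s hs hsp
    rcases hs.eq_or_lt with rfl | hlt
    · simp
    obtain ⟨s1, s2⟩ := DataPt_logb_bounds hk a t s
    rw [← hh s hsp] at s1 s2
    have hg1 := (hg s hsp).2 hs
    have hg2 : (h s : ℝ) ≤ h N + ((s : ℝ) - N) := by
      have : ((h s : ℕ) : ℝ) ≤ ((h N + (s - N) : ℕ) : ℝ) := by exact_mod_cast hg1
      rwa [Nat.cast_add, Nat.cast_sub hs] at this
    have hlt' : (N : ℝ) + 1 ≤ s := by exact_mod_cast hlt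
    rw [← DataPt_rpow_logb hk a t s, ← DataPt_rpow_logb hk a t N, ← Real.rpow_add hM0]
    apply Real.rpow_le_rpow_of_exponent_le hM.le
    linarith

/-- The Wronskian of `ψ = ξ + α χ` and `χ` is `1`, so `1 ≤ 2 ν_ψ(p) ν_χ(p)`; `100 logb M 2 ≤ 1`. -/
theorem hOf_le_of_W {k κ a t α : ℝ} (hM : (2 : ℝ) ^ 1000 ≤ Mk k) (hκ : 0 ≤ κ) {p : ℕ}
    (hW : nuN (fun n => rxi k a t n + α * rchi k a t n) p < Mk k ^ (-((1 - κ) * p))) :
    hOf (Mk k) (rchi k a t) p ≤ ⌊100 * κ * p⌋₊ + 1 := by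
  have h2 : (1 : ℝ) < 2 ^ 1000 := one_lt_pow₀ (by norm_num) (by norm_num)
  have hM1 : 1 < Mk k := lt_of_lt_of_le h2 hM
  have h3 : (2 : ℝ) ^ 100 ≤ Mk k :=
    le_trans (pow_le_pow_right₀ (by norm_num) (by norm_num)) hM
  clear h2 hM
  have hM0 : 0 < Mk k := lt_trans one_pos hM1
  set ψ : ℕ → ℝ := fun n => rxi k a t n + α * rchi k a t n with hψ
  have hw : ψ p * rchi k a t (p + 1) - ψ (p + 1) * rchi k a t p = 1 := by
    have := rwronsk k a t p
    simp only [hψ]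
    linarith
  have hν := nuN_rchi_pos k a t p
  have hb : 1 ≤ 2 * (nuN ψ p * nuN (rchi k a t) p) := by
    have a1 := abs_le_nuN ψ p
    have a2 := abs_succ_le_nuN ψ p
    have a3 := abs_le_nuN (rchi k a t) p
    have a4 := abs_succ_le_nuN (rchi k a t) p
    have b1 : ψ p * rchi k a t (p + 1) ≤ nuN ψ p * nuN (rchi k a t) p := by
      calc _ ≤ |ψ p * rchi k a t (p + 1)| := le_abs_self _
        _ = |ψ p| * |rchi k a t (p + 1)| := abs_mul _ _
        _ ≤ _ := mul_le_mul a1 a4 (abs_nonneg _) (nuN_nonneg _ _)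
    have b2 : -(ψ (p + 1) * rchi k a t p) ≤ nuN ψ p * nuN (rchi k a t) p := by
      calc _ ≤ |ψ (p + 1) * rchi k a t p| := neg_le_abs _
        _ = |ψ (p + 1)| * |rchi k a t p| := abs_mul _ _
        _ ≤ _ := mul_le_mul a2 a3 (abs_nonneg _) (nuN_nonneg _ _)
    linarith
  have hpow : 0 < Mk k ^ (-((1 - κ) * p)) := Real.rpow_pos_of_pos hM0 _
  have hc : 1 ≤ 2 * (Mk k ^ (-((1 - κ) * p)) * nuN (rchi k a t) p) := by
    have := mul_le_mul_of_nonneg_right hW.le hν.le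
    linarith
  have hl := Real.logb_le_logb_of_le hM1 one_pos hc
  rw [Real.logb_one, Real.logb_mul (by norm_num) (by positivity), Real.logb_mul hpow.ne' hν.ne',
    Real.logb_rpow hM0 hM1.ne'] at hl
  have h100 : 100 * Real.logb (Mk k) 2 ≤ 1 := by
    have h4 := Real.logb_le_logb_of_le hM1 (by positivity) h3
    rw [Real.logb_pow, Real.logb_self_eq_one hM1] at h4
    exact_mod_cast h4
  have h0 : 0 ≤ 100 * κ * p := by positivity
  unfold hOf
  rw [← Nat.floor_add_one h0]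
  apply Nat.floor_le_floor
  nlinarith

end Crest.Agent.R128
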