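import Crest.Agent.R128.Defs

/-! Nested holes: a Vitali covering argument. -/

set_option autoImplicit false

noncomputable section

open MeasureTheory Set

namespace Crest.Agent.R128

/-- One step.  `U = ⋃ ball t (r t)` is open.  Vitali
(`Vitali.exists_disjoint_subfamily_covering_enlargement_closedBall`) gives a countable disjoint family of closed
balls whose 5-fold enlargements cover `U`, so `Σ 2 r_j ≥ vol U / 5`.  The middle half of the hole in the `j`-th
ball (length `δ r_j/4`) lies in `U` and misses `E` and all balls `ball t (ϱ t)`. -/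
theorem nest_step {E : Set ℝ} {δ : ℝ} (hδ0 : 0 < δ) (hδ : δ ≤ 1) (r ϱ : ℝ → ℝ)
    (hr : ∀ t ∈ E, 0 < r t ∧ r t ≤ 2)
    (hhole : ∀ t ∈ E, ∃ s, t - r t ≤ s ∧ s + δ * r t / 2 ≤ t + r t ∧
      ∀ x, s ≤ x → x ≤ s + δ * r t / 2 → x ∉ E)
    (hϱ : ∀ t ∈ E, ∀ t' ∈ E, ϱ t' ≤ δ / 8 * r t) (hE : E ⊆ Icc 0 1) :
    volume (E ∪ ⋃ t ∈ E, Metric.ball t (ϱ t)) ≤
      ENNReal.ofReal (1 - δ / 40) * volume (⋃ t ∈ E, Metric.ball t (r t)) := by
  classical
  set U : Set ℝ := ⋃ t ∈ E, Metric.ball t (r t) with hU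
  have hUsub : U ⊆ Icc (-2 : ℝ) 3 := by
    intro x hx
    obtain ⟨t, ht, hxt⟩ := mem_iUnion₂.mp hx
    have h1 := hE ht
    have h2 := (hr t ht).2
    rw [Metric.mem_ball, Real.dist_eq, abs_lt] at hxt
    exact ⟨by linarith [h1.1], by linarith [h1.2]⟩
  have hUfin : volume U ≠ ⊤ :=
    ne_top_of_le_ne_top (by simp) (measure_mono hUsub)
  obtain ⟨u, huE, hdisj, hcov⟩ :=
    Vitali.exists_disjoint_subfamily_covering_enlargement_closedBall E (fun t : ℝ => t) r 2
      (fun t ht => (hr t ht).2) 5 (by norm_num)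
  have hcount : u.Countable := by
    refine hdisj.countable_of_nonempty_interior fun t ht => ?_
    exact ⟨t, Metric.ball_subset_interior_closedBall (Metric.mem_ball_self (hr t (huE ht)).1)⟩
  choose! s hs using hhole
  let H : ℝ → Set ℝ := fun t => Icc (s t + δ * r t / 8) (s t + 3 * (δ * r t) / 8)
  have hHball : ∀ t ∈ E, H t ⊆ Metric.ball t (r t) := by
    intro t ht x hx
    have h1 := hs t ht
    have h2 : 0 < δ * r t := mul_pos hδ0 (hr t ht).1
    rw [Metric.mem_ball, Real.dist_eq, abs_lt]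
    exact ⟨by linarith [hx.1, h1.1], by linarith [hx.2, h1.2.1]⟩
  have hHdisj : u.PairwiseDisjoint H := by
    intro a ha b hb hab
    exact (hdisj ha hb hab).mono ((hHball a (huE ha)).trans Metric.ball_subset_closedBall)
      ((hHball b (huE hb)).trans Metric.ball_subset_closedBall)
  have hHvol : volume (⋃ t ∈ u, H t) = ∑' t : u, volume (H t) :=
    measure_biUnion hcount hHdisj fun _ _ => measurableSet_Icc
  have hUle : volume U ≤ ∑' t : u, volume (Metric.closedBall (t : ℝ) (5 * r t)) := by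
    refine le_trans (measure_mono ?_) (measure_biUnion_le volume hcount
      fun t : ℝ => Metric.closedBall t (5 * r t))
    intro x hx
    obtain ⟨t, ht, hxt⟩ := mem_iUnion₂.mp hx
    obtain ⟨b, hb, hsub⟩ := hcov t ht
    exact mem_iUnion₂.mpr ⟨b, hb, hsub (Metric.ball_subset_closedBall hxt)⟩
  have hkey : ENNReal.ofReal (δ / 40) * volume U ≤ volume (⋃ t ∈ u, H t) := by
    rw [hHvol]
    refine (mul_le_mul_right hUle _).trans ?_
    rw [← ENNReal.tsum_mul_left]
    refine ENNReal.tsum_le_tsum fun t => ?_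
    rw [Real.volume_closedBall, Real.volume_Icc, ← ENNReal.ofReal_mul (by positivity)]
    apply ENNReal.ofReal_le_ofReal
    linarith
  have hsub : (E ∪ ⋃ t ∈ E, Metric.ball t (ϱ t)) ⊆ U \ ⋃ t ∈ u, H t := by
    intro x hx
    refine ⟨?_, fun hxH => ?_⟩
    · rcases hx with hx | hx
      · exact mem_iUnion₂.mpr ⟨x, hx, Metric.mem_ball_self (hr x hx).1⟩
      · obtain ⟨t, ht, hxt⟩ := mem_iUnion₂.mp hx
        refine mem_iUnion₂.mpr ⟨t, ht, Metric.ball_subset_ball ?_ hxt⟩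
        have h1 := hϱ t ht t ht
        have h2 := (hr t ht).1
        nlinarith
    · obtain ⟨t, ht, hxt⟩ := mem_iUnion₂.mp hxH
      have h1 := hs t (huE ht)
      have h2 : 0 < δ * r t := mul_pos hδ0 (hr t (huE ht)).1
      rcases hx with hx | hx
      · exact h1.2.2 x (by linarith [hxt.1]) (by linarith [hxt.2]) hx
      · obtain ⟨t', ht', hxt'⟩ := mem_iUnion₂.mp hx
        have h3 := hϱ t (huE ht) t' ht'
        rw [Metric.mem_ball, Real.dist_eq, abs_lt] at hxt'
        exact h1.2.2 t' (by linarith [hxt.1, hxt'.2]) (by linarith [hxt.2, hxt'.1]) ht'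
  have hHU : (⋃ t ∈ u, H t) ⊆ U := by
    intro x hx
    obtain ⟨t, ht, hxt⟩ := mem_iUnion₂.mp hx
    exact mem_iUnion₂.mpr ⟨t, huE ht, hHball t (huE ht) hxt⟩
  have hHm : MeasurableSet (⋃ t ∈ u, H t) :=
    MeasurableSet.biUnion hcount fun _ _ => measurableSet_Icc
  refine (measure_mono hsub).trans ?_
  rw [measure_sdiff hHU hHm.nullMeasurableSet (ne_top_of_le_ne_top hUfin (measure_mono hHU))]
  refine (tsub_le_tsub_left hkey _).trans ?_
  rw [tsub_le_iff_right, ← add_mul, ← ENNReal.ofReal_add (by linarith) (by positivity)]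
  simp

/-- Induction on `L` (`Finset.induction_on_max`), for the strengthened claim: for every `ϱ ≤ 2` with
`ϱ t' ≤ δ/8 · r N t` for all `N ∈ L`, `vol (E ∪ ⋃ ball t (ϱ t)) ≤ 5 (1 - δ/40)^#L`; finally `ϱ = 0`. -/
theorem nest {E : Set ℝ} {δ : ℝ} (hδ0 : 0 < δ) (hδ : δ ≤ 1) (L : Finset ℕ) (r : ℕ → ℝ → ℝ)
    (hr : ∀ N ∈ L, ∀ t ∈ E, 0 < r N t ∧ r N t ≤ 2)
    (hhole : ∀ N ∈ L, ∀ t ∈ E, ∃ s, t - r N t ≤ s ∧ s + δ * r N t / 2 ≤ t + r N t ∧
      ∀ x, s ≤ x → x ≤ s + δ * r N t / 2 → x ∉ E)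
    (hrat : ∀ N ∈ L, ∀ N' ∈ L, N < N' → ∀ t ∈ E, ∀ t' ∈ E, r N' t' ≤ δ / 8 * r N t)
    (hE : E ⊆ Icc 0 1) :
    volume E ≤ ENNReal.ofReal (5 * (1 - δ / 40) ^ L.card) := by
  have key : ∀ L : Finset ℕ, (∀ N ∈ L, ∀ t ∈ E, 0 < r N t ∧ r N t ≤ 2) →
      (∀ N ∈ L, ∀ t ∈ E, ∃ s, t - r N t ≤ s ∧ s + δ * r N t / 2 ≤ t + r N t ∧
        ∀ x, s ≤ x → x ≤ s + δ * r N t / 2 → x ∉ E) →
      (∀ N ∈ L, ∀ N' ∈ L, N < N' → ∀ t ∈ E, ∀ t' ∈ E, r N' t' ≤ δ / 8 * r N t) →
      ∀ ϱ : ℝ → ℝ, (∀ t ∈ E, ϱ t ≤ 2) →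
        (∀ N ∈ L, ∀ t ∈ E, ∀ t' ∈ E, ϱ t' ≤ δ / 8 * r N t) →
        volume (E ∪ ⋃ t ∈ E, Metric.ball t (ϱ t)) ≤
          ENNReal.ofReal (5 * (1 - δ / 40) ^ L.card) := by
    intro L
    induction L using Finset.induction_on_max with
    | empty =>
      intro _ _ _ ϱ h2 _
      have hsub : (E ∪ ⋃ t ∈ E, Metric.ball t (ϱ t)) ⊆ Icc (-2 : ℝ) 3 := by
        rintro x (hx | hx)
        · have := hE hx
          exact ⟨by linarith [this.1], by linarith [this.2]⟩
        · obtain ⟨t, ht, hxt⟩ := mem_iUnion₂.mp hx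
          have h1 := hE ht
          have h3 := h2 t ht
          rw [Metric.mem_ball, Real.dist_eq, abs_lt] at hxt
          exact ⟨by linarith [h1.1], by linarith [h1.2]⟩
      refine (measure_mono hsub).trans ?_
      rw [Real.volume_Icc]
      apply ENNReal.ofReal_le_ofReal
      norm_num
    | insert a L hlt ih =>
      intro hr hhole hrat ϱ _ hϱ
      have ha : a ∉ L := fun h => lt_irrefl _ (hlt a h)
      have hm := Finset.mem_insert_self a L
      have h1 := nest_step hδ0 hδ (r a) ϱ (hr a hm) (hhole a hm) (hϱ a hm) hE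
      have h2 := ih (fun N hN => hr N (Finset.mem_insert_of_mem hN))
        (fun N hN => hhole N (Finset.mem_insert_of_mem hN))
        (fun N hN N' hN' => hrat N (Finset.mem_insert_of_mem hN) N' (Finset.mem_insert_of_mem hN'))
        (r a) (fun t ht => (hr a hm t ht).2)
        (fun N hN => hrat N (Finset.mem_insert_of_mem hN) a hm (hlt N hN))
      refine h1.trans ?_
      refine (mul_le_mul_right ((measure_mono subset_union_right).trans h2) _).trans ?_
      rw [← ENNReal.ofReal_mul (by linarith), Finset.card_insert_of_notMem ha, pow_succ]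
      apply le_of_eq
      congr 1
      ring
  refine (measure_mono subset_union_left).trans (key L hr hhole hrat (fun _ => 0)
    (fun _ _ => by norm_num) fun N hN t ht _ _ => ?_)
  have := (hr N hN t ht).1
  positivity

end Crest.Agent.R128
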