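import Crest.Agent.R128.Level
import Crest.Agent.R128.Nest
import Crest.Agent.R128.Data
import Crest.Agent.R128.DataPt

/-! The measure of one data cell. -/

set_option autoImplicit false

noncomputable section

open MeasureTheory Set

namespace Crest.Agent.R128

/-- One data cell.  Take `δ, M₀` from `level`, `L, m` from `data_levels`, and
`r N t = 2 / max (ν(t) N) (ν(φ a - t) (m N))`.  With `λ N = N - h₁ N/100 ≥ 99/100`, `nuN_bounds` gives
`M^(λ - 1/100) ≤ max ≤ M^(λ + 1/2)` and both ratios `≤ M^(51/100)`; for `N < N'` in `L`,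
`λ N' ≥ λ N + 99/100`, so `r N' t' ≤ M^(-12/25) r N t ≤ δ/8 · r N t`.  The hole of `level` at `t₁ = t`,
`t₂ = φ a - t` misses the cell by `pl_of_goodH`.  (`p ≥ 30`, `Z ≤ p`, `κ ≤ 1/10` give
`N + 3 ≤ p`, `m N + 3 ≤ p`, `N, m N ≤ (1-κ) p`.)  Conclude with `nest`. -/
theorem cell_bound : ∃ δ > 0, δ ≤ 1 ∧ ∃ M₀ : ℝ, ∀ (k κ a : ℝ) (p Z : ℕ) (h₁ h₂ : ℕ → ℕ),
    M₀ ≤ Mk k → κ ≤ 1 / 10 → 30 ≤ p → Z ≤ p → Monotone h₁ → Monotone h₂ → h₁ 0 = 0 → h₂ 0 = 0 →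
    h₁ p ≤ Z → h₂ p ≤ Z →
    volume {t : ℝ | t ∈ Ico (0 : ℝ) 1 ∧ Wline k κ p a t (phi k a - t) ∧
        (∀ s, s ≤ p → h₁ s = hOf (Mk k) (rchi k a t) s) ∧
        (∀ s, s ≤ p → h₂ s = hOf (Mk k) (rchi k a (phi k a - t)) s)} ≤
      ENNReal.ofReal (5 * (1 - δ / 40) ^ ((p : ℝ) / 2 - 6 * Z - 1)) := by
  obtain ⟨δ, hδ0, hδ1, M₀, hlev⟩ := level
  obtain ⟨M₁, hM₁⟩ := Filter.eventually_atTop.1
    ((tendsto_rpow_atTop (show (0 : ℝ) < 12 / 25 by norm_num)).eventually_ge_atTop (8 / δ))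
  refine ⟨δ, hδ0, hδ1, max M₀ (max M₁ 4), ?_⟩
  intro k κ a p Z h₁ h₂ hM hκ hp hZ m₁ m₂ z₁ z₂ b₁ b₂
  have hM4 : 4 ≤ Mk k := (le_max_right _ _).trans ((le_max_right _ _).trans hM)
  have hM8 := hM₁ _ ((le_max_left _ _).trans ((le_max_right _ _).trans hM))
  replace hM := (le_max_left _ _).trans hM
  have hk : 0 ≤ k := by
    have : 0 ≤ 2 * Real.pi * k := by unfold Mk at hM4; linarith
    exact nonneg_of_mul_nonneg_right this (by positivity)
  have hM1 : 1 ≤ Mk k := by linarith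
  have hM0 : 0 < Mk k := by linarith
  obtain ⟨L, m, hL, hm⟩ := data_levels m₁ m₂ z₁ z₂ (by omega) hZ b₁ b₂
  have hp' : (30 : ℝ) ≤ p := by exact_mod_cast hp
  have hZ' : (Z : ℝ) ≤ p := by exact_mod_cast hZ
  have hN1 : ∀ N ∈ L, N + 3 ≤ p := fun N hN => by have := (hm N hN).2.1; omega
  have hN2 : ∀ N ∈ L, m N + 3 ≤ p := fun N hN => by
    have : (m N : ℝ) + 3 ≤ p := by linarith [(hm N hN).2.2.2.2.1]
    exact_mod_cast this
  have hκp := mul_le_mul_of_nonneg_right hκ (Nat.cast_nonneg (α := ℝ) p)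
  set E := {t : ℝ | t ∈ Ico (0 : ℝ) 1 ∧ Wline k κ p a t (phi k a - t) ∧
    (∀ s, s ≤ p → h₁ s = hOf (Mk k) (rchi k a t) s) ∧
    (∀ s, s ≤ p → h₂ s = hOf (Mk k) (rchi k a (phi k a - t)) s)} with hE
  have hb : ∀ N ∈ L, ∀ t ∈ E,
      (Mk k ^ ((N : ℝ) - (h₁ N : ℝ) / 100 - 1 / 100) ≤ nuN (rchi k a t) N ∧
        nuN (rchi k a t) N ≤ Mk k ^ ((N : ℝ) - (h₁ N : ℝ) / 100)) ∧
      (Mk k ^ ((m N : ℝ) - (h₂ (m N) : ℝ) / 100 - 1 / 100) ≤ nuN (rchi k a (phi k a - t)) (m N) ∧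
        nuN (rchi k a (phi k a - t)) (m N) ≤ Mk k ^ ((m N : ℝ) - (h₂ (m N) : ℝ) / 100)) :=
    fun N hN t ht => by
      rw [ht.2.2.1 N (by have := hN1 N hN; omega), ht.2.2.2 (m N) (by have := hN2 N hN; omega)]
      exact ⟨nuN_bounds hk a t N, nuN_bounds hk a _ _⟩
  have hpl : ∀ N ∈ L, ∀ t ∈ E,
      (PlM (Mk k) (rchi k a t) N ∧ PlP (Mk k) (rchi k a t) N p) ∧
      (PlM (Mk k) (rchi k a (phi k a - t)) (m N) ∧ PlP (Mk k) (rchi k a (phi k a - t)) (m N) p) :=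
    fun N hN t ht =>
      ⟨pl_of_goodH hk a t (by have := hN1 N hN; omega) ht.2.2.1 (hm N hN).2.2.1,
        pl_of_goodH hk a _ (by have := hN2 N hN; omega) ht.2.2.2 (hm N hN).2.2.2.1⟩
  have hrat : ∀ {x y l l' : ℝ}, x ≤ Mk k ^ l → Mk k ^ (l' - 1 / 100) ≤ y → l - l' ≤ 1 / 2 →
      x ≤ Mk k ^ (51 / 100 : ℝ) * y := fun {x y l l'} c1 c2 c3 => by
    refine c1.trans (le_trans ?_ (mul_le_mul_of_nonneg_left c2 (by positivity)))
    rw [← Real.rpow_add hM0]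
    exact Real.rpow_le_rpow_of_exponent_le hM1 (by linarith)
  have hpos : ∀ N t, 0 < max (nuN (rchi k a t) N) (nuN (rchi k a (phi k a - t)) (m N)) :=
    fun N t => lt_max_of_lt_left (nuN_rchi_pos _ _ _ _)
  refine (nest hδ0 hδ1 L
    (fun N t => 2 / max (nuN (rchi k a t) N) (nuN (rchi k a (phi k a - t)) (m N)))
    (fun N hN t ht => ⟨div_pos two_pos (hpos N t), div_le_self zero_le_two (le_max_of_le_left
      (le_trans (Real.one_le_rpow hM1 ?_) (hb N hN t ht).1.1))⟩) (fun N hN t ht => ?_)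
    (fun N hN N' hN' hlt t ht t' ht' => ?_) fun t ht => Ico_subset_Icc_self ht.1).trans
    (ENNReal.ofReal_le_ofReal (mul_le_mul_of_nonneg_left ?_ (by norm_num)))
  · obtain ⟨c1, -, c2, -⟩ := hm N hN
    have c3 := (c2 0 (Nat.zero_le _)).1 (Nat.zero_le _)
    rw [z₁, zero_add, Nat.sub_zero] at c3
    have c4 : (h₁ N : ℝ) ≤ N := by exact_mod_cast c3
    have c5 : (1 : ℝ) ≤ N := by exact_mod_cast c1
    linarith
  · obtain ⟨c1, c2, -, -, c3, c4⟩ := hm N hN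
    obtain ⟨⟨d1, d2⟩, d3, d4⟩ := hb N hN t ht
    have c5 : 2 * (N : ℝ) ≤ p := by exact_mod_cast c2
    obtain ⟨s, e1, e2, e3⟩ := hlev k κ a t (phi k a - t) N (m N) p _ hM (hpl N hN t ht).1.1
      (hpl N hN t ht).2.1 (hrat d2 d3 (abs_le.1 c4).2) (hrat d4 d1 (by linarith [(abs_le.1 c4).1]))
      (hN1 N hN) (hN2 N hN) (by linarith) (by linarith) rfl
    have e4 : δ * (2 / max (nuN (rchi k a t) N) (nuN (rchi k a (phi k a - t)) (m N))) / 2 =
        δ / max (nuN (rchi k a t) N) (nuN (rchi k a (phi k a - t)) (m N)) := by ring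
    refine ⟨t + s, by linarith, by linarith, fun x f1 f2 hx => ?_⟩
    refine e3 (x - t) (by linarith) (by linarith) ?_
    rw [add_sub_cancel, sub_sub_sub_cancel_right]
    exact ⟨(hpl N hN x hx).1.2, (hpl N hN x hx).2.2, hx.2.1⟩
  · obtain ⟨-, -, c2, -, -, c4⟩ := hm N hN
    obtain ⟨⟨-, d2⟩, -, d4⟩ := hb N hN t ht
    have d1 := (hb N' hN' t' ht').1.1
    have c3 := (c2 N' (by have := hN1 N' hN'; omega)).2 hlt.le
    have c5 : h₁ N' + N ≤ h₁ N + N' := by omega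
    have c6 : (h₁ N' : ℝ) + N ≤ h₁ N + N' := by exact_mod_cast c5
    have c7 : (N : ℝ) + 1 ≤ N' := by exact_mod_cast hlt
    have e1 : max (nuN (rchi k a t) N) (nuN (rchi k a (phi k a - t)) (m N)) ≤
        Mk k ^ ((N : ℝ) - (h₁ N : ℝ) / 100 + 1 / 2) :=
      max_le (d2.trans (Real.rpow_le_rpow_of_exponent_le hM1 (by linarith)))
        (d4.trans (Real.rpow_le_rpow_of_exponent_le hM1 (by linarith [(abs_le.1 c4).1])))
    have e2 : 8 / δ * max (nuN (rchi k a t) N) (nuN (rchi k a (phi k a - t)) (m N)) ≤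
        max (nuN (rchi k a t') N') (nuN (rchi k a (phi k a - t')) (m N')) := by
      refine (mul_le_mul hM8 e1 (hpos N t).le (by positivity)).trans
        (le_max_of_le_left (le_trans ?_ d1))
      rw [← Real.rpow_add hM0]
      exact Real.rpow_le_rpow_of_exponent_le hM1 (by linarith)
    refine (div_le_div_of_nonneg_left zero_le_two (mul_pos (by positivity) (hpos N t)) e2).trans
      (le_of_eq ?_)
    have := (hpos N t).ne'
    field_simp
  · rw [← Real.rpow_natCast]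
    exact Real.rpow_le_rpow_of_exponent_ge (by linarith) (by linarith) hL

end Crest.Agent.R128
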