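import Crest.Agent.R128.Rec

/-! Norms of transfer matrices, heights and deficiency. -/

set_option autoImplicit false

noncomputable section

open MeasureTheory Set

namespace Crest.Agent.R128

/-- `det = 1` gives `(|a|+|b|+|c|+|d|)^2 ≥ 4 (|ad| + |bc|) ≥ 4`. -/
theorem two_le_nrm (v : ℤ → ℝ) (a b : ℤ) : 2 ≤ nrm v a b := by
  have h := wronskian (sol_isSol v a 1 0) (sol_isSol v a 0 1) a b
  simp only [sol_left, sol_right] at h
  unfold nrm
  generalize sol v a 1 0 b = x at *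
  generalize sol v a 1 0 (b + 1) = y at *
  generalize sol v a 0 1 b = z at *
  generalize sol v a 0 1 (b + 1) = w at *
  have h1 : 1 ≤ |x| * |w| + |y| * |z| := by
    rw [← abs_mul, ← abs_mul]
    linarith [le_abs_self (x * w), neg_abs_le (y * z)]
  have hx := abs_nonneg x
  have hy := abs_nonneg y
  have hz := abs_nonneg z
  have hw := abs_nonneg w
  refine (pow_le_pow_iff_left₀ (by norm_num) (by positivity) two_ne_zero).1 ?_
  nlinarith [sq_nonneg (|x| + |y| - |z| - |w|), mul_nonneg hx hz, mul_nonneg hy hw]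

theorem nrm_pos (v : ℤ → ℝ) (a b : ℤ) : 0 < nrm v a b := by
  linarith [two_le_nrm v a b]

theorem nrm_self (v : ℤ → ℝ) (a : ℤ) : nrm v a a = 2 := by
  simp only [nrm, sol_left, sol_right]
  norm_num

/-- The inverse of an `SL₂` matrix is its adjugate: every entry of one matrix is a Wronskian, e.g.
`sol v b 0 1 a = - sol v a 0 1 b`, `sol v b 1 0 a = sol v a 0 1 (b+1)`, … -/
theorem nrm_symm (v : ℤ → ℝ) (a b : ℤ) : nrm v a b = nrm v b a := by
  have h1 := wronskian (sol_isSol v a 1 0) (sol_isSol v b 1 0) a b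
  have h2 := wronskian (sol_isSol v a 1 0) (sol_isSol v b 0 1) a b
  have h3 := wronskian (sol_isSol v a 0 1) (sol_isSol v b 1 0) a b
  have h4 := wronskian (sol_isSol v a 0 1) (sol_isSol v b 0 1) a b
  simp only [sol_left, sol_right, one_mul, zero_mul, mul_one, mul_zero, sub_zero, zero_sub,
    neg_inj] at h1 h2 h3 h4
  unfold nrm
  rw [h1, h2, h3, ← h4, abs_neg, abs_neg]
  ring

/-- `ℓ¹` norm at cut `b` of a solution, bounded through cut `a`. -/
theorem abs_add_le_nrm {v u : ℤ → ℝ} (hu : IsSol v u) (a b : ℤ) :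
    |u b| + |u (b + 1)| ≤ nrm v a b * nu u a := by
  have h0 := abs_le_nu u a
  have h1 := abs_succ_le_nu u a
  have key : ∀ s, |u s| ≤ (|sol v a 1 0 s| + |sol v a 0 1 s|) * nu u a := fun s => by
    rw [hu.lin_eq a s]
    refine (abs_add_le _ _).trans ?_
    rw [abs_mul, abs_mul, add_mul, mul_comm _ (nu u a), mul_comm _ (nu u a)]
    gcongr
  have h2 := key b
  have h3 := key (b + 1)
  unfold nrm
  linarith

theorem nu_le_nrm {v u : ℤ → ℝ} (hu : IsSol v u) (a b : ℤ) : nu u b ≤ nrm v a b * nu u a := by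
  have h := abs_add_le_nrm hu a b
  exact max_le (by linarith [abs_nonneg (u (b + 1))]) (by linarith [abs_nonneg (u b)])

theorem nrm_mul (v : ℤ → ℝ) (a b c : ℤ) : nrm v a c ≤ nrm v a b * nrm v b c := by
  have h1 := abs_add_le_nrm (sol_isSol v a 1 0) b c
  have h2 := abs_add_le_nrm (sol_isSol v a 0 1) b c
  have h3 : nu (sol v a 1 0) b + nu (sol v a 0 1) b ≤ nrm v a b := by
    have a1 : ∀ u : ℤ → ℝ, nu u b ≤ |u b| + |u (b + 1)| := fun u =>
      max_le (le_add_of_nonneg_right (abs_nonneg _)) (le_add_of_nonneg_left (abs_nonneg _))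
    unfold nrm
    linarith [a1 (sol v a 1 0), a1 (sol v a 0 1)]
  have h4 := mul_le_mul_of_nonneg_left h3 (nrm_pos v b c).le
  have e : nrm v a c = (|sol v a 1 0 c| + |sol v a 1 0 (c + 1)|) +
      (|sol v a 0 1 c| + |sol v a 0 1 (c + 1)|) := by
    unfold nrm
    ring
  linarith

theorem nrm_step {M : ℝ} {v : ℤ → ℝ} (hv : Bdd M v) (a : ℤ) : nrm v a (a + 1) ≤ M := by
  have h1 := sol_isSol v a 1 0 (a + 1)
  have h2 := sol_isSol v a 0 1 (a + 1)
  simp only [add_sub_cancel_right, sol_left, sol_right] at h1 h2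
  have h3 := hv (a + 1)
  unfold nrm
  rw [h1, h2]
  simp only [sol_right, mul_zero, zero_sub, abs_neg, abs_one, abs_zero, mul_one, sub_zero]
  linarith

theorem nrm_le_rpow {M : ℝ} {v : ℤ → ℝ} (hv : Bdd M v) {a b : ℤ} (hab : a < b) :
    nrm v a b ≤ M ^ ((b : ℝ) - a) := by
  have hM : 0 < M := by linarith [hv.two_le]
  obtain ⟨n, rfl⟩ : ∃ n : ℕ, b = a + (n + 1 : ℕ) := ⟨(b - a - 1).toNat, by push_cast; omega⟩
  have e : ((a + (n + 1 : ℕ) : ℤ) : ℝ) - a = ((n + 1 : ℕ) : ℝ) := by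
    push_cast
    ring
  rw [e, Real.rpow_natCast]
  clear e hab
  induction n with
  | zero => simpa using nrm_step hv a
  | succ n ih =>
    have h1 := nrm_mul v a (a + (n + 1 : ℕ)) (a + (n + 1 : ℕ) + 1)
    have h2 := nrm_step hv (a + (n + 1 : ℕ))
    rw [pow_succ, Nat.cast_succ (n + 1), ← add_assoc]
    exact h1.trans (mul_le_mul ih h2 (nrm_pos _ _ _).le (by positivity))

theorem nrm_le_two_rpow {M : ℝ} {v : ℤ → ℝ} (hv : Bdd M v) {a b : ℤ} (hab : a ≤ b) :
    nrm v a b ≤ 2 * M ^ ((b : ℝ) - a) := by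
  rcases hab.eq_or_lt with rfl | h
  · simp [nrm_self]
  · linarith [nrm_le_rpow hv h, nrm_pos v a b]

/-- One of the two basis solutions carries a quarter of the norm. -/
theorem nrm_le_basis (v : ℤ → ℝ) (a b : ℤ) :
    nrm v a b ≤ 4 * nu (sol v a 1 0) b ∨ nrm v a b ≤ 4 * nu (sol v a 0 1) b := by
  have h1 := abs_le_nu (sol v a 1 0) b
  have h2 := abs_succ_le_nu (sol v a 1 0) b
  have h3 := abs_le_nu (sol v a 0 1) b
  have h4 := abs_succ_le_nu (sol v a 0 1) b
  unfold nrm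
  rcases le_total (nu (sol v a 1 0) b) (nu (sol v a 0 1) b) with h | h
  · right
    linarith
  · left
    linarith

theorem nrm_shift (v : ℤ → ℝ) (t a b : ℤ) : nrm (shift t v) a b = nrm v (a + t) (b + t) := by
  simp only [nrm, sol_shift, add_right_comm b 1 t]

theorem nrm_refl (v : ℤ → ℝ) (a b : ℤ) : nrm (refl v) a b = nrm v (-b) (-a) := by
  rw [nrm_symm v (-b)]
  have e1 : 1 - b = -b + 1 := by ring
  have e2 : 1 - (b + 1) = -b := by ring
  simp only [nrm, sol_refl, e1, e2]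
  ring

theorem continuous_nrm (a b : ℤ) : Continuous fun v : ℤ → ℝ => nrm v a b := by
  have h : ∀ (p q : ℝ) (s : ℤ), Continuous fun v : ℤ → ℝ => sol v a p q s := fun p q s =>
    (continuous_sol a s).comp (continuous_id.prodMk (continuous_const (y := (p, q))))
  exact (((h _ _ _).abs.add (h _ _ _).abs).add (h _ _ _).abs).add (h _ _ _).abs

theorem nu_step_up {M : ℝ} {v u : ℤ → ℝ} (hv : Bdd M v) (hu : IsSol v u) (s : ℤ) :
    nu u (s + 1) ≤ M * nu u s := by
  exact (nu_le_nrm hu s (s + 1)).trans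
    (mul_le_mul_of_nonneg_right (nrm_step hv s) (nu_nonneg _ _))

theorem nu_step_down {M : ℝ} {v u : ℤ → ℝ} (hv : Bdd M v) (hu : IsSol v u) (s : ℤ) :
    nu u s ≤ M * nu u (s + 1) := by
  refine (nu_le_nrm hu (s + 1) s).trans (mul_le_mul_of_nonneg_right ?_ (nu_nonneg _ _))
  rw [nrm_symm]
  exact nrm_step hv s

theorem ht_step {M : ℝ} {v u : ℤ → ℝ} (hv : Bdd M v) (hu : IsSol v u) (hp : ∀ s, 0 < nu u s)
    (s : ℤ) : |ht M u (s + 1) - ht M u s| ≤ 1 := by
  have hM : 1 < M := by linarith [hv.two_le]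
  have key : ∀ a b, nu u a ≤ M * nu u b → ht M u a ≤ 1 + ht M u b := fun a b h => by
    have := Real.logb_le_logb_of_le hM (hp a) h
    rwa [Real.logb_mul (by linarith) (hp b).ne', Real.logb_self_eq_one hM] at this
  have h1 := key _ _ (nu_step_up hv hu s)
  have h2 := key _ _ (nu_step_down hv hu s)
  exact abs_le.2 ⟨by linarith, by linarith⟩

theorem ht_diff {M : ℝ} {v u : ℤ → ℝ} (hv : Bdd M v) (hu : IsSol v u) (hp : ∀ s, 0 < nu u s)
    {a b : ℤ} (hab : a ≤ b) : |ht M u b - ht M u a| ≤ (b : ℝ) - a := by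
  induction b, hab using Int.leInduction with
  | base => simp
  | succ b _ ih =>
    have h := ht_step hv hu hp b
    rw [abs_le] at *
    push_cast
    constructor <;> linarith [h.1, h.2, ih.1, ih.2]

theorem ht_refl (M : ℝ) (u : ℤ → ℝ) (s : ℤ) : ht M (refl u) s = ht M u (-s) := by
  simp only [ht, nu_refl]

/-- Translation between heights and norms. -/
theorem nu_le_iff_ht {M : ℝ} (hM : 1 < M) {u : ℤ → ℝ} {a b : ℤ} (ha : 0 < nu u a) (hb : 0 < nu u b)
    (x : ℝ) : nu u a ≤ M ^ (-x) * nu u b ↔ x ≤ ht M u b - ht M u a := by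
  have hM0 : 0 < M := by linarith
  rw [← Real.logb_le_logb hM ha (by positivity), Real.logb_mul (by positivity) hb.ne',
    Real.logb_rpow hM0 hM.ne']
  unfold ht
  constructor <;> intro h <;> linarith

theorem nu_lt_iff_ht {M : ℝ} (hM : 1 < M) {u : ℤ → ℝ} {a b : ℤ} (ha : 0 < nu u a) (hb : 0 < nu u b)
    (x : ℝ) : nu u a < M ^ (-x) * nu u b ↔ x < ht M u b - ht M u a := by
  have hM0 : 0 < M := by linarith
  rw [← Real.logb_lt_logb_iff hM ha (by positivity), Real.logb_mul (by positivity) hb.ne',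
    Real.logb_rpow hM0 hM.ne']
  unfold ht
  constructor <;> intro h <;> linarith

theorem dfc_super {M : ℝ} (hM : 1 < M) (v : ℤ → ℝ) (a b c : ℤ) :
    dfc M v a b + dfc M v b c ≤ dfc M v a c := by
  have h := Real.logb_le_logb_of_le hM (nrm_pos v a c) (nrm_mul v a b c)
  rw [Real.logb_mul (nrm_pos v a b).ne' (nrm_pos v b c).ne'] at h
  unfold dfc
  linarith

theorem dfc_nonneg {M : ℝ} {v : ℤ → ℝ} (hv : Bdd M v) {a b : ℤ} (hab : a < b) :
    0 ≤ dfc M v a b := by
  have hM : 1 < M := by linarith [hv.two_le]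
  have h := Real.logb_le_logb_of_le hM (nrm_pos v a b) (nrm_le_rpow hv hab)
  rw [Real.logb_rpow (by linarith) hM.ne'] at h
  exact sub_nonneg.2 h

theorem dfc_le' {M : ℝ} (hM : 1 < M) (v : ℤ → ℝ) (a b : ℤ) : dfc M v a b ≤ (b : ℝ) - a :=
  sub_le_self _ (Real.logb_nonneg hM (by linarith [two_le_nrm v a b]))

theorem dfc_self_nonpos {M : ℝ} (hM : 1 < M) (v : ℤ → ℝ) (a : ℤ) : dfc M v a a ≤ 0 := by
  simpa using dfc_le' hM v a a

theorem dfc_le {M : ℝ} (hM : 1 < M) (v : ℤ → ℝ) (a b : ℤ) : dfc M v a b ≤ (b : ℝ) - a := by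
  exact dfc_le' hM v a b

/-- Lower bound valid also for the empty window (`logb M 2 ≤ 1`). -/
theorem neg_one_le_dfc {M : ℝ} {v : ℤ → ℝ} (hv : Bdd M v) {a b : ℤ} (hab : a ≤ b) :
    -1 ≤ dfc M v a b := by
  rcases hab.eq_or_lt with rfl | h
  · have hM : 1 < M := by linarith [hv.two_le]
    have h := Real.logb_le_logb_of_le hM two_pos hv.two_le
    rw [Real.logb_self_eq_one hM] at h
    unfold dfc
    rw [nrm_self]
    linarith
  · linarith [dfc_nonneg hv h]

theorem dfc_mono {M : ℝ} {v : ℤ → ℝ} (hv : Bdd M v) {a a' b' b : ℤ} (h1 : a ≤ a') (h2 : a' ≤ b')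
    (h3 : b' ≤ b) : dfc M v a' b' ≤ dfc M v a b := by
  have hM : 1 < M := by linarith [hv.two_le]
  have h4 : dfc M v a' b' ≤ dfc M v a b' := by
    rcases h1.eq_or_lt with rfl | h
    · exact le_rfl
    · linarith [dfc_super hM v a a' b', dfc_nonneg hv h]
  rcases h3.eq_or_lt with rfl | h
  · exact h4
  · linarith [dfc_super hM v a b' b, dfc_nonneg hv h]

/-- `nrm a b ≤ nrm a c * nrm c b` and `nrm c b = nrm b c ≤ M^(c-b)` for `b < c`. -/
theorem dfc_ext_right {M : ℝ} {v : ℤ → ℝ} (hv : Bdd M v) (a : ℤ) {b c : ℤ} (h : b ≤ c) :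
    dfc M v a c ≤ dfc M v a b + 2 * ((c : ℝ) - b) := by
  have hM : 1 < M := by linarith [hv.two_le]
  rcases h.eq_or_lt with rfl | h
  · simp
  · have h1 := dfc_super hM v a c b
    have h2 := dfc_nonneg hv h
    unfold dfc at *
    rw [nrm_symm v c b] at h1
    linarith

theorem dfc_ext_left {M : ℝ} {v : ℤ → ℝ} (hv : Bdd M v) (b : ℤ) {a' a : ℤ} (h : a' ≤ a) :
    dfc M v a' b ≤ dfc M v a b + 2 * ((a : ℝ) - a') := by
  have hM : 1 < M := by linarith [hv.two_le]
  rcases h.eq_or_lt with rfl | h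
  · simp
  · have h1 := dfc_super hM v a a' b
    have h2 := dfc_nonneg hv h
    unfold dfc at *
    rw [nrm_symm v a a'] at h1
    linarith

theorem dfc_shift (M : ℝ) (v : ℤ → ℝ) (t a b : ℤ) :
    dfc M (shift t v) a b = dfc M v (a + t) (b + t) := by
  unfold dfc
  rw [nrm_shift]
  push_cast
  ring

theorem dfc_refl (M : ℝ) (v : ℤ → ℝ) (a b : ℤ) : dfc M (refl v) a b = dfc M v (-b) (-a) := by
  unfold dfc
  rw [nrm_refl]
  push_cast
  ring

theorem continuous_dfc (M : ℝ) (a b : ℤ) : Continuous fun v : ℤ → ℝ => dfc M v a b := by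
  exact continuous_const.sub
    (((continuous_nrm a b).log fun v => (nrm_pos v a b).ne').div_const (Real.log M))

theorem measurable_dfc (M : ℝ) (a b : ℤ) : Measurable fun v : ℤ → ℝ => dfc M v a b := by
  exact (continuous_dfc M a b).measurable

/-- Comparison of deficiencies from a comparison of norms. -/
theorem dfc_le_of_nrm_le {M : ℝ} (hM : 1 < M) {v w : ℤ → ℝ} {a b : ℤ} {C : ℝ} (hC : 0 < C)
    (h : nrm v a b ≤ C * nrm w a b) : dfc M w a b ≤ dfc M v a b + Real.logb M C := by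
  have h1 := Real.logb_le_logb_of_le hM (nrm_pos v a b) h
  rw [Real.logb_mul hC.ne' (nrm_pos w a b).ne'] at h1
  unfold dfc
  linarith

/-- A window of good sites is regular: the solution `sol v a 0 1` satisfies
`|u s| ≤ |u (s+1)|` and `|u (s+1)| ≥ (|v s| - 1) |u s| ≥ M^(1-η) |u s|` for `a < s ≤ b`. -/
theorem dfc_good {M η : ℝ} (hM : 1 < M) (hη0 : 0 ≤ η) (hη : η ≤ 1) {v : ℤ → ℝ} {a b : ℤ} (hab : a ≤ b)
    (hg : ∀ s, a < s → s ≤ b → Good M η (v s)) : dfc M v a b ≤ η * ((b : ℝ) - a) := by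
  have hM0 : 0 < M := by linarith
  have hu := sol_isSol v a 0 1
  have hρ : 1 ≤ M ^ (1 - η) := Real.one_le_rpow hM.le (by linarith)
  have key : ∀ c, a ≤ c → c ≤ b → |sol v a 0 1 c| ≤ |sol v a 0 1 (c + 1)| ∧
      M ^ ((1 - η) * ((c : ℝ) - a)) ≤ |sol v a 0 1 (c + 1)| := by
    intro c hc
    induction c, hc using Int.leInduction with
    | base => simp
    | succ c hc ih =>
      intro hb
      obtain ⟨h1, h2⟩ := ih (by omega)
      have h3 := hg (c + 1) (by omega) hb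
      have h4 := hu (c + 1)
      rw [add_sub_cancel_right] at h4
      have h5 : M ^ (1 - η) * |sol v a 0 1 (c + 1)| ≤ |sol v a 0 1 (c + 1 + 1)| := by
        have h6 := abs_sub_abs_le_abs_sub (v (c + 1) * sol v a 0 1 (c + 1)) (sol v a 0 1 c)
        rw [← h4, abs_mul] at h6
        have h7 := mul_le_mul_of_nonneg_right h3 (abs_nonneg (sol v a 0 1 (c + 1)))
        linarith
      refine ⟨(le_mul_of_one_le_left (abs_nonneg _) hρ).trans h5, le_trans ?_ h5⟩
      have e : (1 - η) * (((c + 1 : ℤ) : ℝ) - a) = (1 - η) + (1 - η) * ((c : ℝ) - a) := by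
        push_cast
        ring
      rw [e, Real.rpow_add hM0]
      exact mul_le_mul_of_nonneg_left h2 (by positivity)
  have h1 : M ^ ((1 - η) * ((b : ℝ) - a)) ≤ nrm v a b := by
    have := (key b hab le_rfl).2
    unfold nrm
    linarith [abs_nonneg (sol v a 1 0 b), abs_nonneg (sol v a 1 0 (b + 1)),
      abs_nonneg (sol v a 0 1 b)]
  have h2 := Real.logb_le_logb_of_le hM (by positivity) h1
  rw [Real.logb_rpow hM0 hM.ne'] at h2
  unfold dfc
  linarith

/-- Regularity at the square scales gives regularity at all scales: for `l ≤ js^2` use `dfc_good`;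
otherwise take the least `i` with `l ≤ i^2`; then `js ≤ i - 1`, `(i-1)^2 < l`, `i^2 ≤ 2 (i-1)^2`,
and use `dfc_mono`. -/
theorem reg_squares {M η κ : ℝ} {v : ℤ → ℝ} (hv : Bdd M v) (hη0 : 0 ≤ η) (hη : η ≤ 1) (hηκ : η ≤ κ)
    {js J : ℕ} (hjs : 3 ≤ js)
    (hg : ∀ s : ℤ, 1 ≤ s → s ≤ ((js ^ 2 : ℕ) : ℤ) → Good M η (v s))
    (hr : ∀ i : ℕ, js ≤ i → i ≤ J → dfc M v 0 ((i ^ 2 : ℕ) : ℤ) ≤ κ * (i : ℝ) ^ 2) :
    ∀ l : ℕ, l ≤ J ^ 2 → dfc M v 0 l ≤ 2 * κ * l := by
  intro l hl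
  have hM : 1 < M := by linarith [hv.two_le]
  have hl0 : (0 : ℝ) ≤ l := Nat.cast_nonneg l
  have hκ : 0 ≤ κ := hη0.trans hηκ
  by_cases h : l ≤ js ^ 2
  · have h1 := dfc_good hM hη0 hη (v := v) (a := 0) (b := l) (by omega)
      fun s h1 h2 => hg s (by omega) (by omega)
    simp only [Int.cast_natCast, Int.cast_zero, sub_zero] at h1
    nlinarith
  · have hex : ∃ i, l ≤ i ^ 2 := ⟨J, hl⟩
    have h1 := Nat.find_spec hex
    have h2 := Nat.find_min' hex hl
    have h3 : js < Nat.find hex := by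
      by_contra hc
      exact h (h1.trans (Nat.pow_le_pow_left (not_lt.1 hc) 2))
    have h4 := Nat.find_min hex (m := Nat.find hex - 1) (by omega)
    generalize Nat.find hex = i at *
    obtain ⟨m, rfl⟩ : ∃ m, i = m + 1 := ⟨i - 1, by omega⟩
    rw [add_tsub_cancel_right, not_le] at h4
    have h5 : (m + 1) ^ 2 ≤ 2 * l := by nlinarith
    have h6 : ((m + 1 : ℕ) : ℝ) ^ 2 ≤ 2 * l := by exact_mod_cast h5
    have h7 := hr (m + 1) h3.le h2
    have h8 := dfc_mono hv (a := 0) (a' := 0) (b' := l) (b := (((m + 1) ^ 2 : ℕ) : ℤ)) le_rfl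
      (by omega) (by exact_mod_cast h1)
    nlinarith

end Crest.Agent.R128
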