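import Crest.Prelude.Def_StandardMap
import Crest.Agent.R128.Law
import Crest.Agent.R128.Nrm

/-! The conjugacy with the standard map. -/

set_option autoImplicit false

noncomputable section

open MeasureTheory Set

namespace Crest.Agent.R128

/-- The conjugacy `C (x, y) = (x - y, x)`: `orb k (C p) n = ((S^[n] p).1 - (S^[n] p).2)` and
`orb k (C p) (n+1) = (S^[n] p).1`, i.e. `sp k n (C p) = C (S^[n] p)`. -/
theorem sp_conj (k : ℝ) (p : ℝ × ℝ) (n : ℕ) :
    sp k n (p.1 - p.2, p.1) =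
      (((Crest.AnalysisR.StandardFamily.standardMapLift k)^[n] p).1 -
          ((Crest.AnalysisR.StandardFamily.standardMapLift k)^[n] p).2,
        ((Crest.AnalysisR.StandardFamily.standardMapLift k)^[n] p).1) := by
  induction n with
  | zero => simp
  | succ n ih =>
    have e : ((n + 1 : ℕ) : ℤ) = 1 + (n : ℤ) := by push_cast; ring
    rw [e, ← sp_sp, ih, sp_one, Function.iterate_succ_apply']
    generalize (Crest.AnalysisR.StandardFamily.standardMapLift k)^[n] p = q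
    simp only [Crest.AnalysisR.StandardFamily.standardMapLift, phi, Prod.mk.injEq]
    constructor <;> ring

/-- The linear map `C (x, y) = (x - y, x)`. -/
def conjC : ℝ × ℝ →L[ℝ] ℝ × ℝ :=
  (ContinuousLinearMap.fst ℝ ℝ ℝ - ContinuousLinearMap.snd ℝ ℝ ℝ).prod
    (ContinuousLinearMap.fst ℝ ℝ ℝ)

/-- The inverse map `(a, b) ↦ (b, b - a)`. -/
def conjCi : ℝ × ℝ →L[ℝ] ℝ × ℝ :=
  (ContinuousLinearMap.snd ℝ ℝ ℝ).prod
    (ContinuousLinearMap.snd ℝ ℝ ℝ - ContinuousLinearMap.fst ℝ ℝ ℝ)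

theorem conjC_apply (p : ℝ × ℝ) : conjC p = (p.1 - p.2, p.1) := rfl

theorem conjCi_apply (p : ℝ × ℝ) : conjCi p = (p.2, p.2 - p.1) := rfl

theorem conjC_Ci (p : ℝ × ℝ) : conjC (conjCi p) = p := by
  rw [conjCi_apply, conjC_apply]
  ext <;> simp

theorem conj_norm_C : ‖conjC‖ ≤ 2 := by
  refine ContinuousLinearMap.opNorm_le_bound _ (by norm_num) fun p => ?_
  rw [conjC_apply, Prod.norm_def]
  have h1 := norm_fst_le p
  have h2 := norm_snd_le p
  have h3 := norm_sub_le p.1 p.2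
  have h4 := norm_nonneg p
  exact max_le (by simp only; linarith) (by simp only; linarith)

theorem conj_norm_Ci : ‖conjCi‖ ≤ 2 := by
  refine ContinuousLinearMap.opNorm_le_bound _ (by norm_num) fun p => ?_
  rw [conjCi_apply, Prod.norm_def]
  have h1 := norm_fst_le p
  have h2 := norm_snd_le p
  have h3 := norm_sub_le p.2 p.1
  have h4 := norm_nonneg p
  exact max_le (by simp only; linarith) (by simp only; linarith)

/-- `S^[n] = C⁻¹ ∘ sp n ∘ C` has derivative `C⁻¹ ∘ tm ∘ C` (`hasFDerivAt_sp`), `‖C‖, ‖C⁻¹‖ ≤ 2`, so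
`‖tm‖ ≤ 4 ‖D S^[n]‖`; use `nrm_le_tm`. -/
theorem nrm_le_fderiv (k : ℝ) (p : ℝ × ℝ) (n : ℕ) :
    nrm (pot k (p.1 - p.2, p.1)) 0 n ≤
      8 * ‖fderiv ℝ (Crest.AnalysisR.StandardFamily.standardMapLift k)^[n] p‖ := by
  set T := tm (pot k (p.1 - p.2, p.1)) 0 n with hT
  have hf : (Crest.AnalysisR.StandardFamily.standardMapLift k)^[n] =
      conjCi ∘ sp k n ∘ conjC := by
    funext q
    simp only [Function.comp_apply, conjC_apply, sp_conj, conjCi_apply]
    ext <;> simp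
  have hd : HasFDerivAt (Crest.AnalysisR.StandardFamily.standardMapLift k)^[n]
      (conjCi.comp (T.comp conjC)) p := by
    rw [hf]
    refine conjCi.hasFDerivAt.comp p (HasFDerivAt.comp p ?_ conjC.hasFDerivAt)
    exact hasFDerivAt_sp k n (p.1 - p.2, p.1)
  rw [hd.fderiv]
  set D := conjCi.comp (T.comp conjC) with hD
  have hTD : T = conjC.comp (D.comp conjCi) := by
    ext1 <;> ext <;> simp [hD, conjC_Ci]
  have h1 : ‖T‖ ≤ 4 * ‖D‖ := by
    calc ‖T‖ = ‖conjC.comp (D.comp conjCi)‖ := by rw [← hTD]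
      _ ≤ ‖conjC‖ * ‖D.comp conjCi‖ := ContinuousLinearMap.opNorm_comp_le _ _
      _ ≤ ‖conjC‖ * (‖D‖ * ‖conjCi‖) := by
          gcongr; exact ContinuousLinearMap.opNorm_comp_le _ _
      _ ≤ 2 * (‖D‖ * 2) := by
          gcongr
          · exact conj_norm_C
          · exact conj_norm_Ci
      _ = 4 * ‖D‖ := by ring
  have h2 := nrm_le_tm (pot k (p.1 - p.2, p.1)) 0 n
  linarith

/-- `C = swap ∘ ((a,b) ↦ (b, b - a)) ∘ swap` preserves the measure of periodic sets in `Q0`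
(`per_swap`, `per_skew` with `ψ = id`; periodicity is preserved by these maps). -/
theorem per_conj {A : Set (ℝ × ℝ)} (hA : MeasurableSet A) (hp : Per A) :
    volume ((fun p : ℝ × ℝ => (p.1 - p.2, p.1)) ⁻¹' A ∩ Q0) = volume (A ∩ Q0) := by
  have hsk : Measurable (fun z : ℝ × ℝ => (z.2, id z.2 - z.1)) := by fun_prop
  have hB : MeasurableSet (Prod.swap ⁻¹' A : Set (ℝ × ℝ)) := measurable_swap hA
  have hBp : Per (Prod.swap ⁻¹' A) := by
    intro z m n
    have := hp z.swap n m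
    simpa [Set.mem_preimage, Prod.swap, Prod.add_def] using this
  have e : (fun p : ℝ × ℝ => (p.1 - p.2, p.1)) ⁻¹' A =
      Prod.swap ⁻¹' ((fun z : ℝ × ℝ => (z.2, id z.2 - z.1)) ⁻¹' (Prod.swap ⁻¹' A)) := by
    ext z
    simp [Set.mem_preimage]
  rw [e, per_swap (hsk hB), per_skew measurable_id hB hBp, per_swap hA]

/-- If `dfc ≤ n/2` then `nrm ≥ M^(n/2) ≥ 2^n` (`M ≥ 4`), so
`log ‖DS^n‖ ≥ n log 2 - log 8 ≥ (log 2 / 2) n` for `n ≥ 6`. -/
theorem lyap_of_freq {k : ℝ} (hk : 0 ≤ k) (p : ℝ × ℝ)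
    (h : ∃ᶠ n : ℕ in Filter.atTop, dfc (Mk k) (pot k (p.1 - p.2, p.1)) 0 n ≤ (n : ℝ) / 2) :
    ∃ c : ℝ, 0 < c ∧ ∃ᶠ n : ℕ in Filter.atTop,
      c * n ≤ Real.log ‖fderiv ℝ (Crest.AnalysisR.StandardFamily.standardMapLift k)^[n] p‖ := by
  have hl2 : 0 < Real.log 2 := Real.log_pos (by norm_num)
  refine ⟨Real.log 2 / 2, by positivity, ?_⟩
  refine (h.and_eventually (Filter.eventually_ge_atTop 6)).mono ?_
  rintro n ⟨h1, h6⟩
  have hM : 4 ≤ Mk k := by
    have : 0 ≤ 2 * Real.pi * k := by have := Real.pi_pos; positivity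
    unfold Mk
    linarith
  have hN := nrm_pos (pot k (p.1 - p.2, p.1)) 0 n
  have hle := nrm_le_fderiv k p n
  set N := nrm (pot k (p.1 - p.2, p.1)) 0 n with hNdef
  set D := ‖fderiv ℝ (Crest.AnalysisR.StandardFamily.standardMapLift k)^[n] p‖ with hDdef
  have hlM : 2 * Real.log 2 ≤ Real.log (Mk k) := by
    have : Real.log 4 = 2 * Real.log 2 := by
      rw [show (4 : ℝ) = 2 ^ 2 by norm_num, Real.log_pow]; norm_num
    rw [← this]
    exact Real.log_le_log (by norm_num) hM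
  have hlMpos : 0 < Real.log (Mk k) := by linarith
  have h2 : (n : ℝ) / 2 ≤ Real.log N / Real.log (Mk k) := by
    unfold dfc Real.logb at h1
    rw [← hNdef] at h1
    push_cast at h1
    linarith
  rw [le_div_iff₀ hlMpos] at h2
  have hn0 : (0 : ℝ) ≤ n := Nat.cast_nonneg n
  have h3 : (n : ℝ) * Real.log 2 ≤ Real.log N := by nlinarith
  have hD : 0 < D := by linarith
  have h4 : Real.log N ≤ Real.log 8 + Real.log D := by
    rw [← Real.log_mul (by norm_num) hD.ne']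
    exact Real.log_le_log hN hle
  have h5 : Real.log 8 = 3 * Real.log 2 := by
    rw [show (8 : ℝ) = 2 ^ 3 by norm_num, Real.log_pow]; norm_num
  have h6' : (6 : ℝ) ≤ n := by exact_mod_cast h6
  nlinarith

end Crest.Agent.R128
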