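import Crest.Agent.R128.Defs

/-! Counting the rounded data; choice of the constants. -/

set_option autoImplicit false

noncomputable section

open MeasureTheory Set

namespace Crest.Agent.R128

/-- Encode `h` by its increments `Δ : Fin p → ℕ`, `Σ Δ ≤ Z`; the number of these is
`≤ x^(-Z) Σ_Δ Π x^(Δ i) ≤ x^(-Z) (Σ_{j ≤ Z} x^j)^p ≤ x^(-Z) (1-x)^(-p)` (`Finset.prod_univ_sum`). -/
theorem count_data (p Z : ℕ) {x : ℝ} (hx0 : 0 < x) (hx1 : x < 1) :
    ∃ H : Finset (ℕ → ℕ), (H.card : ℝ) ≤ (1 / x) ^ Z * (1 / (1 - x)) ^ p ∧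
      (∀ h ∈ H, Monotone h ∧ h 0 = 0 ∧ h p ≤ Z) ∧
      ∀ h : ℕ → ℕ, Monotone h → h 0 = 0 → h p ≤ Z → ∃ h' ∈ H, ∀ s, s ≤ p → h' s = h s := by
  classical
  let ex : (Fin p → ℕ) → ℕ → ℕ := fun Δ i => if hi : i < p then Δ ⟨i, hi⟩ else 0
  let enc : (Fin p → ℕ) → ℕ → ℕ := fun Δ s => ∑ i ∈ Finset.range s, ex Δ i
  let B : Finset (Fin p → ℕ) := Fintype.piFinset fun _ => Finset.range (Z + 1)
  let D : Finset (Fin p → ℕ) := B.filter fun Δ => ∑ i, Δ i ≤ Z
  have henc : ∀ Δ, enc Δ p = ∑ i, Δ i := fun Δ => by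
    simp only [enc, ex]
    rw [Finset.sum_range]
    simp
  refine ⟨D.image enc, ?_, ?_, ?_⟩
  · have h1 : ((D.image enc).card : ℝ) ≤ D.card := by exact_mod_cast Finset.card_image_le
    have h2 : (D.card : ℝ) ≤ ∑ Δ ∈ D, (1 / x) ^ Z * ∏ i, x ^ Δ i := by
      rw [Finset.card_eq_sum_ones, Nat.cast_sum]
      refine Finset.sum_le_sum fun Δ hΔ => ?_
      have h3 := (Finset.mem_filter.1 hΔ).2
      have h4 : x ^ Z ≤ x ^ ∑ i, Δ i := pow_le_pow_of_le_one hx0.le hx1.le h3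
      rw [Finset.prod_pow_eq_pow_sum, one_div, inv_pow, ← div_eq_inv_mul, Nat.cast_one,
        le_div_iff₀ (by positivity), one_mul]
      exact h4
    have h3 : ∑ Δ ∈ D, (1 / x) ^ Z * ∏ i, x ^ Δ i ≤ ∑ Δ ∈ B, (1 / x) ^ Z * ∏ i, x ^ Δ i :=
      Finset.sum_le_sum_of_subset_of_nonneg (Finset.filter_subset _ _) fun _ _ _ => by positivity
    have h4 : ∑ Δ ∈ B, ∏ i, x ^ Δ i = (∑ j ∈ Finset.range (Z + 1), x ^ j) ^ p := by
      rw [← Finset.prod_univ_sum (fun _ : Fin p => Finset.range (Z + 1)) fun _ j => x ^ j]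
      simp
    have h5 : ∑ j ∈ Finset.range (Z + 1), x ^ j ≤ 1 / (1 - x) := by
      rw [le_div_iff₀ (by linarith), ← neg_sub, mul_neg, geom_sum_mul]
      have : 0 ≤ x ^ (Z + 1) := by positivity
      linarith
    rw [← Finset.mul_sum B, h4] at h3
    refine h1.trans (h2.trans (h3.trans ?_))
    gcongr
  · intro h hh
    obtain ⟨Δ, hΔ, rfl⟩ := Finset.mem_image.1 hh
    refine ⟨fun a b hab => Finset.sum_le_sum_of_subset (Finset.range_mono hab), by simp [enc], ?_⟩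
    rw [henc]
    exact (Finset.mem_filter.1 hΔ).2
  · intro h hm h0 hp
    let Δ : Fin p → ℕ := fun i => h (i + 1) - h i
    have he : ∀ s, s ≤ p → enc Δ s = h s := fun s hs => by
      have := Finset.sum_range_tsub hm s
      rw [h0, Nat.sub_zero] at this
      rw [← this]
      refine Finset.sum_congr rfl fun i hi => ?_
      have hi' : i < p := (Finset.mem_range.1 hi).trans_le hs
      simp only [ex, dif_pos hi', Δ]
    refine ⟨enc Δ, Finset.mem_image_of_mem _ (Finset.mem_filter.2 ⟨?_, ?_⟩), he⟩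
    · refine Fintype.mem_piFinset.2 fun i => Finset.mem_range.2 ?_
      have : h (i + 1) ≤ h p := hm i.2
      simp only [Δ]
      omega
    · rw [← henc, he p le_rfl]
      exact hp

/-- Choice of the constants: with `θ = 1 - δ/40`, `λ = -log θ > 0`, pick `x` with `-log(1-x) ≤ λ/16`, then
`κ` with `100 κ (-log x) ≤ λ/16`, `600 κ ≤ 1/8`, `κ ≤ 1/200`; `Z = ⌊100 κ p⌋ + 1`. -/
theorem count_const {δ : ℝ} (hδ0 : 0 < δ) (hδ : δ ≤ 1) :
    ∃ κ > (0 : ℝ), κ ≤ 1 / 200 ∧ ∃ x > 0, x < 1 ∧ ∃ c > 0, ∃ C : ℝ, ∀ p : ℕ,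
      ((1 / x) ^ (⌊100 * κ * p⌋₊ + 1) * (1 / (1 - x)) ^ p) ^ 2 *
          (5 * (1 - δ / 40) ^ ((p : ℝ) / 2 - 6 * ((⌊100 * κ * p⌋₊ + 1 : ℕ) : ℝ) - 1)) ≤
        C * Real.exp (-(c * p)) := by
  have hθ0 : 0 < 1 - δ / 40 := by linarith
  set l := -Real.log (1 - δ / 40) with hl
  have hl0 : 0 < l := neg_pos.2 (Real.log_neg hθ0 (by linarith))
  set x := 1 - Real.exp (-(l / 16)) with hx
  have hx0 : 0 < x := sub_pos.2 (Real.exp_lt_one_iff.2 (by linarith))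
  have hx1 : x < 1 := by linarith [Real.exp_pos (-(l / 16))]
  set a := -Real.log x with ha
  have ha0 : 0 < a := neg_pos.2 (Real.log_neg hx0 hx1)
  set κ := min (1 / 4800) (l / (1600 * a)) with hκ
  have hκ0 : 0 < κ := lt_min (by norm_num) (by positivity)
  have hκ1 : κ ≤ 1 / 4800 := min_le_left _ _
  have hκ2 : κ * (1600 * a) ≤ l := (le_div_iff₀ (by positivity)).1 (min_le_right _ _)
  refine ⟨κ, hκ0, by linarith, x, hx0, hx1, l / 8, by positivity, 5 * Real.exp (2 * a + 7 * l),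
    fun p => ?_⟩
  have hp : (0 : ℝ) ≤ p := Nat.cast_nonneg p
  have hZ : ((⌊100 * κ * p⌋₊ + 1 : ℕ) : ℝ) ≤ 100 * κ * p + 1 := by
    push_cast
    linarith [Nat.floor_le (show 0 ≤ 100 * κ * p by positivity)]
  generalize ⌊100 * κ * p⌋₊ + 1 = Z at *
  have e1 : 1 / x = Real.exp a := by rw [ha, Real.exp_neg, Real.exp_log hx0, one_div]
  have e2 : 1 / (1 - x) = Real.exp (l / 16) := by
    rw [hx, sub_sub_cancel, Real.exp_neg, one_div, inv_inv]
  have e3 : Real.log (1 - δ / 40) = -l := by rw [hl, neg_neg]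
  rw [e1, e2, Real.rpow_def_of_pos hθ0, e3, ← Real.exp_nat_mul, ← Real.exp_nat_mul, ← Real.exp_add,
    ← Real.exp_nat_mul, mul_left_comm, mul_assoc, ← Real.exp_add, ← Real.exp_add]
  refine mul_le_mul_of_nonneg_left (Real.exp_le_exp.2 ?_) (by norm_num)
  have h1 : (Z : ℝ) * a ≤ (100 * κ * p + 1) * a := mul_le_mul_of_nonneg_right hZ ha0.le
  have h2 : (Z : ℝ) * l ≤ (100 * κ * p + 1) * l := mul_le_mul_of_nonneg_right hZ hl0.le
  have h3 : κ * (1600 * a) * p ≤ l * p := mul_le_mul_of_nonneg_right hκ2 hp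
  have h4 : κ * (l * p) ≤ 1 / 4800 * (l * p) := mul_le_mul_of_nonneg_right hκ1 (by positivity)
  push_cast
  nlinarith

end Crest.Agent.R128
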