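import Mathlib

/-!
# Row 128 (S0172): positive Lyapunov exponent of the standard map — definitions

**Set-up.** The standard map is conjugate to `F (a,b) = (b, φ b - a)`, `φ x = 2x + k sin 2πx`.
An orbit is a two-sided sequence `x (s+1) = φ (x s) - x (s-1)`; *cut* `s` is the pair `(x s, x (s+1))`.
The linearisation is the discrete Schrödinger equation `u (s+1) = v s * u s - u (s-1)` with
`v s = φ' (x s) = 2 + 2πk cos 2π(x s)`.  `M = 2πk + 4` bounds the norm of one step.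
`nrm v a b` is the sum of the absolute values of the entries of the transfer matrix from cut `a` to cut `b`,
`dfc M v a b = (b - a) - log_M (nrm v a b)` is the *deficiency* of the window (superadditive, `≥ 0`).

**Proof plan.** Let `avg n = E dfc(0,n)`.
* (A) deterministic: `dfc(0,n) ≤ ηn + 27 + C #bad + C #(cuts irregular on both sides) + C #(W-events)`.
* (C) independence: `P(irregular left and right) ≤ small + C (avg n /(κ n))^2`
  (unstable and stable curves, a 4-dimensional change of variables).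
* (D) `P(W_p) ≤ C e^{-cp}` (porosity on the lines `x 0 = a`, Vitali covering, union bound over rounded data).
* Bootstrap along `n = N^2`: `avg n ≤ n/4` for all large `N`; Markov and `limsup` of sets finish the proof.
-/

set_option autoImplicit false

noncomputable section

open MeasureTheory Set

namespace Crest.Agent.R128

/-- One-sided second-order recursion `u (n+2) = g (n+1) (u (n+1)) - u n`, `u 0 = p`, `u 1 = q`. -/
def fwd {A : Type*} [AddCommGroup A] (g : ℕ → A → A) (p q : A) : ℕ → A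
  | 0 => p
  | 1 => q
  | (n + 2) => g (n + 1) (fwd g p q (n + 1)) - fwd g p q n

/-- Two-sided recursion `u (s+1) = g s (u s) - u (s-1)` with `u c = p`, `u (c+1) = q`. -/
def rec2 (g : ℤ → ℝ → ℝ) (c : ℤ) (p q : ℝ) (s : ℤ) : ℝ :=
  if c ≤ s then fwd (fun n : ℕ => g (c + n)) p q (s - c).toNat
  else fwd (fun n : ℕ => g (c + 1 - n)) q p (c + 1 - s).toNat

/-- `u` solves the linear equation with potential `v`. -/
def IsSol (v u : ℤ → ℝ) : Prop := ∀ s, u (s + 1) = v s * u s - u (s - 1)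

/-- The solution with values `p, q` at cut `c`. -/
def sol (v : ℤ → ℝ) (c : ℤ) (p q : ℝ) : ℤ → ℝ := rec2 (fun s x => v s * x) c p q

/-- Sup norm of `u` at cut `s`. -/
def nu (u : ℤ → ℝ) (s : ℤ) : ℝ := max |u s| |u (s + 1)|

/-- Sum of the absolute values of the entries of the transfer matrix from cut `a` to cut `b`. -/
def nrm (v : ℤ → ℝ) (a b : ℤ) : ℝ :=
  |sol v a 1 0 b| + |sol v a 1 0 (b + 1)| + |sol v a 0 1 b| + |sol v a 0 1 (b + 1)|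

/-- The transfer matrix from cut `a` to cut `b` as a continuous linear map. -/
def tm (v : ℤ → ℝ) (a b : ℤ) : ℝ × ℝ →L[ℝ] ℝ × ℝ :=
  (sol v a 1 0 b • ContinuousLinearMap.fst ℝ ℝ ℝ + sol v a 0 1 b • ContinuousLinearMap.snd ℝ ℝ ℝ).prod
    (sol v a 1 0 (b + 1) • ContinuousLinearMap.fst ℝ ℝ ℝ +
      sol v a 0 1 (b + 1) • ContinuousLinearMap.snd ℝ ℝ ℝ)

/-- Deficiency of the window from cut `a` to cut `b`. -/
def dfc (M : ℝ) (v : ℤ → ℝ) (a b : ℤ) : ℝ := ((b : ℝ) - (a : ℝ)) - Real.logb M (nrm v a b)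

/-- Height `log_M` of the norm of `u` at cut `s`. -/
def ht (M : ℝ) (u : ℤ → ℝ) (s : ℤ) : ℝ := Real.logb M (nu u s)

/-- The potential is bounded by `M - 2`. -/
def Bdd (M : ℝ) (v : ℤ → ℝ) : Prop := ∀ s, |v s| ≤ M - 2

/-- A good value of the potential. -/
def Good (M η w : ℝ) : Prop := M ^ (1 - η) + 1 ≤ |w|

def shift (t : ℤ) (v : ℤ → ℝ) : ℤ → ℝ := fun s => v (s + t)

def refl (v : ℤ → ℝ) : ℤ → ℝ := fun s => v (1 - s)

open Classical in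
/-- Number of integers in `[a, b]` with property `P`. -/
def cnt (P : ℤ → Prop) (a b : ℤ) : ℕ := ((Finset.Icc a b).filter P).card

/-- All windows of length `≤ n` starting at cut `t` are `κ`-regular. -/
def RegR (M κ : ℝ) (n : ℕ) (v : ℤ → ℝ) (t : ℤ) : Prop :=
  ∀ l : ℕ, l ≤ n → dfc M v t (t + l) ≤ κ * l

/-- All windows of length `≤ n` ending at cut `t` are `κ`-regular. -/
def RegL (M κ : ℝ) (n : ℕ) (v : ℤ → ℝ) (t : ℤ) : Prop :=
  ∀ l : ℕ, l ≤ n → dfc M v (t - l) t ≤ κ * l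

/-- Cut `t` is irregular on both sides. -/
def LR (M κ : ℝ) (n : ℕ) (v : ℤ → ℝ) (t : ℤ) : Prop := ¬ RegL M κ n v t ∧ ¬ RegR M κ n v t

/-- The `W`-event at site `c`: a solution decays at almost the maximal rate on both sides. -/
def Wev (M κ : ℝ) (p : ℕ) (v : ℤ → ℝ) (c : ℤ) : Prop :=
  ∃ u : ℤ → ℝ, IsSol v u ∧ u c = 1 ∧ nu u (c + p) < M ^ (-((1 - κ) * p)) ∧
    nu u (c - p - 1) < M ^ (-((1 - κ) * p))

/-- A steep descent into cut `t`. -/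
def Steep (M : ℝ) (u : ℤ → ℝ) (t : ℤ) : Prop := ht M u t + 1 / 2 ≤ ht M u (t - 1)

/-- A steep descent to a height (almost) reached before, at a cut `≥ 0`. -/
def Matched (M : ℝ) (u : ℤ → ℝ) (t : ℤ) : Prop :=
  Steep M u t ∧ ∃ s, 0 ≤ s ∧ s < t ∧ ht M u s ≤ ht M u t + 1 / 4

/-- First irregular square scale is `j` (no bad site among the first `js^2`). -/
def Rj (M η κ : ℝ) (js j : ℕ) : Set (ℤ → ℝ) :=
  {v | (∀ s : ℤ, 1 ≤ s → s ≤ ((js ^ 2 : ℕ) : ℤ) → Good M η (v s)) ∧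
    (∀ i : ℕ, js ≤ i → i < j → dfc M v 0 ((i ^ 2 : ℕ) : ℤ) ≤ κ * (i : ℝ) ^ 2) ∧
    κ * (j : ℝ) ^ 2 < dfc M v 0 ((j ^ 2 : ℕ) : ℤ)}

/-- Relaxed version of `Rj`. -/
def Rt (M κ : ℝ) (js j : ℕ) : Set (ℤ → ℝ) :=
  {v | (∀ i : ℕ, js ≤ i → i < j → dfc M v 0 ((i ^ 2 : ℕ) : ℤ) ≤ κ * (i : ℝ) ^ 2 + 1) ∧
    κ * (j : ℝ) ^ 2 - 1 < dfc M v 0 ((j ^ 2 : ℕ) : ℤ)}

/-- Some window `[0, l]`, `1 ≤ l ≤ n`, is irregular. -/
def Rhat (M κ : ℝ) (n : ℕ) : Set (ℤ → ℝ) :=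
  {v | ∃ l : ℕ, 1 ≤ l ∧ l ≤ n ∧ κ * l < dfc M v 0 l}

/-- A stationary, reflection-invariant law of bounded potentials. -/
structure Stat (M : ℝ) (μ : Measure (ℤ → ℝ)) : Prop where
  prob : IsProbabilityMeasure μ
  shift : ∀ t, MeasurePreserving (shift t) μ μ
  refl : MeasurePreserving refl μ μ
  bdd : ∀ᵐ v ∂μ, Bdd M v

/-- Expected deficiency of the window `[0, n]`. -/
def avg (M : ℝ) (μ : Measure (ℤ → ℝ)) (n : ℕ) : ℝ := ∫ v, dfc M v 0 n ∂μ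

/-! ### The standard map -/

def phi (k x : ℝ) : ℝ := 2 * x + k * Real.sin (2 * Real.pi * x)

def vee (k x : ℝ) : ℝ := 2 + 2 * Real.pi * k * Real.cos (2 * Real.pi * x)

def Mk (k : ℝ) : ℝ := 2 * Real.pi * k + 4

/-- The two-sided orbit with `x 0 = z.1`, `x 1 = z.2`. -/
def orb (k : ℝ) (z : ℝ × ℝ) : ℤ → ℝ := rec2 (fun _ => phi k) 0 z.1 z.2

/-- The state at cut `t` (the `t`-th iterate of `F`). -/
def sp (k : ℝ) (t : ℤ) (z : ℝ × ℝ) : ℝ × ℝ := (orb k z t, orb k z (t + 1))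

/-- The potential along the orbit of `z`. -/
def pot (k : ℝ) (z : ℝ × ℝ) : ℤ → ℝ := fun s => vee k (orb k z s)

def Q0 : Set (ℝ × ℝ) := Ico (0 : ℝ) 1 ×ˢ Ico (0 : ℝ) 1

/-- `ℤ²`-periodic subsets of the plane. -/
def Per (A : Set (ℝ × ℝ)) : Prop := ∀ (z : ℝ × ℝ) (m n : ℤ), z + ((m : ℝ), (n : ℝ)) ∈ A ↔ z ∈ A

/-- The law of the potential for a uniform point of the unit square. -/
def law (k : ℝ) : Measure (ℤ → ℝ) := (volume.restrict Q0).map (pot k)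

/-! ### One-sided objects on the line `x 0 = a`, `x 1 = t` -/

def cphi (k : ℝ) (x : ℂ) : ℂ := 2 * x + k * Complex.sin (2 * Real.pi * x)

def cvee (k : ℝ) (x : ℂ) : ℂ := 2 + 2 * Real.pi * k * Complex.cos (2 * Real.pi * x)

def rX (k a t : ℝ) : ℕ → ℝ := fwd (fun _ => phi k) a t

/-- `∂ x_n / ∂ t`. -/
def rchi (k a t : ℝ) : ℕ → ℝ := fwd (fun n x => vee k (rX k a t n) * x) 0 1

/-- The solution with values `1, 0` at cut `0`. -/
def rxi (k a t : ℝ) : ℕ → ℝ := fwd (fun n x => vee k (rX k a t n) * x) 1 0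

def cX (k a : ℝ) (t : ℂ) : ℕ → ℂ := fwd (fun _ => cphi k) a t

def cchi (k a : ℝ) (t : ℂ) : ℕ → ℂ := fwd (fun n x => cvee k (cX k a t n) * x) 0 1

def cxi (k a : ℝ) (t : ℂ) : ℕ → ℂ := fwd (fun n x => cvee k (cX k a t n) * x) 1 0

def nuN (u : ℕ → ℝ) (s : ℕ) : ℝ := max |u s| |u (s + 1)|

/-- Backward Pliss property at cut `N` (rate `49/50`). -/
def PlM (M : ℝ) (u : ℕ → ℝ) (N : ℕ) : Prop :=
  ∀ s : ℕ, s ≤ N → nuN u s ≤ M ^ (-(49 / 50 * ((N : ℝ) - s))) * nuN u N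

/-- Forward Pliss property at cut `N`, up to cut `p`. -/
def PlP (M : ℝ) (u : ℕ → ℝ) (N p : ℕ) : Prop :=
  ∀ s : ℕ, N ≤ s → s ≤ p → M ^ (49 / 50 * ((s : ℝ) - N)) * nuN u N ≤ nuN u s

/-- The `W`-event in one-sided form: right orbit from `(a, t)`, left orbit from `(a, t')`. -/
def Wline (k κ : ℝ) (p : ℕ) (a t t' : ℝ) : Prop :=
  ∃ α α' : ℝ, α + α' = vee k a ∧
    nuN (fun n => rxi k a t n + α * rchi k a t n) p < Mk k ^ (-((1 - κ) * p)) ∧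
    nuN (fun n => rxi k a t' n + α' * rchi k a t' n) p < Mk k ^ (-((1 - κ) * p))

/-- `f` is within `ε` of a polynomial of degree `≤ m` on `[-2, 2]`. -/
def PA (m : ℕ) (f : ℝ → ℝ) (ε : ℝ) : Prop :=
  ∃ P : Polynomial ℝ, P.natDegree ≤ m ∧ ∀ u ∈ Icc (-2 : ℝ) 2, |f u - P.eval u| ≤ ε

/-- The functions attached to one side of a level, in the normalised variable. -/
structure Sd where
  y : ℝ → ℝ
  dy : ℝ → ℝ
  e : ℝ → ℝ
  D : ℝ → ℝ

/-- The estimates for one side of a level (`b` is the rate of this side). -/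
structure Sd.Ok (s : Sd) (K C₀ ε₀ b : ℝ) : Prop where
  der : ∀ u ∈ Icc (-2 : ℝ) 2, HasDerivAt s.y (s.dy u) u
  near : ∀ u ∈ Icc (-2 : ℝ) 2, |s.dy u - b| ≤ ε₀ * |b|
  eps : ∀ u ∈ Icc (-2 : ℝ) 2, |s.e u| ≤ ε₀
  aff : PA 1 s.dy (ε₀ / K)
  Deq : ∀ u ∈ Icc (-2 : ℝ) 2,
    s.D u = s.dy u ^ 2 * (2 + K * Real.cos (2 * Real.pi * s.y u) - s.e u)
  cub : PA 3 s.D (C₀ * |b| ^ 6 * K)

/-- Hypotheses of the porosity lemma. -/
structure PorData (K C₀ ε₀ b : ℝ) (s₁ s₂ : Sd) (G : ℝ → ℝ) (E : Set ℝ) : Prop where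
  ok₁ : s₁.Ok K C₀ ε₀ 1
  ok₂ : s₂.Ok K C₀ ε₀ b
  b_le : |b| ≤ 1
  le_b : K ^ (-(3 / 5 : ℝ)) ≤ |b|
  smooth : PA 5 G (ε₀ / K ^ 2)
  ev : ∀ u ∈ E, u ∈ Icc (-2 : ℝ) 2 →
    s₁.D u ≠ 0 ∧ s₂.D u ≠ 0 ∧ |G u - 1 / s₁.D u - 1 / s₂.D u| ≤ ε₀ / (|b| * K ^ 2)

/-- Every interval of length `δ` inside `[-2, 2]` meets `E`. -/
def DenseIn (δ : ℝ) (E : Set ℝ) : Prop :=
  ∀ s : ℝ, -2 ≤ s → s + δ ≤ 2 → ∃ x ∈ E, s ≤ x ∧ x ≤ s + δ

/-- The side functions for the base point `t₀`, cut `N` and scale `w` (parameter `t₀ + w u`). -/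
def sideOf (k a t₀ : ℝ) (N : ℕ) (w : ℝ) : Sd where
  y := fun u => rX k a (t₀ + w * u) (N + 1)
  dy := fun u => w * rchi k a (t₀ + w * u) (N + 1)
  e := fun u => rchi k a (t₀ + w * u) N / rchi k a (t₀ + w * u) (N + 1)
  D := fun u => w ^ 2 * rchi k a (t₀ + w * u) (N + 1) * rchi k a (t₀ + w * u) (N + 2)

/-- Rounded deficit `⌊100 (s - log_M ν(s))⌋`. -/
def hOf (M : ℝ) (u : ℕ → ℝ) (s : ℕ) : ℕ := ⌊100 * ((s : ℝ) - Real.logb M (nuN u s))⌋₊

/-- `N` is a two-sided Pliss index of the integer sequence `h` on `[0, p]`. -/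
def GoodH (h : ℕ → ℕ) (p N : ℕ) : Prop :=
  ∀ s : ℕ, s ≤ p → (s ≤ N → h N ≤ h s + (N - s)) ∧ (N ≤ s → h s ≤ h N + (s - N))

end Crest.Agent.R128
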