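import Crest.Agent.R128.Orb
import Crest.Agent.R128.Nrm

/-! Real distortion estimate along a straight segment. -/

set_option autoImplicit false

noncomputable section

open MeasureTheory Set

namespace Crest.Agent.R128

/-- Let `δ s = orb (y + τ e) s - orb y s`, `E = δ - τ u`, `B c = M^(-(19/20)(g-c)) nu u g`.
`E` vanishes at cut `0`, `E (s+1) = v s E s - E (s-1) + r s` with `|r s| ≤ 4 M (δ s)^2` (`phi_taylor`).
Induction on the cut `c ∈ [0,g]`: `nu E c ≤ 10 M τ² B(c-1)²`, which is `≤ |τ| B c / 100`. -/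
theorem orb_dist {k : ℝ} (hM : (2 : ℝ) ^ 1000 ≤ Mk k) (y e : ℝ × ℝ) (g : ℕ) (τ : ℝ)
    (hP : ∀ l : ℕ, l ≤ g → nu (sol (pot k y) 0 e.1 e.2) ((g : ℤ) - l) ≤
      Mk k ^ (-(19 / 20 * (l : ℝ))) * nu (sol (pot k y) 0 e.1 e.2) g)
    (hτ : |τ| * nu (sol (pot k y) 0 e.1 e.2) g ≤ 1) :
    ∀ l : ℕ, l ≤ g →
      nu (fun s => orb k (y + τ • e) s - orb k y s - τ * sol (pot k y) 0 e.1 e.2 s) ((g : ℤ) - l) ≤
        |τ| * (Mk k ^ (-(19 / 20 * (l : ℝ))) * nu (sol (pot k y) 0 e.1 e.2) g) / 100 := by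
  have hk : 0 ≤ k := nonneg_of_big hM
  have hM1 : (1 : ℝ) ≤ Mk k := le_trans (one_le_pow₀ (by norm_num)) hM
  have hθ0 := big_rpow hM (x := 9 / 10) 10 (by norm_num)
  clear hM
  have hM0 : (0 : ℝ) < Mk k := by linarith
  set M := Mk k with hMdef
  set u := sol (pot k y) 0 e.1 e.2 with hudef
  set A := nu u g with hA
  have hA0 : 0 ≤ A := nu_nonneg _ _
  set E : ℤ → ℝ := fun s => orb k (y + τ • e) s - orb k y s - τ * u s with hE
  set θ : ℝ := M ^ (-(9 / 10 : ℝ)) with hθ
  have hθpos : 0 < θ := Real.rpow_pos_of_pos hM0 _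
  have hθ1 : θ ≤ 1 / 1000 := by
    rw [hθ, Real.rpow_neg hM0.le, one_div]
    exact inv_anti₀ (by norm_num) (by linarith)
  set β : ℕ → ℝ := fun c => |τ| * (M ^ (-(19 / 20 * ((g : ℝ) - c))) * A) with hβ
  have hβ0 : ∀ c, 0 ≤ β c := fun c =>
    mul_nonneg (abs_nonneg _) (mul_nonneg (Real.rpow_nonneg hM0.le _) hA0)
  have hβ1 : ∀ c, c ≤ g → β c ≤ 1 := by
    intro c hc
    have hc' : (c : ℝ) ≤ g := by exact_mod_cast hc
    have h1 : M ^ (-(19 / 20 * ((g : ℝ) - c))) ≤ 1 :=
      Real.rpow_le_one_of_one_le_of_nonpos hM1 (by linarith)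
    have h2 : M ^ (-(19 / 20 * ((g : ℝ) - c))) * A ≤ A := mul_le_of_le_one_left hA0 h1
    exact le_trans (mul_le_mul_of_nonneg_left h2 (abs_nonneg _)) hτ
  have hβs : ∀ c : ℕ, M * β c ^ 2 = θ * β (c + 1) ^ 2 := by
    intro c
    have h1 : M * (M ^ (-(19 / 20 * ((g : ℝ) - c)))) ^ 2 =
        θ * (M ^ (-(19 / 20 * ((g : ℝ) - ((c + 1 : ℕ) : ℝ))))) ^ 2 := by
      rw [hθ, sq, sq, ← Real.rpow_add hM0, ← Real.rpow_add hM0, ← Real.rpow_add hM0]
      nth_rewrite 1 [← Real.rpow_one M]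
      rw [← Real.rpow_add hM0]
      congr 1
      push_cast
      ring
    simp only [hβ]
    calc M * (|τ| * (M ^ (-(19 / 20 * ((g : ℝ) - c))) * A)) ^ 2
        = (|τ| * A) ^ 2 * (M * (M ^ (-(19 / 20 * ((g : ℝ) - c)))) ^ 2) := by ring
      _ = _ := by rw [h1]; ring
  have huβ : ∀ c : ℕ, c ≤ g → |τ| * nu u c ≤ β c := by
    intro c hc
    have h1 := hP (g - c) (Nat.sub_le _ _)
    rw [Nat.cast_sub hc, Nat.cast_sub hc, show (g : ℤ) - ((g : ℤ) - c) = c by ring] at h1
    exact mul_le_mul_of_nonneg_left h1 (abs_nonneg _)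
  have hu : IsSol (pot k y) u := sol_isSol _ _ _ _
  have main : ∀ c : ℕ, c ≤ g → nu E c ≤ 10 * θ * β c ^ 2 := by
    intro c
    induction c with
    | zero =>
      intro _
      have e0 : E 0 = 0 := by simp [hE, hudef]
      have e1 : E 1 = 0 := by
        have : u 1 = e.2 := by
          have := sol_right (pot k y) 0 e.1 e.2
          rwa [zero_add] at this
        simp [hE, this]
      have : nu E ((0 : ℕ) : ℤ) = 0 := by
        unfold nu
        rw [Nat.cast_zero, zero_add, e0, e1]; simp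
      rw [this]
      positivity
    | succ c ih =>
      intro hc
      have ih' := ih (by omega)
      have hb0 := hβ0 c
      have hb1 := hβ1 c (by omega)
      have hub := huβ c (by omega)
      rw [mul_assoc, ← hβs c]
      set b := β c with hb
      have a0 := abs_le_nu E c
      have a1 := abs_succ_le_nu E c
      have a2 := abs_succ_le_nu u c
      set N := nu E c with hN
      have hN0 : 0 ≤ N := nu_nonneg _ _
      have hb2 : 0 ≤ b ^ 2 := sq_nonneg b
      have hNb : N ≤ b ^ 2 / 100 := by nlinarith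
      have hbb : b ^ 2 ≤ b := by nlinarith
      set s : ℤ := (c : ℤ) + 1 with hs
      set h : ℝ := orb k (y + τ • e) s - orb k y s with hh
      have hrec : E (s + 1) = pot k y s * E s - E c +
          (phi k (orb k y s + h) - phi k (orb k y s) - vee k (orb k y s) * h) := by
        have r1 := orb_rec k (y + τ • e) s
        have r2 := orb_rec k y s
        have r3 := hu s
        have r4 : s - 1 = c := by rw [hs]; ring
        rw [r4] at r1 r2 r3
        have r5 : orb k y s + h = orb k (y + τ • e) s := by rw [hh]; ring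
        simp only [hE]
        rw [r1, r2, r3, r5, hh]
        unfold pot
        ring
      have hT := phi_taylor hk (orb k y s) h
      have hhE : h = E s + τ * u s := by simp only [hE, hh]; ring
      have hhb : |h| ≤ 101 / 100 * b := by
        rw [hhE]
        have t1 := abs_add_le (E s) (τ * u s)
        rw [abs_mul] at t1
        have t2 := mul_le_mul_of_nonneg_left a2 (abs_nonneg τ)
        linarith
      have hh2 : h ^ 2 ≤ 2 * b ^ 2 := by
        have := abs_nonneg h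
        rw [← sq_abs]
        nlinarith
      have hv : |pot k y s| ≤ M - 2 := pot_bdd hk y s
      have hMb : 0 ≤ M * b ^ 2 := mul_nonneg hM0.le hb2
      have hMN : M * N ≤ M * (b ^ 2 / 100) := mul_le_mul_of_nonneg_left hNb hM0.le
      have hbM : b ^ 2 ≤ M * b ^ 2 := le_mul_of_one_le_left hb2 hM1
      have e1 : |E (s + 1)| ≤ 10 * (M * b ^ 2) := by
        rw [hrec]
        have t1 := abs_add_le (pot k y s * E s - E c)
          (phi k (orb k y s + h) - phi k (orb k y s) - vee k (orb k y s) * h)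
        have t2 := abs_sub (pot k y s * E s) (E c)
        rw [abs_mul] at t2
        have t3 : |pot k y s| * |E s| ≤ M * N :=
          mul_le_mul (by linarith) a1 (abs_nonneg _) hM0.le
        have t4 : 4 * M * h ^ 2 ≤ 4 * M * (2 * b ^ 2) :=
          mul_le_mul_of_nonneg_left hh2 (by linarith)
        linarith
      unfold nu
      rw [show ((c + 1 : ℕ) : ℤ) = s by rw [hs]; push_cast; ring]
      exact max_le (by linarith) e1
  intro l hl
  have h1 := main (g - l) (Nat.sub_le _ _)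
  have hb0 := hβ0 (g - l)
  have hb1 := hβ1 (g - l) (Nat.sub_le _ _)
  have e : β (g - l) = |τ| * (M ^ (-(19 / 20 * (l : ℝ))) * A) := by
    simp only [hβ]
    rw [Nat.cast_sub hl, show (g : ℝ) - ((g : ℝ) - l) = l by ring]
  rw [Nat.cast_sub hl] at h1
  rw [← e]
  have h2 : β (g - l) ^ 2 ≤ β (g - l) := by nlinarith
  have h3 : θ * β (g - l) ^ 2 ≤ 1 / 1000 * β (g - l) :=
    mul_le_mul hθ1 h2 (sq_nonneg _) (by norm_num)
  linarith

/-- Backward steps are `M`-Lipschitz (`phi_lip`). -/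
theorem orb_back {k : ℝ} (hk : 0 ≤ k) (y y' : ℝ × ℝ) (i : ℕ) :
    nu (fun s => orb k y' s - orb k y s) (-(i : ℤ)) ≤ Mk k ^ i * ‖y' - y‖ := by
  have hM : 4 ≤ Mk k := by
    unfold Mk
    have := Real.pi_pos
    have : 0 ≤ 2 * Real.pi * k := by positivity
    linarith
  induction i with
  | zero =>
    unfold nu
    simp [Prod.norm_def]
  | succ i ih =>
    set δ : ℤ → ℝ := fun s => orb k y' s - orb k y s with hδ
    have a0 := abs_le_nu δ (-(i : ℤ))
    have a1 := abs_succ_le_nu δ (-(i : ℤ))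
    have hN0 := nu_nonneg δ (-(i : ℤ))
    have hrec : δ (-(i : ℤ) - 1) =
        (phi k (orb k y' (-(i : ℤ))) - phi k (orb k y (-(i : ℤ)))) - δ (-(i : ℤ) + 1) := by
      simp only [hδ]
      rw [orb_rec k y', orb_rec k y]
      ring
    have hl : |phi k (orb k y' (-(i : ℤ))) - phi k (orb k y (-(i : ℤ)))| ≤
        (Mk k - 2) * |δ (-(i : ℤ))| := phi_lip hk _ _
    have h2 : (Mk k - 2) * |δ (-(i : ℤ))| ≤ (Mk k - 2) * nu δ (-(i : ℤ)) :=
      mul_le_mul_of_nonneg_left a0 (by linarith)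
    have h3 : Mk k * nu δ (-(i : ℤ)) ≤ Mk k * (Mk k ^ i * ‖y' - y‖) :=
      mul_le_mul_of_nonneg_left ih (by linarith)
    have h4 : nu δ (-(i : ℤ)) ≤ Mk k * nu δ (-(i : ℤ)) := le_mul_of_one_le_left hN0 (by linarith)
    have h5 : |δ (-(i : ℤ) - 1)| ≤ Mk k * nu δ (-(i : ℤ)) := by
      rw [hrec]
      have := abs_sub (phi k (orb k y' (-(i : ℤ))) - phi k (orb k y (-(i : ℤ)))) (δ (-(i : ℤ) + 1))
      linarith
    have e1 : (-((i + 1 : ℕ) : ℤ)) = -(i : ℤ) - 1 := by push_cast; ring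
    have e2 : nu δ (-(i : ℤ) - 1) = max |δ (-(i : ℤ) - 1)| |δ (-(i : ℤ))| := by
      unfold nu
      rw [sub_add_cancel]
    rw [e1, e2, pow_succ]
    exact max_le (by linarith) (by linarith)

end Crest.Agent.R128
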