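import Crest.Agent.R128.Cover

/-! From the expected deficiency to a set of positive measure. -/

set_option autoImplicit false

noncomputable section

open MeasureTheory Set

namespace Crest.Agent.R128

/-- `markov_dfc` gives `μ {dfc(0,N²) ≤ N²/2} ≥ 1/2` for `N ≥ N₀`; the decreasing sets
`⋃_{N ≥ m} {…}` have measure `≥ 1/2`, hence so does their intersection. -/
theorem freq_pos {M : ℝ} {μ : Measure (ℤ → ℝ)} (hμ : Stat M μ) {N₀ : ℕ} (hN₀ : 1 ≤ N₀)
    (h : ∀ N : ℕ, N₀ ≤ N → avg M μ (N ^ 2) ≤ (N : ℝ) ^ 2 / 4) :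
    0 < μ {v | ∃ᶠ n : ℕ in Filter.atTop, dfc M v 0 n ≤ (n : ℝ) / 2} := by
  have := hμ.prob
  rw [pos_iff_ne_zero]
  intro h0
  set B : ℕ → Set (ℤ → ℝ) := fun m => {v | ∀ n : ℕ, m ≤ n → (n : ℝ) / 2 < dfc M v 0 n} with hB
  have hmono : Monotone B := fun a b hab v hv n hn => hv n (hab.trans hn)
  have hle : ∀ m, μ (B m) ≤ ENNReal.ofReal (1 / 2) := fun m => by
    set N := max m N₀ with hN
    have hN1 : 1 ≤ N := hN₀.trans (le_max_right _ _)
    have hNr : (1 : ℝ) ≤ N := by exact_mod_cast hN1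
    have hx : (0 : ℝ) < (N : ℝ) ^ 2 / 2 := by positivity
    have h1 := markov_dfc hμ (n := N ^ 2) (Nat.one_le_pow _ _ hN1) hx
    have h2 : avg M μ (N ^ 2) / ((N : ℝ) ^ 2 / 2) ≤ 1 / 2 := by
      rw [div_le_iff₀ hx]
      have := h N (le_max_right _ _)
      linarith
    have h3 : B m ⊆ {v | (N : ℝ) ^ 2 / 2 < dfc M v 0 ((N ^ 2 : ℕ) : ℤ)} := fun v hv => by
      have h4 := hv (N ^ 2) ((le_max_left m N₀).trans (Nat.le_self_pow (by norm_num) N))
      simpa using h4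
    refine (measure_mono h3).trans ?_
    rw [← ofReal_measureReal]
    exact ENNReal.ofReal_le_ofReal (h1.trans h2)
  have hU : μ (⋃ m, B m) ≤ ENNReal.ofReal (1 / 2) := by
    rw [hmono.measure_iUnion]
    exact iSup_le hle
  have hc : (univ : Set (ℤ → ℝ)) ⊆
      {v | ∃ᶠ n : ℕ in Filter.atTop, dfc M v 0 n ≤ (n : ℝ) / 2} ∪ ⋃ m, B m := fun v _ => by
    by_cases hv : ∃ᶠ n : ℕ in Filter.atTop, dfc M v 0 n ≤ (n : ℝ) / 2
    · exact Or.inl hv
    · right
      rw [Filter.not_frequently, Filter.eventually_atTop] at hv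
      obtain ⟨m, hm⟩ := hv
      exact mem_iUnion.2 ⟨m, fun n hn => not_le.1 (hm n hn)⟩
  have h5 := (measure_mono hc).trans (measure_union_le (μ := μ) _ _)
  rw [h0, zero_add, measure_univ] at h5
  have h6 := h5.trans hU
  rw [← ENNReal.ofReal_one, ENNReal.ofReal_le_ofReal_iff (by norm_num)] at h6
  norm_num at h6

theorem measurableSet_freq (M : ℝ) :
    MeasurableSet {v : ℤ → ℝ | ∃ᶠ n : ℕ in Filter.atTop, dfc M v 0 n ≤ (n : ℝ) / 2} := by
  have h : {v : ℤ → ℝ | ∃ᶠ n : ℕ in Filter.atTop, dfc M v 0 n ≤ (n : ℝ) / 2} =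
      ⋂ m : ℕ, ⋃ n : ℕ, ⋃ (_ : m ≤ n), {v | dfc M v 0 n ≤ (n : ℝ) / 2} := by
    ext v
    simp [Filter.frequently_atTop]
  rw [h]
  exact MeasurableSet.iInter fun m => MeasurableSet.iUnion fun n => MeasurableSet.iUnion fun _ =>
    measurableSet_le (measurable_dfc M _ _) measurable_const

end Crest.Agent.R128
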