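import Crest.Agent.R128.Defs

/-! A four-dimensional change of variables. -/

set_option autoImplicit false

noncomputable section

open MeasureTheory Set

namespace Crest.Agent.R128

/-- The map `(δz, δτ) ↦ (A₁ δz + δτ.1 e₁, A₂ δz + δτ.2 e₂)`. -/
def jacL (A₁ A₂ : ℝ × ℝ →L[ℝ] ℝ × ℝ) (e₁ e₂ : ℝ × ℝ) :
    (ℝ × ℝ) × (ℝ × ℝ) →L[ℝ] (ℝ × ℝ) × (ℝ × ℝ) :=
  (A₁.comp (ContinuousLinearMap.fst ℝ (ℝ × ℝ) (ℝ × ℝ)) +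
    ((ContinuousLinearMap.fst ℝ ℝ ℝ).comp (ContinuousLinearMap.snd ℝ (ℝ × ℝ) (ℝ × ℝ))).smulRight e₁).prod
  (A₂.comp (ContinuousLinearMap.fst ℝ (ℝ × ℝ) (ℝ × ℝ)) +
    ((ContinuousLinearMap.snd ℝ ℝ ℝ).comp (ContinuousLinearMap.snd ℝ (ℝ × ℝ) (ℝ × ℝ))).smulRight e₂)

theorem jacL_apply (A₁ A₂ : ℝ × ℝ →L[ℝ] ℝ × ℝ) (e₁ e₂ : ℝ × ℝ) (x : (ℝ × ℝ) × (ℝ × ℝ)) :
    jacL A₁ A₂ e₁ e₂ x = (A₁ x.1 + x.2.1 • e₁, A₂ x.1 + x.2.2 • e₂) := rfl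

theorem jac_det_id (w₁ w₂ : ℝ × ℝ) :
    (jacL (ContinuousLinearMap.id ℝ _) (ContinuousLinearMap.id ℝ _) w₁ w₂).det =
      -(w₁.1 * w₂.2 - w₁.2 * w₂.1) := by
  have e : LinearMap.toMatrix ((Module.Basis.finTwoProd ℝ).prod (Module.Basis.finTwoProd ℝ))
      ((Module.Basis.finTwoProd ℝ).prod (Module.Basis.finTwoProd ℝ))
      (jacL (ContinuousLinearMap.id ℝ _) (ContinuousLinearMap.id ℝ _) w₁ w₂ :
        (ℝ × ℝ) × (ℝ × ℝ) →ₗ[ℝ] (ℝ × ℝ) × (ℝ × ℝ)) =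
      Matrix.fromBlocks 1 !![w₁.1, 0; w₁.2, 0] 1 !![0, w₂.1; 0, w₂.2] := by
    ext i j
    rw [LinearMap.toMatrix_apply]
    rcases i with i | i <;> rcases j with j | j <;> fin_cases i <;> fin_cases j <;>
      simp [jacL_apply, Module.Basis.prod_apply]
  rw [ContinuousLinearMap.det, ← LinearMap.det_toMatrix
    ((Module.Basis.finTwoProd ℝ).prod (Module.Basis.finTwoProd ℝ)), e, Matrix.det_fromBlocks_one₁₁,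
    Matrix.det_fin_two]
  simp
  ring

theorem jac_cancel {A : ℝ × ℝ →L[ℝ] ℝ × ℝ} (h : |A.det| = 1) {w : ℝ × ℝ} (hw : w ≠ 0) {s t : ℝ}
    (hst : s • A w = t • A w) : s = t := by
  have h0 : LinearMap.det (A : ℝ × ℝ →ₗ[ℝ] ℝ × ℝ) ≠ 0 := fun h0 => by
    rw [ContinuousLinearMap.det, h0, abs_zero] at h
    exact zero_ne_one h
  have hA : A w ≠ 0 := fun hA => h0 (LinearMap.det_eq_zero_iff_ker_ne_bot.2
    ((Submodule.ne_bot_iff _).2 ⟨w, hA, hw⟩))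
  exact smul_left_injective ℝ hA hst

/-- Determinant of `(δz, δτ) ↦ (A₁ δz + δτ.1 e₁, A₂ δz + δτ.2 e₂)`.  Compose with the block-diagonal map
`(A₁, A₂)` (determinant `±1`): the map is `diag(A₁,A₂) ∘ L` with
`L (δz, δτ) = (δz + δτ.1 w₁, δz + δτ.2 w₂)`, and `det L = ± (w₁ × w₂)` (explicit `4 × 4` matrix). -/
theorem det_four (A₁ A₂ : ℝ × ℝ →L[ℝ] ℝ × ℝ) (h₁ : |A₁.det| = 1) (h₂ : |A₂.det| = 1)
    (w₁ w₂ : ℝ × ℝ) (L : (ℝ × ℝ) × (ℝ × ℝ) →L[ℝ] (ℝ × ℝ) × (ℝ × ℝ))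
    (hL : ∀ x, L x = (A₁ x.1 + x.2.1 • A₁ w₁, A₂ x.1 + x.2.2 • A₂ w₂)) :
    |L.det| = |w₁.1 * w₂.2 - w₁.2 * w₂.1| := by
  have e : (L : (ℝ × ℝ) × (ℝ × ℝ) →ₗ[ℝ] (ℝ × ℝ) × (ℝ × ℝ)) =
      (LinearMap.prodMap (A₁ : ℝ × ℝ →ₗ[ℝ] ℝ × ℝ) (A₂ : ℝ × ℝ →ₗ[ℝ] ℝ × ℝ)) ∘ₗ
        (jacL (ContinuousLinearMap.id ℝ _) (ContinuousLinearMap.id ℝ _) w₁ w₂ :
          (ℝ × ℝ) × (ℝ × ℝ) →ₗ[ℝ] (ℝ × ℝ) × (ℝ × ℝ)) := by
    refine LinearMap.ext fun x => ?_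
    simp [hL, jacL_apply]
  have e' := jac_det_id w₁ w₂
  rw [ContinuousLinearMap.det] at h₁ h₂ e' ⊢
  rw [e, LinearMap.det_comp, LinearMap.det_prodMap, e', abs_mul, abs_mul, h₁, h₂, abs_neg]
  ring

/-- Apply `lintegral_abs_det_fderiv_le_addHaar_image` to
`Φ (z, τ) = (f₁ z + τ.1 e₁, f₂ z + τ.2 e₂)` on `Ω = {z ∈ S, 0 ≤ τ.1 ≤ l₁ z, 0 ≤ τ.2 ≤ l₂ z}`:
`Φ Ω ⊆ B₁ ×ˢ B₂`, `|det| ≥ 1/(2 l₁ l₂)` on `Ω` (`det_four`), and by Tonelli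
`∫_Ω 1/(2 l₁ l₂) = vol S / 2`. -/
theorem jac_four (f₁ f₂ : ℝ × ℝ → ℝ × ℝ) (A₁ A₂ : ℝ × ℝ → ℝ × ℝ →L[ℝ] ℝ × ℝ)
    (hf₁ : ∀ z, HasFDerivAt f₁ (A₁ z) z) (hf₂ : ∀ z, HasFDerivAt f₂ (A₂ z) z)
    (hA₁ : ∀ z, |(A₁ z).det| = 1) (hA₂ : ∀ z, |(A₂ z).det| = 1)
    (e₁ e₂ : ℝ × ℝ) (w₁ w₂ : ℝ × ℝ → ℝ × ℝ) (hw₁ : ∀ z, A₁ z (w₁ z) = e₁)
    (hw₂ : ∀ z, A₂ z (w₂ z) = e₂)
    {S : Set (ℝ × ℝ)} (hS : MeasurableSet S) (l₁ l₂ : ℝ × ℝ → ℝ) (hl₁ : Measurable l₁)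
    (hl₂ : Measurable l₂) (hp₁ : ∀ z ∈ S, 0 < l₁ z) (hp₂ : ∀ z ∈ S, 0 < l₂ z)
    (B₁ B₂ : Set (ℝ × ℝ)) (hB₁ : ∀ z ∈ S, ∀ τ, 0 ≤ τ → τ ≤ l₁ z → f₁ z + τ • e₁ ∈ B₁)
    (hB₂ : ∀ z ∈ S, ∀ τ, 0 ≤ τ → τ ≤ l₂ z → f₂ z + τ • e₂ ∈ B₂)
    (hinj : ∀ z ∈ S, ∀ z' ∈ S, ∀ τ₁ τ₁' τ₂ τ₂' : ℝ, 0 ≤ τ₁ → τ₁ ≤ l₁ z → 0 ≤ τ₁' → τ₁' ≤ l₁ z' →
      0 ≤ τ₂ → τ₂ ≤ l₂ z → 0 ≤ τ₂' → τ₂' ≤ l₂ z' → f₁ z + τ₁ • e₁ = f₁ z' + τ₁' • e₁ →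
      f₂ z + τ₂ • e₂ = f₂ z' + τ₂' • e₂ → z = z')
    (hjac : ∀ z ∈ S, 1 / 2 ≤ l₁ z * l₂ z * |(w₁ z).1 * (w₂ z).2 - (w₁ z).2 * (w₂ z).1|) :
    volume S ≤ 2 * (volume B₁ * volume B₂) := by
  set Ω : Set ((ℝ × ℝ) × (ℝ × ℝ)) :=
    {x | x.1 ∈ S ∧ (0 ≤ x.2.1 ∧ x.2.1 ≤ l₁ x.1) ∧ (0 ≤ x.2.2 ∧ x.2.2 ≤ l₂ x.1)} with hΩ
  have mΩ : MeasurableSet Ω :=
    (measurable_fst hS).inter
      (((measurableSet_le measurable_const measurable_snd.fst).inter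
        (measurableSet_le measurable_snd.fst (hl₁.comp measurable_fst))).inter
      ((measurableSet_le measurable_const measurable_snd.snd).inter
        (measurableSet_le measurable_snd.snd (hl₂.comp measurable_fst))))
  set Φ : (ℝ × ℝ) × (ℝ × ℝ) → (ℝ × ℝ) × (ℝ × ℝ) :=
    fun x => (f₁ x.1 + x.2.1 • e₁, f₂ x.1 + x.2.2 • e₂) with hΦ
  have hd : ∀ x, HasFDerivAt Φ (jacL (A₁ x.1) (A₂ x.1) e₁ e₂) x := fun x =>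
    (((hf₁ x.1).comp x hasFDerivAt_fst).add
      ((hasFDerivAt_fst.comp x hasFDerivAt_snd).smul_const e₁)).prodMk
    (((hf₂ x.1).comp x hasFDerivAt_fst).add
      ((hasFDerivAt_snd.comp x hasFDerivAt_snd).smul_const e₂))
  have hw : ∀ z ∈ S, w₁ z ≠ 0 ∧ w₂ z ≠ 0 := fun z hz => by
    have := hjac z hz
    constructor <;> intro h0 <;> rw [h0] at this <;> norm_num at this
  have hi : InjOn Φ Ω := by
    rintro ⟨z, s, t⟩ ⟨hz, hs, ht⟩ ⟨z', s', t'⟩ ⟨hz', hs', ht'⟩ h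
    simp only [hΦ, Prod.mk.injEq] at h
    obtain rfl : z = z' := hinj z hz z' hz' s s' t t' hs.1 hs.2 hs'.1 hs'.2 ht.1 ht.2 ht'.1 ht'.2
      h.1 h.2
    have a1 := add_left_cancel h.1
    have a2 := add_left_cancel h.2
    rw [← hw₁ z] at a1
    rw [← hw₂ z] at a2
    rw [jac_cancel (hA₁ z) (hw z hz).1 a1, jac_cancel (hA₂ z) (hw z hz).2 a2]
  have i2 : (volume : Measure (ℝ × ℝ)).IsAddHaarMeasure :=
    inferInstanceAs ((volume : Measure ℝ).prod (volume : Measure ℝ)).IsAddHaarMeasure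
  have i4 : (volume : Measure ((ℝ × ℝ) × (ℝ × ℝ))).IsAddHaarMeasure :=
    inferInstanceAs ((volume : Measure (ℝ × ℝ)).prod (volume : Measure (ℝ × ℝ))).IsAddHaarMeasure
  have h1 := lintegral_abs_det_fderiv_le_addHaar_image volume mΩ
    (fun x _ => (hd x).hasFDerivWithinAt) hi
  have h2 : volume (Φ '' Ω) ≤ volume B₁ * volume B₂ := by
    rw [← Measure.prod_prod]
    refine measure_mono ?_
    rintro _ ⟨x, hx, rfl⟩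
    exact ⟨hB₁ x.1 hx.1 _ hx.2.1.1 hx.2.1.2, hB₂ x.1 hx.1 _ hx.2.2.1 hx.2.2.2⟩
  set g : ℝ × ℝ → ENNReal := fun z => ENNReal.ofReal (1 / 2 / (l₁ z * l₂ z)) with hg
  have mg : Measurable g := (measurable_const.div (hl₁.mul hl₂)).ennreal_ofReal
  have h3 : ∫⁻ x in Ω, g x.1 ≤ ∫⁻ x in Ω, ENNReal.ofReal |(jacL (A₁ x.1) (A₂ x.1) e₁ e₂).det| := by
    refine setLIntegral_mono' mΩ fun x hx => ENNReal.ofReal_le_ofReal ?_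
    rw [det_four (A₁ x.1) (A₂ x.1) (hA₁ _) (hA₂ _) (w₁ x.1) (w₂ x.1) _
      (fun y => by rw [jacL_apply, hw₁, hw₂]),
      div_le_iff₀' (mul_pos (hp₁ _ hx.1) (hp₂ _ hx.1))]
    exact hjac _ hx.1
  have h4 : ∫⁻ x in Ω, g x.1 = 2⁻¹ * volume S := by
    have mg' : Measurable fun x : (ℝ × ℝ) × (ℝ × ℝ) => g x.1 := mg.comp measurable_fst
    rw [← lintegral_indicator mΩ, Measure.volume_eq_prod,
      lintegral_prod _ (mg'.indicator mΩ).aemeasurable,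
      ← lintegral_indicator_const hS]
    refine lintegral_congr fun z => ?_
    by_cases hz : z ∈ S
    · have e : (fun τ : ℝ × ℝ => Ω.indicator (fun x => g x.1) (z, τ)) =
          (Icc 0 (l₁ z) ×ˢ Icc 0 (l₂ z)).indicator fun _ => g z := by
        funext τ
        by_cases hτ : τ ∈ Icc 0 (l₁ z) ×ˢ Icc 0 (l₂ z)
        · rw [indicator_of_mem hτ, indicator_of_mem (show (z, τ) ∈ Ω from ⟨hz, hτ.1, hτ.2⟩)]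
        · rw [indicator_of_notMem hτ,
            indicator_of_notMem (show (z, τ) ∉ Ω from fun h => hτ ⟨h.2.1, h.2.2⟩)]
      have p1 := hp₁ z hz
      have p2 := hp₂ z hz
      rw [e, lintegral_indicator_const (measurableSet_Icc.prod measurableSet_Icc),
        indicator_of_mem hz, Measure.volume_eq_prod, Measure.prod_prod, Real.volume_Icc,
        Real.volume_Icc, sub_zero, sub_zero, ← ENNReal.ofReal_mul p1.le, hg]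
      simp only
      rw [← ENNReal.ofReal_mul (by positivity), div_mul_cancel₀ _ (mul_pos p1 p2).ne', one_div,
        ENNReal.ofReal_inv_of_pos two_pos, ENNReal.ofReal_ofNat]
    · rw [indicator_of_notMem hz]
      refine (lintegral_congr fun τ => ?_).trans lintegral_zero
      exact indicator_of_notMem (show (z, τ) ∉ Ω from fun h => hz h.1) _
  have h5 : 2⁻¹ * volume S ≤ volume B₁ * volume B₂ := h4 ▸ h3.trans (h1.trans h2)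
  calc volume S = 2 * (2⁻¹ * volume S) := by
        rw [← mul_assoc, ENNReal.mul_inv_cancel two_ne_zero ENNReal.ofNat_ne_top, one_mul]
    _ ≤ _ := by gcongr

end Crest.Agent.R128
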