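import Crest.Agent.R128.UCurve
import Crest.Agent.R128.Jac
import Crest.Agent.R128.Law
import Crest.Agent.R128.Cover

/-! Independence of the left and right irregularity events (C). -/

set_option autoImplicit false

noncomputable section

open MeasureTheory Set

namespace Crest.Agent.R128

theorem indep_cont_sol (k : ℝ) (c s : ℤ) (p q : ℝ) :
    Continuous fun z : ℝ × ℝ => sol (pot k z) c p q s :=
  (continuous_sol c s).comp ((continuous_pot k).prodMk (continuous_const (y := (p, q))))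

theorem indep_cont_nu (k : ℝ) (c s : ℤ) (p q : ℝ) :
    Continuous fun z : ℝ × ℝ => nu (sol (pot k z) c p q) s :=
  ((indep_cont_sol k c s p q).abs).max ((indep_cont_sol k c (s + 1) p q).abs)

theorem indep_tm_w (v : ℤ → ℝ) (c : ℤ) (e : ℝ × ℝ) :
    tm v 0 c (sol v c e.1 e.2 0, sol v c e.1 e.2 1) = e := by
  have h := (sol_isSol v c e.1 e.2).eq_sol 0
  rw [tm_apply]
  simp only [zero_add] at h
  simp only
  rw [← h, sol_left, sol_right]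

theorem indep_det_swap :
    |((ContinuousLinearEquiv.prodComm ℝ ℝ ℝ : (ℝ × ℝ) ≃L[ℝ] ℝ × ℝ) : ℝ × ℝ →L[ℝ] ℝ × ℝ).det| = 1 := by
  set T : ℝ × ℝ →L[ℝ] ℝ × ℝ := (ContinuousLinearEquiv.prodComm ℝ ℝ ℝ).toContinuousLinearMap with hT
  have h : (T : ℝ × ℝ →ₗ[ℝ] ℝ × ℝ) * (T : ℝ × ℝ →ₗ[ℝ] ℝ × ℝ) = 1 := by
    ext <;> simp [hT]
  have h2 : T.det * T.det = 1 := by
    have := congrArg LinearMap.det h
    rw [map_mul, map_one] at this
    exact this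
  have h3 : |T.det| * |T.det| = 1 := by rw [← abs_mul, h2, abs_one]
  nlinarith [abs_nonneg T.det]

theorem indep_vol_B {k : ℝ} (hk : 0 ≤ k) (κ : ℝ) (js j : ℕ) (g : ℤ) :
    volume (sp k g ⁻¹' (pot k ⁻¹' (refl ⁻¹' Rt (Mk k) κ js j) ∩ Ico (-2 : ℝ) 3 ×ˢ Ico (-2 : ℝ) 3)) ≤
      25 * law k (Rt (Mk k) κ js j) := by
  have hm : MeasurableSet (refl ⁻¹' Rt (Mk k) κ js j) :=
    measurable_refl (measurableSet_Rt _ _ _ _)
  have hm2 : MeasurableSet (pot k ⁻¹' (refl ⁻¹' Rt (Mk k) κ js j) ∩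
      Ico (-2 : ℝ) 3 ×ˢ Ico (-2 : ℝ) 3) :=
    (measurable_pot k hm).inter (measurableSet_Ico.prod measurableSet_Ico)
  rw [(measurePreserving_sp k g).measure_preimage hm2.nullMeasurableSet]
  refine (per_big (per_pot k _)).trans ?_
  rw [← law_apply k hm, (stat_law hk).refl.measure_preimage (measurableSet_Rt _ _ _ _).nullMeasurableSet]

/-- One half of the injectivity. -/
theorem indep_half {k : ℝ} (g : ℕ) (z z' e : ℝ × ℝ) (l l' τ τ' : ℝ)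
    (h : ∀ σ : ℝ, 0 ≤ σ → σ ≤ l → |(sp k g (sp k (-(g : ℤ)) z + σ • e)).1 - z.1| ≤
          |(sp k g (sp k (-(g : ℤ)) z + σ • e)).2 - z.2| / 2)
    (h' : ∀ σ : ℝ, 0 ≤ σ → σ ≤ l' → |(sp k g (sp k (-(g : ℤ)) z' + σ • e)).1 - z'.1| ≤
          |(sp k g (sp k (-(g : ℤ)) z' + σ • e)).2 - z'.2| / 2)
    (h0 : 0 ≤ τ) (h1 : τ ≤ l) (h0' : 0 ≤ τ') (h1' : τ' ≤ l')
    (heq : sp k (-(g : ℤ)) z + τ • e = sp k (-(g : ℤ)) z' + τ' • e) :
    |z'.1 - z.1| ≤ |z'.2 - z.2| / 2 := by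
  have hinv : ∀ y : ℝ × ℝ, sp k g (sp k (-(g : ℤ)) y) = y := by
    intro y
    rw [sp_sp]; simp
  rcases le_total τ' τ with hle | hle
  · have e1 : sp k (-(g : ℤ)) z + (τ - τ') • e = sp k (-(g : ℤ)) z' := by
      rw [sub_smul, ← add_sub_assoc, heq]; abel
    have := h (τ - τ') (by linarith) (by linarith)
    rwa [e1, hinv] at this
  · have e1 : sp k (-(g : ℤ)) z' + (τ' - τ) • e = sp k (-(g : ℤ)) z := by
      rw [sub_smul, ← add_sub_assoc, ← heq]; abel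
    have := h' (τ' - τ) (by linarith) (by linarith)
    rw [e1, hinv] at this
    rwa [abs_sub_comm z'.1, abs_sub_comm z'.2]

theorem indep_le_inv {x τ : ℝ} (hx : x ≠ 0) (h : τ ≤ 1 / |x|) : τ * |x| ≤ 1 := by
  have hp : 0 < |x| := abs_pos.mpr hx
  rwa [le_div_iff₀ hp] at h

theorem indep_jac {a b a' b' : ℝ} (hb : b ≠ 0) (hb' : b' ≠ 0) (h : |a| ≤ |b| / 2)
    (h' : |a'| ≤ |b'| / 2) : 1 / 2 ≤ 1 / |b| * (1 / |b'|) * |a * a' - b * b'| := by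
  have hp : 0 < |b| := abs_pos.mpr hb
  have hp' : 0 < |b'| := abs_pos.mpr hb'
  have h1 : |b * b'| - |a * a'| ≤ |a * a' - b * b'| := by
    rw [abs_sub_comm]; exact abs_sub_abs_le_abs_sub _ _
  rw [abs_mul, abs_mul] at h1
  have h2 : |a| * |a'| ≤ |b| / 2 * (|b'| / 2) :=
    mul_le_mul h h' (abs_nonneg _) (by positivity)
  have h3 : 1 / |b| * (1 / |b'|) * |a * a' - b * b'| = |a * a' - b * b'| / (|b| * |b'|) := by
    field_simp
  rw [h3, le_div_iff₀ (by positivity)]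
  nlinarith [mul_pos hp hp']

/-- One choice of the directions `e, e'`.  Use `jac_four` with `f₁ = sp (-g)`, `f₂ = sp (-g') ∘ swap`,
`A₁ z = tm (pot z) 0 (-g)`, `A₂ z = tm (pot z.swap) 0 (-g') ∘ swap`, `w₁ = (u 0, u 1)`,
`w₂ = (u' 1, u' 0)` where `u = sol (pot z) (-g) e.1 e.2`, `u' = sol (pot z.swap) (-g') e'.1 e'.2`
(`tm_apply`, `IsSol.eq_sol`), `l₁ = 1/|u 1|`, `l₂ = 1/|u' 1|`,
`B₁ = sp g ⁻¹' (pot ⁻¹' (refl ⁻¹' Rt j) ∩ [-2,3)²)`, `B₂` likewise with `g', j'`; `ucurve` is applied to `z` and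
to `z.swap` (`pot_swap`, `refl_refl`).  Injectivity: if `τ₁' ≤ τ₁` then `z' = sp g (sp (-g) z + (τ₁-τ₁') e)`,
so `|Δ₁| ≤ |Δ₂|/2`; the second equation gives `|Δ₂| ≤ |Δ₁|/2`.  Volumes: `measurePreserving_sp`, `per_big`,
`law_apply`, invariance of `law` under `refl`. -/
theorem indep_dir {k η κ : ℝ} (hM : (2 : ℝ) ^ 1000 ≤ Mk k) (hη0 : 0 ≤ η) (hηκ : η ≤ κ)
    (hκ : κ ≤ 1 / 400) {js j j' : ℕ} (hjs : 1000 ≤ js) (hj : js < j) (hj' : js < j')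
    (e e' : ℝ × ℝ) (he : e = (1, 0) ∨ e = (0, 1)) (he' : e' = (1, 0) ∨ e' = (0, 1))
    (g g' : ℕ) (hg : g = (j - 1) ^ 2) (hg' : g' = (j' - 1) ^ 2) :
    volume {z : ℝ × ℝ | z ∈ Q0 ∧ refl (pot k z) ∈ Rj (Mk k) η κ js j ∧
        pot k z ∈ Rj (Mk k) η κ js j' ∧
        nrm (pot k z) (-(g : ℤ)) 0 ≤ 4 * nu (sol (pot k z) (-(g : ℤ)) e.1 e.2) 0 ∧
        nrm (pot k z.swap) (-(g' : ℤ)) 0 ≤ 4 * nu (sol (pot k z.swap) (-(g' : ℤ)) e'.1 e'.2) 0} ≤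
      1250 * (law k (Rt (Mk k) κ js j) * law k (Rt (Mk k) κ js j')) := by
  have hk : 0 ≤ k := nonneg_of_big hM
  set S := {z : ℝ × ℝ | z ∈ Q0 ∧ refl (pot k z) ∈ Rj (Mk k) η κ js j ∧
        pot k z ∈ Rj (Mk k) η κ js j' ∧
        nrm (pot k z) (-(g : ℤ)) 0 ≤ 4 * nu (sol (pot k z) (-(g : ℤ)) e.1 e.2) 0 ∧
        nrm (pot k z.swap) (-(g' : ℤ)) 0 ≤
          4 * nu (sol (pot k z.swap) (-(g' : ℤ)) e'.1 e'.2) 0} with hSdef
  have hS : MeasurableSet S := by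
    have m1 : MeasurableSet Q0 := measurableSet_Ico.prod measurableSet_Ico
    have m2 : MeasurableSet {z : ℝ × ℝ | refl (pot k z) ∈ Rj (Mk k) η κ js j} :=
      (measurable_refl.comp (measurable_pot k)) (measurableSet_Rj _ _ _ _ _)
    have m3 : MeasurableSet {z : ℝ × ℝ | pot k z ∈ Rj (Mk k) η κ js j'} :=
      (measurable_pot k) (measurableSet_Rj _ _ _ _ _)
    have m4 : MeasurableSet {z : ℝ × ℝ |
        nrm (pot k z) (-(g : ℤ)) 0 ≤ 4 * nu (sol (pot k z) (-(g : ℤ)) e.1 e.2) 0} :=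
      (isClosed_le ((continuous_nrm _ _).comp (continuous_pot k))
        (continuous_const.mul (indep_cont_nu k _ _ _ _))).measurableSet
    have m5 : MeasurableSet {z : ℝ × ℝ | nrm (pot k z.swap) (-(g' : ℤ)) 0 ≤
          4 * nu (sol (pot k z.swap) (-(g' : ℤ)) e'.1 e'.2) 0} :=
      (isClosed_le (((continuous_nrm _ _).comp (continuous_pot k)).comp continuous_swap)
        (continuous_const.mul ((indep_cont_nu k _ _ _ _).comp continuous_swap))).measurableSet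
    exact m1.inter (m2.inter (m3.inter (m4.inter m5)))
  have hU := fun z (hz : z ∈ S) => ucurve hM hη0 hηκ hκ hjs hj z e he g hg hz.2.1 hz.2.2.2.1
  have hU' := fun z (hz : z ∈ S) => ucurve hM hη0 hηκ hκ hjs hj' z.swap e' he' g' hg'
    (by rw [pot_swap, refl_refl]; exact hz.2.2.1) hz.2.2.2.2
  set T : ℝ × ℝ →L[ℝ] ℝ × ℝ := (ContinuousLinearEquiv.prodComm ℝ ℝ ℝ).toContinuousLinearMap with hT
  have key := jac_four (sp k (-(g : ℤ))) (fun z => sp k (-(g' : ℤ)) z.swap)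
    (fun z => tm (pot k z) 0 (-(g : ℤ))) (fun z => (tm (pot k z.swap) 0 (-(g' : ℤ))).comp T)
    (fun z => hasFDerivAt_sp k _ z)
    (fun z => (hasFDerivAt_sp k _ z.swap).comp z T.hasFDerivAt)
    (fun z => by rw [tm_det, abs_one])
    (fun z => by
      have : ((tm (pot k z.swap) 0 (-(g' : ℤ))).comp T).det =
          (tm (pot k z.swap) 0 (-(g' : ℤ))).det * T.det := LinearMap.det_comp _ _
      rw [this, tm_det, one_mul]; exact indep_det_swap)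
    e e'
    (fun z => (sol (pot k z) (-(g : ℤ)) e.1 e.2 0, sol (pot k z) (-(g : ℤ)) e.1 e.2 1))
    (fun z => (sol (pot k z.swap) (-(g' : ℤ)) e'.1 e'.2 1,
      sol (pot k z.swap) (-(g' : ℤ)) e'.1 e'.2 0))
    (fun z => indep_tm_w _ _ _) (fun z => indep_tm_w _ _ _) hS
    (fun z => 1 / |sol (pot k z) (-(g : ℤ)) e.1 e.2 1|)
    (fun z => 1 / |sol (pot k z.swap) (-(g' : ℤ)) e'.1 e'.2 1|)
    (measurable_const.div (indep_cont_sol k _ _ _ _).abs.measurable)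
    (measurable_const.div ((indep_cont_sol k _ _ _ _).comp continuous_swap).abs.measurable)
    (fun z hz => by have := abs_pos.mpr (hU z hz).1; positivity)
    (fun z hz => by have := abs_pos.mpr (hU' z hz).1; positivity)
    (sp k g ⁻¹' (pot k ⁻¹' (refl ⁻¹' Rt (Mk k) κ js j) ∩ Ico (-2 : ℝ) 3 ×ˢ Ico (-2 : ℝ) 3))
    (sp k g' ⁻¹' (pot k ⁻¹' (refl ⁻¹' Rt (Mk k) κ js j') ∩ Ico (-2 : ℝ) 3 ×ˢ Ico (-2 : ℝ) 3))
    (fun z hz τ h0 h1 => by
      obtain ⟨a1, a2, a3⟩ := (hU z hz).2.2 τ h0 (indep_le_inv (hU z hz).1 h1)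
      obtain ⟨⟨q1, q2⟩, q3, q4⟩ := hz.1
      have a4 := a1.trans (div_le_div_of_nonneg_right a2 (by norm_num))
      rw [abs_le] at a2 a4
      refine ⟨a3, ⟨?_, ?_⟩, ?_, ?_⟩ <;> linarith [a2.1, a2.2, a4.1, a4.2])
    (fun z hz τ h0 h1 => by
      obtain ⟨a1, a2, a3⟩ := (hU' z hz).2.2 τ h0 (indep_le_inv (hU' z hz).1 h1)
      obtain ⟨⟨q1, q2⟩, q3, q4⟩ := hz.1
      have a4 := a1.trans (div_le_div_of_nonneg_right a2 (by norm_num))
      rw [abs_le] at a2 a4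
      simp only [Prod.fst_swap, Prod.snd_swap] at a2 a4
      refine ⟨a3, ⟨?_, ?_⟩, ?_, ?_⟩ <;> linarith [a2.1, a2.2, a4.1, a4.2])
    (fun z hz z' hz' τ₁ τ₁' τ₂ τ₂' b1 b2 b3 b4 b5 b6 b7 b8 e1 e2 => by
      have i1 := indep_half g z z' e _ _ τ₁ τ₁'
        (fun σ s0 s1 => ((hU z hz).2.2 σ s0 (indep_le_inv (hU z hz).1 s1)).1)
        (fun σ s0 s1 => ((hU z' hz').2.2 σ s0 (indep_le_inv (hU z' hz').1 s1)).1) b1 b2 b3 b4 e1
      have i2 := indep_half g' z.swap z'.swap e' _ _ τ₂ τ₂'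
        (fun σ s0 s1 => ((hU' z hz).2.2 σ s0 (indep_le_inv (hU' z hz).1 s1)).1)
        (fun σ s0 s1 => ((hU' z' hz').2.2 σ s0 (indep_le_inv (hU' z' hz').1 s1)).1) b5 b6 b7 b8 e2
      simp only [Prod.fst_swap, Prod.snd_swap] at i2
      have z1 : |z'.1 - z.1| = 0 := by linarith [abs_nonneg (z'.1 - z.1)]
      have z2 : |z'.2 - z.2| = 0 := by linarith [abs_nonneg (z'.2 - z.2)]
      rw [abs_eq_zero, sub_eq_zero] at z1 z2
      exact Prod.ext z1.symm z2.symm)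
    (fun z hz => indep_jac (hU z hz).1 (hU' z hz).1 (hU z hz).2.1 (hU' z hz).2.1)
  refine key.trans ?_
  calc 2 * (volume (sp k g ⁻¹' (pot k ⁻¹' (refl ⁻¹' Rt (Mk k) κ js j) ∩
          Ico (-2 : ℝ) 3 ×ˢ Ico (-2 : ℝ) 3)) *
        volume (sp k g' ⁻¹' (pot k ⁻¹' (refl ⁻¹' Rt (Mk k) κ js j') ∩
          Ico (-2 : ℝ) 3 ×ˢ Ico (-2 : ℝ) 3)))
      ≤ 2 * ((25 * law k (Rt (Mk k) κ js j)) * (25 * law k (Rt (Mk k) κ js j'))) := by
        gcongr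
        · exact indep_vol_B hk κ js j g
        · exact indep_vol_B hk κ js j' g'
    _ = 1250 * (law k (Rt (Mk k) κ js j) * law k (Rt (Mk k) κ js j')) := by ring

/-- Union over the four choices of directions (`nrm_le_basis`). -/
theorem indep {k η κ : ℝ} (hM : (2 : ℝ) ^ 1000 ≤ Mk k) (hη0 : 0 ≤ η) (hηκ : η ≤ κ)
    (hκ : κ ≤ 1 / 400) {js j j' : ℕ} (hjs : 1000 ≤ js) (hj : js < j) (hj' : js < j') :
    (law k).real (refl ⁻¹' Rj (Mk k) η κ js j ∩ Rj (Mk k) η κ js j') ≤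
      5000 * ((law k).real (Rt (Mk k) κ js j) * (law k).real (Rt (Mk k) κ js j')) := by
  have hk : 0 ≤ k := nonneg_of_big hM
  have := (stat_law hk).prob
  have hm : MeasurableSet (refl ⁻¹' Rj (Mk k) η κ js j ∩ Rj (Mk k) η κ js j') :=
    (measurable_refl (measurableSet_Rj _ _ _ _ _)).inter (measurableSet_Rj _ _ _ _ _)
  set g : ℕ := (j - 1) ^ 2 with hg
  set g' : ℕ := (j' - 1) ^ 2 with hg'
  set F : ℝ × ℝ → ℝ × ℝ → Set (ℝ × ℝ) := fun e e' =>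
    {z : ℝ × ℝ | z ∈ Q0 ∧ refl (pot k z) ∈ Rj (Mk k) η κ js j ∧
        pot k z ∈ Rj (Mk k) η κ js j' ∧
        nrm (pot k z) (-(g : ℤ)) 0 ≤ 4 * nu (sol (pot k z) (-(g : ℤ)) e.1 e.2) 0 ∧
        nrm (pot k z.swap) (-(g' : ℤ)) 0 ≤
          4 * nu (sol (pot k z.swap) (-(g' : ℤ)) e'.1 e'.2) 0} with hF
  set X := law k (Rt (Mk k) κ js j) * law k (Rt (Mk k) κ js j') with hX
  have hb : ∀ e e' : ℝ × ℝ, (e = (1, 0) ∨ e = (0, 1)) → (e' = (1, 0) ∨ e' = (0, 1)) →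
      volume (F e e') ≤ 1250 * X := fun e e' he he' =>
    indep_dir hM hη0 hηκ hκ hjs hj hj' e e' he he' g g' hg hg'
  have hsub : pot k ⁻¹' (refl ⁻¹' Rj (Mk k) η κ js j ∩ Rj (Mk k) η κ js j') ∩ Q0 ⊆
      (F (1, 0) (1, 0) ∪ F (1, 0) (0, 1)) ∪ (F (0, 1) (1, 0) ∪ F (0, 1) (0, 1)) := by
    rintro z ⟨⟨h1, h2⟩, h3⟩
    rcases nrm_le_basis (pot k z) (-(g : ℤ)) 0 with a | a <;>
      rcases nrm_le_basis (pot k z.swap) (-(g' : ℤ)) 0 with b | b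
    · exact Or.inl (Or.inl ⟨h3, h1, h2, a, b⟩)
    · exact Or.inl (Or.inr ⟨h3, h1, h2, a, b⟩)
    · exact Or.inr (Or.inl ⟨h3, h1, h2, a, b⟩)
    · exact Or.inr (Or.inr ⟨h3, h1, h2, a, b⟩)
  have hle : law k (refl ⁻¹' Rj (Mk k) η κ js j ∩ Rj (Mk k) η κ js j') ≤ 5000 * X := by
    rw [law_apply k hm]
    refine (measure_mono hsub).trans ?_
    refine (measure_union_le _ _).trans ?_
    refine (add_le_add (measure_union_le _ _) (measure_union_le _ _)).trans ?_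
    calc _ ≤ (1250 * X + 1250 * X) + (1250 * X + 1250 * X) := by
          gcongr <;> apply hb <;> simp
      _ = 5000 * X := by ring
  have hXfin : X ≠ ⊤ := ENNReal.mul_ne_top (measure_ne_top _ _) (measure_ne_top _ _)
  have := ENNReal.toReal_mono (ENNReal.mul_ne_top (by norm_num) hXfin) hle
  rw [ENNReal.toReal_mul, hX, ENNReal.toReal_mul] at this
  simpa [Measure.real] using this

end Crest.Agent.R128
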