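import Crest.Agent.R128.Defs

/-! Interpolation from a dense set; poles of the cosine. -/

set_option autoImplicit false

noncomputable section

open MeasureTheory Set

namespace Crest.Agent.R128

theorem DenseIn.mono {δ δ' : ℝ} {E : Set ℝ} (h : DenseIn δ E) (hδ : δ ≤ δ') : DenseIn δ' E := by
  intro s h1 h2
  obtain ⟨x, hx, h3, h4⟩ := h s h1 (by linarith)
  exact ⟨x, hx, h3, by linarith⟩

/-- Lagrange interpolation (`Lagrange.eq_interpolate`): nodes `x i`, `i ≤ m`, at mutual distance `≥ h`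
inside an interval of length `l`. -/
theorem interp_nodes {m : ℕ} (P : Polynomial ℝ) (hP : P.natDegree ≤ m) {h a l A : ℝ} (hh : 0 < h)
    (x : ℕ → ℝ) (hx : ∀ i, i ≤ m → x i ∈ Icc a (a + l))
    (hsep : ∀ i j, i < j → j ≤ m → x i + h ≤ x j) (hA : ∀ i, i ≤ m → |P.eval (x i)| ≤ A) :
    ∀ u ∈ Icc a (a + l), |P.eval u| ≤ (m + 1) * (l / h) ^ m * A := by
  intro u hu
  have hl : 0 ≤ l := by linarith [hu.1, hu.2]
  have hdist : ∀ i j, i ≤ m → j ≤ m → i ≠ j → h ≤ |x i - x j| := by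
    intro i j hi hj hij
    rcases lt_or_gt_of_ne hij with h1 | h1
    · have := hsep i j h1 hj
      rw [abs_sub_comm]
      exact le_trans (by linarith) (le_abs_self _)
    · have := hsep j i h1 hi
      exact le_trans (by linarith) (le_abs_self _)
  have hinj : Set.InjOn x (Finset.range (m + 1) : Finset ℕ) := by
    intro i hi j hj hij
    by_contra hne
    simp only [Finset.coe_range, mem_Iio] at hi hj
    have := hdist i j (by omega) (by omega) hne
    rw [hij, sub_self, abs_zero] at this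
    linarith
  have hdeg : P.degree < ((Finset.range (m + 1)).card : ℕ) := by
    rw [Finset.card_range]
    refine lt_of_le_of_lt (Polynomial.degree_le_of_natDegree_le hP) ?_
    exact_mod_cast Nat.lt_succ_self m
  have h1 := Lagrange.eq_interpolate hinj hdeg
  have h2 : P.eval u = ∑ i ∈ Finset.range (m + 1),
      P.eval (x i) * (Lagrange.basis (Finset.range (m + 1)) x i).eval u := by
    conv_lhs => rw [h1]
    rw [Lagrange.interpolate_apply, Polynomial.eval_finsetSum]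
    simp only [Polynomial.eval_mul, Polynomial.eval_C]
  have h3 : ∀ i ∈ Finset.range (m + 1),
      |(Lagrange.basis (Finset.range (m + 1)) x i).eval u| ≤ (l / h) ^ m := by
    intro i hi
    rw [Lagrange.basis, Polynomial.eval_prod, Finset.abs_prod]
    have hc : ((Finset.range (m + 1)).erase i).card = m := by
      rw [Finset.card_erase_of_mem hi, Finset.card_range]
      omega
    calc _ ≤ ∏ _j ∈ (Finset.range (m + 1)).erase i, (l / h) := by
          refine Finset.prod_le_prod (fun j _ => abs_nonneg _) fun j hj => ?_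
          have hj1 := Finset.mem_erase.1 hj
          have hj2 : j ≤ m := by have := Finset.mem_range.1 hj1.2; omega
          have hi2 : i ≤ m := by have := Finset.mem_range.1 hi; omega
          have h4 := hdist i j hi2 hj2 hj1.1.symm
          have h5 : |u - x j| ≤ l := by
            rw [abs_le]
            constructor <;> linarith [hu.1, hu.2, (hx j hj2).1, (hx j hj2).2]
          simp only [Lagrange.basisDivisor, Polynomial.eval_mul, Polynomial.eval_C,
            Polynomial.eval_sub, Polynomial.eval_X, abs_mul, abs_inv]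
          rw [← div_eq_inv_mul]
          gcongr
      _ = (l / h) ^ m := by rw [Finset.prod_const, hc]
  have hA0 : 0 ≤ A := le_trans (abs_nonneg _) (hA 0 (Nat.zero_le _))
  rw [h2]
  calc _ ≤ ∑ i ∈ Finset.range (m + 1),
        |P.eval (x i) * (Lagrange.basis (Finset.range (m + 1)) x i).eval u| :=
        Finset.abs_sum_le_sum_abs _ _
    _ ≤ ∑ _i ∈ Finset.range (m + 1), A * (l / h) ^ m := by
        refine Finset.sum_le_sum fun i hi => ?_
        rw [abs_mul]
        have hi2 : i ≤ m := by have := Finset.mem_range.1 hi; omega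
        exact mul_le_mul (hA i hi2) (h3 i hi) (abs_nonneg _) hA0
    _ = (m + 1) * (l / h) ^ m * A := by
        rw [Finset.sum_const, Finset.card_range, nsmul_eq_mul]
        push_cast
        ring

/-- Nodes taken from a dense set: one point of `E` in each `[c + 2 i h, c + 2 i h + δ]`, `i ≤ m`. -/
theorem interp_dense {m : ℕ} (P : Polynomial ℝ) (hP : P.natDegree ≤ m) {δ h a l c A : ℝ}
    {E : Set ℝ} (hE : DenseIn δ E) (hδ : δ ≤ h) (hh : 0 < h) (ha : -2 ≤ a) (hal : a + l ≤ 2)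
    (hc : a ≤ c) (hcl : c + (2 * m + 1) * h ≤ a + l)
    (hA : ∀ x ∈ E, c ≤ x → x ≤ c + (2 * m + 1) * h → |P.eval x| ≤ A) :
    ∀ u ∈ Icc a (a + l), |P.eval u| ≤ (m + 1) * (l / h) ^ m * A := by
  have hex : ∀ i : ℕ, ∃ x : ℝ, i ≤ m → x ∈ E ∧ c + 2 * i * h ≤ x ∧ x ≤ c + 2 * i * h + h := by
    intro i
    by_cases hi : i ≤ m
    · have hi' : (i : ℝ) ≤ m := by exact_mod_cast hi
      have h0 : 0 ≤ (i : ℝ) * h := by positivity
      have h1 : (i : ℝ) * h ≤ m * h := by gcongr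
      obtain ⟨x, hx, h2, h3⟩ := hE (c + 2 * i * h) (by linarith) (by linarith)
      exact ⟨x, fun _ => ⟨hx, h2, by linarith⟩⟩
    · exact ⟨0, fun h => absurd h hi⟩
  choose x hx using hex
  have hb : ∀ i : ℕ, i ≤ m → c ≤ x i ∧ x i ≤ c + (2 * m + 1) * h := by
    intro i hi
    have hi' : (i : ℝ) ≤ m := by exact_mod_cast hi
    have h0 : 0 ≤ (i : ℝ) * h := by positivity
    have h1 : (i : ℝ) * h ≤ m * h := by gcongr
    obtain ⟨_, h2, h3⟩ := hx i hi
    constructor <;> linarith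
  refine interp_nodes P hP hh x (fun i hi => ?_) (fun i j hij hj => ?_) (fun i hi => ?_)
  · obtain ⟨h1, h2⟩ := hb i hi
    constructor <;> linarith
  · obtain ⟨_, _, h3⟩ := hx i (by omega)
    obtain ⟨_, h4, _⟩ := hx j hj
    have h5 : (i : ℝ) + 1 ≤ j := by exact_mod_cast hij
    have h6 : ((i : ℝ) + 1) * h ≤ j * h := by gcongr
    linarith
  · exact hA _ (hx i hi).1 (hb i hi).1 (hb i hi).2

/-- Sign and size of the cosine just after the pole `j/2 + 1/4`:
`cos 2π(j/2 + 1/4 + d) = (-1)^(j+1) sin 2πd`. -/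
theorem cos_pole (j : ℤ) (d : ℝ) :
    Real.cos (2 * Real.pi * ((j : ℝ) / 2 + 1 / 4 + d)) = -((-1 : ℝ) ^ j) * Real.sin (2 * Real.pi * d) := by
  have h : 2 * Real.pi * ((j : ℝ) / 2 + 1 / 4 + d) = (2 * Real.pi * d + Real.pi / 2) + j * Real.pi := by
    ring
  rw [h, Real.cos_add_int_mul_pi, Real.cos_add_pi_div_two]
  ring

theorem sin_pole (j : ℤ) (d : ℝ) :
    Real.sin (2 * Real.pi * ((j : ℝ) / 2 + 1 / 4 + d)) = (-1 : ℝ) ^ j * Real.cos (2 * Real.pi * d) := by
  have h : 2 * Real.pi * ((j : ℝ) / 2 + 1 / 4 + d) = (2 * Real.pi * d + Real.pi / 2) + j * Real.pi := by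
    ring
  rw [h, Real.sin_add_int_mul_pi, Real.sin_add_pi_div_two]

/-- `|cos 2πx| ≥ 4 dist(x, 1/4 + ℤ/2)`. -/
theorem exists_pole_near (x : ℝ) :
    ∃ j : ℤ, 4 * |x - ((j : ℝ) / 2 + 1 / 4)| ≤ |Real.cos (2 * Real.pi * x)| := by
  refine ⟨round (2 * x - 1 / 2), ?_⟩
  set j : ℤ := round (2 * x - 1 / 2) with hj
  set d : ℝ := x - ((j : ℝ) / 2 + 1 / 4) with hd
  have h1 : |d| ≤ 1 / 4 := by
    have h2 := abs_sub_round (2 * x - 1 / 2)
    rw [← hj] at h2
    have h3 : d = (2 * x - 1 / 2 - j) / 2 := by rw [hd]; ring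
    rw [h3, abs_div, abs_two]
    linarith
  have h4 : x = (j : ℝ) / 2 + 1 / 4 + d := by rw [hd]; ring
  have hpi := Real.pi_pos
  have h5 : |2 * Real.pi * d| = 2 * Real.pi * |d| := by
    rw [abs_mul, abs_of_pos (by positivity)]
  have h6 := Real.mul_abs_le_abs_sin (x := 2 * Real.pi * d) (by rw [h5]; nlinarith)
  have h7 : |(-1 : ℝ) ^ j| = 1 := by
    rw [abs_zpow, abs_neg, abs_one, one_zpow]
  conv_rhs => rw [h4, cos_pole, abs_mul, abs_neg, h7, one_mul]
  rw [h5] at h6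
  refine le_trans (le_of_eq ?_) h6
  field_simp
  ring

/-- Increments of a side function (mean value theorem). -/
theorem Sd.Ok.incr {s : Sd} {K C₀ ε₀ b : ℝ} (h : s.Ok K C₀ ε₀ b) {u u' : ℝ}
    (hu : u ∈ Icc (-2 : ℝ) 2) (hu' : u' ∈ Icc (-2 : ℝ) 2) :
    |s.y u' - s.y u - b * (u' - u)| ≤ ε₀ * |b| * |u' - u| := by
  have h1 := (convex_Icc (-2 : ℝ) 2).norm_image_sub_le_of_norm_hasDerivWithin_le
    (f := fun t => s.y t - b * t) (f' := fun t => s.dy t - b) (C := ε₀ * |b|)
    (fun t ht => by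
      have h2 : HasDerivAt (fun t : ℝ => b * t) b t := by
        simpa using (hasDerivAt_id t).const_mul b
      exact ((h.der t ht).sub h2).hasDerivWithinAt)
    (fun t ht => h.near t ht) hu hu'
  rw [Real.norm_eq_abs, Real.norm_eq_abs] at h1
  convert h1 using 2
  ring

/-- Four consecutive poles of the fast side (intermediate value theorem; choose `j₀` with
`j₀/2 + 1/4 ∈ (y 0 - 1, y 0 - 1/2]`). -/
theorem exists_poles {s : Sd} {K C₀ ε₀ : ℝ} (h : s.Ok K C₀ ε₀ 1) (hε : ε₀ ≤ 1 / 100) :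
    ∃ (u : ℕ → ℝ) (j₀ : ℤ), ∀ i : ℕ, i ≤ 3 →
      u i ∈ Icc (-(11 / 10) : ℝ) (11 / 10) ∧ s.y (u i) = ((j₀ + i : ℤ) : ℝ) / 2 + 1 / 4 := by
  have h0 : (0 : ℝ) ∈ Icc (-2 : ℝ) 2 := by constructor <;> norm_num
  have h1 := h.incr h0 (u' := 11 / 10) (by constructor <;> norm_num)
  have h2 := h.incr h0 (u' := -(11 / 10)) (by constructor <;> norm_num)
  rw [abs_one, sub_zero, abs_of_pos (by norm_num : (0 : ℝ) < 11 / 10), abs_le] at h1
  rw [abs_one, sub_zero, abs_neg, abs_of_pos (by norm_num : (0 : ℝ) < 11 / 10), abs_le] at h2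
  have hcont : ContinuousOn s.y (Icc (-(11 / 10) : ℝ) (11 / 10)) := fun t ht =>
    (h.der t ⟨by linarith [ht.1], by linarith [ht.2]⟩).continuousAt.continuousWithinAt
  have hiv := intermediate_value_Icc (by norm_num : (-(11 / 10) : ℝ) ≤ 11 / 10) hcont
  have h3 := Int.floor_le (2 * s.y 0 - 3 / 2)
  have h4 := Int.lt_floor_add_one (2 * s.y 0 - 3 / 2)
  have hex : ∀ i : ℕ, ∃ u : ℝ, i ≤ 3 → u ∈ Icc (-(11 / 10) : ℝ) (11 / 10) ∧
      s.y u = ((⌊2 * s.y 0 - 3 / 2⌋ + i : ℤ) : ℝ) / 2 + 1 / 4 := by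
    intro i
    by_cases hi : i ≤ 3
    · have hi' : (i : ℝ) ≤ 3 := by exact_mod_cast hi
      have hi0 : (0 : ℝ) ≤ i := Nat.cast_nonneg i
      have hmem : ((⌊2 * s.y 0 - 3 / 2⌋ + i : ℤ) : ℝ) / 2 + 1 / 4 ∈
          Icc (s.y (-(11 / 10))) (s.y (11 / 10)) := by
        push_cast
        constructor <;> linarith [h1.1, h2.2]
      obtain ⟨u, hu, hu2⟩ := hiv hmem
      exact ⟨u, fun _ => ⟨hu, hu2⟩⟩
    · exact ⟨0, fun h => absurd h hi⟩
  choose u hu using hex
  exact ⟨u, _, hu⟩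

end Crest.Agent.R128
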