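import Crest.Agent.R128.Nrm

/-! The key dichotomy, the V-lemmas and the Pliss property of the most expanded vector. -/

set_option autoImplicit false

noncomputable section

open MeasureTheory Set

namespace Crest.Agent.R128

/-- Key inequality.  Let `û = u / nu u s` and let `e` be the basis solution at cut `s` complementary to
the largest component of `u` at cut `s`.  Write each basis solution `w` at cut `a` as `c₁ û + c₂ e`:
`|c₁| ≤ nu w s`, and `|c₂|` is a Wronskian of `û` and `w`, evaluated at cut `a`, so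
`|c₂| ≤ nu u a / nu u s`.  Summing the `ℓ¹` norms at cut `b` of the two basis solutions gives the claim
(`nu w₁ s + nu w₂ s ≤ nrm v a s`, and the `ℓ¹` norm of `e` at `b` is `≤ nrm v s b`). -/
theorem key_ineq {v u : ℤ → ℝ} (hu : IsSol v u) (hp : ∀ s, 0 < nu u s) (a s b : ℤ) :
    nrm v a b ≤ 2 * nrm v a s * (nu u b / nu u s) + 2 * nrm v s b * (nu u a / nu u s) := by
  have hs := hp s
  -- complementary basis solution at cut `s`
  have main : ∀ (w : ℤ → ℝ), IsSol v w → |w a| + |w (a + 1)| ≤ 1 →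
      |w b| + |w (b + 1)| ≤ 2 * nu w s * (nu u b / nu u s) + nrm v s b * (nu u a / nu u s) := by
    intro w hw hw1
    have hW := wronskian hu hw a s
    have hWa : |u a * w (a + 1) - u (a + 1) * w a| ≤ nu u a := by
      calc _ ≤ |u a * w (a + 1)| + |u (a + 1) * w a| := abs_sub _ _
        _ = |u a| * |w (a + 1)| + |u (a + 1)| * |w a| := by rw [abs_mul, abs_mul]
        _ ≤ nu u a * |w (a + 1)| + nu u a * |w a| := by
            gcongr
            · exact abs_le_nu u a
            · exact abs_succ_le_nu u a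
        _ = nu u a * (|w a| + |w (a + 1)|) := by ring
        _ ≤ nu u a * 1 := by gcongr; exact nu_nonneg u a
        _ = _ := mul_one _
    rw [hW] at hWa
    have key : ∀ (e : ℤ → ℝ) (c₁ c₂ : ℝ), IsSol v e → nu e s = 1 →
        (∀ t, w t = c₁ * u t + c₂ * e t) → |c₁| ≤ nu w s / nu u s → |c₂| ≤ nu u a / nu u s →
        |w b| + |w (b + 1)| ≤ 2 * nu w s * (nu u b / nu u s) + nrm v s b * (nu u a / nu u s) := by
      intro e c₁ c₂ he he1 hwe h1 h2
      have h3 := abs_add_le_nrm he s b
      rw [he1, mul_one] at h3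
      have h4 := abs_le_nu u b
      have h5 := abs_succ_le_nu u b
      rw [hwe b, hwe (b + 1)]
      calc _ ≤ (|c₁| * |u b| + |c₂| * |e b|) + (|c₁| * |u (b + 1)| + |c₂| * |e (b + 1)|) := by
            gcongr <;> (refine (abs_add_le _ _).trans ?_; rw [abs_mul, abs_mul])
        _ = |c₁| * (|u b| + |u (b + 1)|) + |c₂| * (|e b| + |e (b + 1)|) := by ring
        _ ≤ (nu w s / nu u s) * (2 * nu u b) + (nu u a / nu u s) * nrm v s b := by
            have := nu_nonneg w s
            have := nu_nonneg u a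
            gcongr
            linarith
        _ = _ := by ring
    rcases le_total |u (s + 1)| |u s| with hc | hc
    · have hnu : nu u s = |u s| := max_eq_left hc
      have hne : u s ≠ 0 := by rw [hnu] at hs; exact abs_pos.mp hs
      refine key (sol v s 0 1) (w s / u s) ((u s * w (s + 1) - u (s + 1) * w s) / u s)
        (sol_isSol _ _ _ _) (by rw [nu_sol_self]; simp) ?_ ?_ ?_
      · have := IsSol.ext hw (hu.lin (sol_isSol v s 0 1) (w s / u s)
          ((u s * w (s + 1) - u (s + 1) * w s) / u s)) s (by simp; field_simp)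
          (by simp; field_simp; ring)
        intro t; exact congrFun this t
      · rw [abs_div, hnu]; gcongr; exact abs_le_nu w s
      · rw [abs_div, hnu]; gcongr
    · have hnu : nu u s = |u (s + 1)| := max_eq_right hc
      have hne : u (s + 1) ≠ 0 := by rw [hnu] at hs; exact abs_pos.mp hs
      refine key (sol v s 1 0) (w (s + 1) / u (s + 1))
        (-(u s * w (s + 1) - u (s + 1) * w s) / u (s + 1))
        (sol_isSol _ _ _ _) (by rw [nu_sol_self]; simp) ?_ ?_ ?_
      · have := IsSol.ext hw (hu.lin (sol_isSol v s 1 0) (w (s + 1) / u (s + 1))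
          (-(u s * w (s + 1) - u (s + 1) * w s) / u (s + 1))) s (by simp; field_simp; ring)
          (by simp; field_simp)
        intro t; exact congrFun this t
      · rw [abs_div, hnu]; gcongr; exact abs_succ_le_nu w s
      · rw [abs_div, abs_neg, hnu]; gcongr
  have m1 := main (sol v a 1 0) (sol_isSol _ _ _ _) (by simp)
  have m2 := main (sol v a 0 1) (sol_isSol _ _ _ _) (by simp)
  have h1 : nu (sol v a 1 0) s + nu (sol v a 0 1) s ≤ nrm v a s := by
    unfold nu nrm
    have := abs_nonneg (sol v a 1 0 s)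
    have := abs_nonneg (sol v a 1 0 (s + 1))
    have := abs_nonneg (sol v a 0 1 s)
    have := abs_nonneg (sol v a 0 1 (s + 1))
    have h3 : max |sol v a 1 0 s| |sol v a 1 0 (s + 1)| ≤ |sol v a 1 0 s| + |sol v a 1 0 (s + 1)| :=
      max_le (by linarith) (by linarith)
    have h4 : max |sol v a 0 1 s| |sol v a 0 1 (s + 1)| ≤ |sol v a 0 1 s| + |sol v a 0 1 (s + 1)| :=
      max_le (by linarith) (by linarith)
    linarith
  have h2 : 0 ≤ nu u b / nu u s := div_nonneg (nu_nonneg _ _) hs.le
  have h3 := mul_le_mul_of_nonneg_right h1 h2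
  have h4 : nrm v a b = (|sol v a 1 0 b| + |sol v a 1 0 (b + 1)|) +
      (|sol v a 0 1 b| + |sol v a 0 1 (b + 1)|) := by unfold nrm; ring
  rw [h4]
  nlinarith

/-- From `key_ineq` and `nrm_le_two_rpow`:
`nrm a b ≤ 8 max (M^(s-a) ν(b)/ν(s)) (M^(b-s) ν(a)/ν(s))`; take `logb M`. -/
theorem key_dich {M : ℝ} {v u : ℤ → ℝ} (hv : Bdd M v) (hu : IsSol v u) (hp : ∀ s, 0 < nu u s)
    {a s b : ℤ} (has : a ≤ s) (hsb : s ≤ b) :
    ((b : ℝ) - s) - dfc M v a b - Real.logb M 8 ≤ ht M u b - ht M u s ∨
      ((s : ℝ) - a) - dfc M v a b - Real.logb M 8 ≤ ht M u a - ht M u s := by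
  have hM2 := hv.two_le
  have hM : 1 < M := by linarith
  have hM0 : 0 < M := by linarith
  have hk := key_ineq hu hp a s b
  have h1 := nrm_le_two_rpow hv has
  have h2 := nrm_le_two_rpow hv hsb
  have hx : 0 < nu u b / nu u s := div_pos (hp b) (hp s)
  have hy : 0 < nu u a / nu u s := div_pos (hp a) (hp s)
  have hX : 0 < M ^ ((s : ℝ) - a) := Real.rpow_pos_of_pos hM0 _
  have hY : 0 < M ^ ((b : ℝ) - s) := Real.rpow_pos_of_pos hM0 _
  have h3 : nrm v a b ≤ 4 * (M ^ ((s : ℝ) - a) * (nu u b / nu u s)) +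
      4 * (M ^ ((b : ℝ) - s) * (nu u a / nu u s)) := by
    have := mul_le_mul_of_nonneg_right h1 hx.le
    have := mul_le_mul_of_nonneg_right h2 hy.le
    nlinarith
  have hlog : ∀ (x : ℝ) (c : ℤ), nrm v a b ≤ 8 * (M ^ x * (nu u c / nu u s)) →
      Real.logb M (nrm v a b) ≤ Real.logb M 8 + (x + (ht M u c - ht M u s)) := by
    intro x c h
    have hc := hp c
    have hs := hp s
    have hXx : 0 < M ^ x := Real.rpow_pos_of_pos hM0 _
    have := Real.logb_le_logb_of_le hM (nrm_pos v a b) h
    rw [Real.logb_mul (by norm_num) (by positivity), Real.logb_mul hXx.ne' (by positivity),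
      Real.logb_rpow hM0 hM.ne', Real.logb_div hc.ne' hs.ne'] at this
    exact this
  unfold dfc
  rcases le_total (M ^ ((b : ℝ) - s) * (nu u a / nu u s)) (M ^ ((s : ℝ) - a) * (nu u b / nu u s))
    with h | h
  · left
    have := hlog ((s : ℝ) - a) b (by linarith)
    linarith
  · right
    have := hlog ((b : ℝ) - s) a (by linarith)
    linarith

theorem key_logb8 {M : ℝ} (hM : 16 ≤ M) : 0 ≤ Real.logb M 8 ∧ Real.logb M 8 ≤ 1 := by
  have hM1 : 1 < M := by linarith
  refine ⟨Real.logb_nonneg hM1 (by norm_num), ?_⟩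
  have := Real.logb_le_logb_of_le hM1 (by norm_num : (0 : ℝ) < 8) (by linarith : (8 : ℝ) ≤ M)
  rwa [Real.logb_self_eq_one hM1] at this

/-- V-lemma, minimum at the right end.  Let `o = logb M 8 ≤ 3/4`, `m = ⌊D + o⌋ + 1`.  If `m ≤ b - a`
apply `key_dich` at `s = b - m`: the first alternative is impossible.  Otherwise the left side is negative
and `ht b ≤ ht a`. -/
theorem vlemma_right {M : ℝ} (hM : 16 ≤ M) {v u : ℤ → ℝ} (hv : Bdd M v) (hu : IsSol v u)
    (hp : ∀ s, 0 < nu u s) {a b : ℤ} (hab : a ≤ b) {D : ℝ} (hD0 : 0 ≤ D) (hD : dfc M v a b ≤ D)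
    (hmin : ∀ s, a ≤ s → s ≤ b → ht M u b ≤ ht M u s) :
    ((b : ℝ) - a) - 2 * D - 3 ≤ ht M u a - ht M u b := by
  have ho := key_logb8 hM
  obtain ⟨m, hm1, hm2⟩ : ∃ m : ℤ, D + Real.logb M 8 < m ∧ (m : ℝ) ≤ D + Real.logb M 8 + 1 :=
    ⟨⌊D + Real.logb M 8⌋ + 1, by push_cast; exact Int.lt_floor_add_one _,
      by push_cast; linarith [Int.floor_le (D + Real.logb M 8)]⟩
  have hm0 : 0 ≤ m := by
    have : (0 : ℝ) < m := by linarith [ho.1]
    exact_mod_cast this.le
  by_cases hc : m ≤ b - a
  · have h1 := hmin (b - m) (by omega) (by omega)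
    rcases key_dich hv hu hp (show a ≤ b - m by omega) (show b - m ≤ b by omega) with h | h
    · push_cast at h; linarith
    · push_cast at h; linarith [ho.2]
  · have h1 := hmin a le_rfl hab
    have h2 : ((b : ℝ) - a) < m := by exact_mod_cast (not_le.mp hc)
    linarith [ho.2]

/-- V-lemma, minimum at the left end (symmetric; `s = a + m`). -/
theorem vlemma_left {M : ℝ} (hM : 16 ≤ M) {v u : ℤ → ℝ} (hv : Bdd M v) (hu : IsSol v u)
    (hp : ∀ s, 0 < nu u s) {a b : ℤ} (hab : a ≤ b) {D : ℝ} (hD0 : 0 ≤ D) (hD : dfc M v a b ≤ D)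
    (hmin : ∀ s, a ≤ s → s ≤ b → ht M u a ≤ ht M u s) :
    ((b : ℝ) - a) - 2 * D - 3 ≤ ht M u b - ht M u a := by
  have ho := key_logb8 hM
  obtain ⟨m, hm1, hm2⟩ : ∃ m : ℤ, D + Real.logb M 8 < m ∧ (m : ℝ) ≤ D + Real.logb M 8 + 1 :=
    ⟨⌊D + Real.logb M 8⌋ + 1, by push_cast; exact Int.lt_floor_add_one _,
      by push_cast; linarith [Int.floor_le (D + Real.logb M 8)]⟩
  have hm0 : 0 ≤ m := by
    have : (0 : ℝ) < m := by linarith [ho.1]
    exact_mod_cast this.le
  by_cases hc : m ≤ b - a
  · have h1 := hmin (a + m) (by omega) (by omega)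
    rcases key_dich hv hu hp (show a ≤ a + m by omega) (show a + m ≤ b by omega) with h | h
    · push_cast at h; linarith [ho.2]
    · push_cast at h; linarith
  · have h1 := hmin b hab le_rfl
    have h2 : ((b : ℝ) - a) < m := by exact_mod_cast (not_le.mp hc)
    linarith [ho.2]

/-- Pliss property.  Claim `P(l) : ht b - ht (b-l) ≥ (19/20) l`.  `l = 0` is trivial.  For `G ≤ 2l`:
`ht b - ht (b-G) ≥ G - dfc - logb M 4 ≥ G - G/50 - 1/100` and `ht_diff` give `P(l)`.  For `1 ≤ l`, `2l < G`:
downward strong induction; `P(2l)` and `key_dich` on `[b-2l, b]` at `s = b - l`: the second alternative would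
give `ht b - ht s ≥ (19/10) l + l - 2l/50 - 1/100 > l`, contradicting `ht_diff`; the first one is `P(l)`.
Convert with `nu_le_iff_ht`; `big_logb` bounds `logb M 8`. -/
theorem pliss {M : ℝ} (hM : (2 : ℝ) ^ 1000 ≤ M) {v u : ℤ → ℝ} (hv : Bdd M v) (hu : IsSol v u)
    (hp : ∀ s, 0 < nu u s) (b : ℤ) (G : ℕ)
    (hreg : ∀ l : ℕ, 1 ≤ l → l ≤ G → dfc M v (b - l) b ≤ l / 50)
    (hbig : nrm v (b - G) b * nu u (b - G) ≤ 4 * nu u b) :
    ∀ l : ℕ, l ≤ G → nu u (b - l) ≤ M ^ (-(19 / 20 * (l : ℝ))) * nu u b := by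
  have hM2 := hv.two_le
  have ho := big_logb hM
  clear hM
  have hM1 : 1 < M := by linarith
  have h48 : Real.logb M 4 ≤ Real.logb M 8 := Real.logb_le_logb_of_le hM1 (by norm_num) (by norm_num)
  have hG : (G : ℝ) - dfc M v (b - G) b - Real.logb M 4 ≤ ht M u b - ht M u (b - G) := by
    have h1 := Real.logb_le_logb_of_le hM1 (mul_pos (nrm_pos _ _ _) (hp _)) hbig
    rw [Real.logb_mul (nrm_pos _ _ _).ne' (hp _).ne', Real.logb_mul (by norm_num) (hp _).ne'] at h1
    unfold dfc ht
    push_cast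
    linarith
  have claim : ∀ d l : ℕ, l ≤ G → G ≤ l + d → 19 / 20 * (l : ℝ) ≤ ht M u b - ht M u (b - l) := by
    intro d
    induction d with
    | zero =>
      intro l h1 h2
      have : l = G := by omega
      subst this
      rcases Nat.eq_zero_or_pos l with h0 | h0
      · subst h0; simp
      · have h3 := hreg l h0 le_rfl
        have h4 : (1 : ℝ) ≤ l := by exact_mod_cast h0
        linarith
    | succ d ih =>
      intro l h1 h2
      rcases Nat.eq_zero_or_pos l with h0 | h0
      · subst h0; simp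
      have h4 : (1 : ℝ) ≤ l := by exact_mod_cast h0
      by_cases hc : G ≤ 2 * l
      · have h3 := hreg G (by omega) le_rfl
        have h5 := ht_diff hv hu hp (show b - G ≤ b - l by omega)
        have h6 : (G : ℝ) ≤ 2 * l := by exact_mod_cast hc
        have h7 := (abs_le.mp h5).2
        push_cast at h7
        linarith
      · have h5 := ih (2 * l) (by omega) (by omega)
        have h3 := hreg (2 * l) (by omega) (by omega)
        have h6 := (abs_le.mp (ht_diff hv hu hp (show b - l ≤ b by omega))).2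
        rcases key_dich hv hu hp (show b - ((2 * l : ℕ) : ℤ) ≤ b - l by omega)
          (show b - l ≤ b by omega) with h | h
        · push_cast at h h3 h5 h6 ⊢; linarith
        · push_cast at h h3 h5 h6 ⊢; linarith
  intro l hl
  exact (nu_le_iff_ht hM1 (hp _) (hp _) _).mpr (claim G l hl (by omega))

end Crest.Agent.R128
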