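import Crest.Agent.R128.Defs

/-! Polynomial approximation of bounded analytic functions. -/

set_option autoImplicit false

noncomputable section

open MeasureTheory Set

namespace Crest.Agent.R128

theorem taylor_dslope_bound (f : ℂ → ℂ) {ϱ B : ℝ} (hϱ : 0 < ϱ)
    (hf : DifferentiableOn ℂ f (Metric.ball 0 ϱ)) (hB : ∀ w ∈ Metric.ball (0 : ℂ) ϱ, ‖f w‖ ≤ B) :
    ∀ w ∈ Metric.ball (0 : ℂ) ϱ, ‖dslope f 0 w‖ ≤ 2 * B / ϱ := by
  intro w hw
  refine Complex.norm_dslope_le_div_of_mapsTo_ball hf ?_ hw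
  intro z hz
  have h0 := hB 0 (Metric.mem_ball_self hϱ)
  have hz' := hB z hz
  rw [Metric.mem_closedBall, dist_eq_norm]
  have := norm_sub_le (f z) (f 0)
  linarith

theorem taylor_re_eq (f : ℂ → ℂ) (u : ℝ) :
    (f u).re = (f 0).re + u * (dslope f 0 u).re := by
  have h := sub_smul_dslope f 0 (u : ℂ)
  have h2 : f u = f 0 + (u : ℂ) * dslope f 0 u := by
    rw [sub_zero, smul_eq_mul] at h
    rw [h]; ring
  rw [h2]
  simp

theorem taylor_mem_ball {ϱ u : ℝ} (hu : |u| < ϱ) : (u : ℂ) ∈ Metric.ball (0 : ℂ) ϱ := by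
  rw [Metric.mem_ball, dist_zero_right, Complex.norm_real, Real.norm_eq_abs]
  exact hu

/-- Induction on `m`: `f u = f 0 + u * dslope f 0 u`, and `dslope f 0` is analytic on the ball with norm
`≤ 2B/ϱ` (Schwarz lemma `Complex.norm_dslope_le_div_of_mapsTo_ball`). For real `u`,
`(f u).re = (f 0).re + u * (dslope f 0 u).re`. -/
theorem taylor_poly (m : ℕ) (f : ℂ → ℂ) {ϱ B : ℝ} (hϱ : 0 < ϱ)
    (hf : DifferentiableOn ℂ f (Metric.ball 0 ϱ)) (hB : ∀ w ∈ Metric.ball (0 : ℂ) ϱ, ‖f w‖ ≤ B) :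
    ∃ P : Polynomial ℝ, P.natDegree ≤ m ∧
      ∀ u : ℝ, |u| < ϱ → |(f u).re - P.eval u| ≤ B * (2 * |u| / ϱ) ^ (m + 1) := by
  induction m generalizing f B with
  | zero =>
    refine ⟨Polynomial.C (f 0).re, by simp, fun u hu => ?_⟩
    have h1 := taylor_dslope_bound f hϱ hf hB u (taylor_mem_ball hu)
    have h2 : |(dslope f 0 u).re| ≤ 2 * B / ϱ := (Complex.abs_re_le_norm _).trans h1
    rw [taylor_re_eq f u, Polynomial.eval_C, add_sub_cancel_left, abs_mul]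
    calc |u| * |(dslope f 0 u).re| ≤ |u| * (2 * B / ϱ) :=
          mul_le_mul_of_nonneg_left h2 (abs_nonneg _)
      _ = B * (2 * |u| / ϱ) ^ (0 + 1) := by ring
  | succ m ih =>
    have hd : DifferentiableOn ℂ (dslope f 0) (Metric.ball 0 ϱ) :=
      (Complex.differentiableOn_dslope
        (Metric.isOpen_ball.mem_nhds (Metric.mem_ball_self hϱ))).mpr hf
    obtain ⟨P, hP, hPu⟩ := ih (dslope f 0) hd (taylor_dslope_bound f hϱ hf hB)
    refine ⟨Polynomial.C (f 0).re + Polynomial.X * P, ?_, fun u hu => ?_⟩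
    · refine (Polynomial.natDegree_add_le _ _).trans (max_le (by simp) ?_)
      refine Polynomial.natDegree_mul_le.trans ?_
      have := Polynomial.natDegree_X_le (R := ℝ)
      omega
    · have h1 := hPu u hu
      have h2 : (f u).re - Polynomial.eval u (Polynomial.C (f 0).re + Polynomial.X * P)
          = u * ((dslope f 0 u).re - P.eval u) := by
        rw [taylor_re_eq f u]
        simp only [Polynomial.eval_add, Polynomial.eval_C, Polynomial.eval_mul, Polynomial.eval_X]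
        ring
      rw [h2, abs_mul]
      calc |u| * |(dslope f 0 u).re - P.eval u|
          ≤ |u| * (2 * B / ϱ * (2 * |u| / ϱ) ^ (m + 1)) :=
            mul_le_mul_of_nonneg_left h1 (abs_nonneg _)
        _ = B * (2 * |u| / ϱ) ^ (m + 1 + 1) := by ring

theorem pa_of_analytic (m : ℕ) (f : ℂ → ℂ) {ϱ B : ℝ} (hϱ : 2 < ϱ)
    (hf : DifferentiableOn ℂ f (Metric.ball 0 ϱ)) (hB : ∀ w ∈ Metric.ball (0 : ℂ) ϱ, ‖f w‖ ≤ B)
    (g : ℝ → ℝ) (hg : ∀ u ∈ Icc (-2 : ℝ) 2, g u = (f u).re) :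
    PA m g (B * (4 / ϱ) ^ (m + 1)) := by
  have hϱ0 : 0 < ϱ := by linarith
  obtain ⟨P, hP, hPu⟩ := taylor_poly m f hϱ0 hf hB
  refine ⟨P, hP, fun u hu => ?_⟩
  have hu2 : |u| ≤ 2 := abs_le.mpr ⟨hu.1, hu.2⟩
  have hB0 : 0 ≤ B := (norm_nonneg _).trans (hB 0 (Metric.mem_ball_self hϱ0))
  rw [hg u hu]
  refine (hPu u (by linarith)).trans ?_
  refine mul_le_mul_of_nonneg_left ?_ hB0
  refine pow_le_pow_left₀ (by positivity) ?_ _
  exact div_le_div_of_nonneg_right (by linarith) hϱ0.le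

theorem PA.mono {m : ℕ} {f : ℝ → ℝ} {ε ε' : ℝ} (h : PA m f ε) (hε : ε ≤ ε') : PA m f ε' := by
  obtain ⟨P, hP, hPu⟩ := h
  exact ⟨P, hP, fun u hu => (hPu u hu).trans hε⟩

theorem PA.congr {m : ℕ} {f g : ℝ → ℝ} {ε : ℝ} (h : PA m f ε)
    (hfg : ∀ u ∈ Icc (-2 : ℝ) 2, g u = f u) : PA m g ε := by
  obtain ⟨P, hP, hPu⟩ := h
  exact ⟨P, hP, fun u hu => by rw [hfg u hu]; exact hPu u hu⟩

theorem PA.add {m : ℕ} {f g : ℝ → ℝ} {ε ε' : ℝ} (h : PA m f ε) (h' : PA m g ε') :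
    PA m (fun u => f u + g u) (ε + ε') := by
  obtain ⟨P, hP, hPu⟩ := h
  obtain ⟨Q, hQ, hQu⟩ := h'
  refine ⟨P + Q, (Polynomial.natDegree_add_le _ _).trans (max_le hP hQ), fun u hu => ?_⟩
  have h1 := hPu u hu
  have h2 := hQu u hu
  have h3 : f u + g u - (P + Q).eval u = (f u - P.eval u) + (g u - Q.eval u) := by
    rw [Polynomial.eval_add]; ring
  simp only
  rw [h3]
  exact (abs_add_le _ _).trans (add_le_add h1 h2)

theorem PA.const_mul {m : ℕ} {f : ℝ → ℝ} {ε : ℝ} (h : PA m f ε) (c : ℝ) :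
    PA m (fun u => c * f u) (|c| * ε) := by
  obtain ⟨P, hP, hPu⟩ := h
  refine ⟨Polynomial.C c * P, (Polynomial.natDegree_C_mul_le _ _).trans hP, fun u hu => ?_⟩
  have h3 : c * f u - (Polynomial.C c * P).eval u = c * (f u - P.eval u) := by
    rw [Polynomial.eval_mul, Polynomial.eval_C]; ring
  simp only
  rw [h3, abs_mul]
  exact mul_le_mul_of_nonneg_left (hPu u hu) (abs_nonneg _)

theorem PA.const (m : ℕ) (c : ℝ) : PA m (fun _ => c) 0 := by
  exact ⟨Polynomial.C c, by simp, fun u _ => by simp⟩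

theorem PA.sum {ι : Type*} {m : ℕ} (I : Finset ι) (f : ι → ℝ → ℝ) (ε : ι → ℝ)
    (h : ∀ i ∈ I, PA m (f i) (ε i)) : PA m (fun u => ∑ i ∈ I, f i u) (∑ i ∈ I, ε i) := by
  classical
  induction I using Finset.induction_on with
  | empty => simpa using PA.const m 0
  | insert a s ha ih =>
    simp only [Finset.sum_insert ha]
    exact (h a (Finset.mem_insert_self _ _)).add
      (ih fun i hi => h i (Finset.mem_insert_of_mem hi))

end Crest.Agent.R128
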