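import Crest.Agent.R128.CDist
import Crest.Agent.R128.Taylor

/-! The estimates for one side of a level. -/

set_option autoImplicit false

noncomputable section

open MeasureTheory Set

namespace Crest.Agent.R128

/-- The choice of the constants. -/
theorem side_consts {ε₀ : ℝ} (hε : 0 < ε₀) : ∃ M₀ : ℝ, ∀ M : ℝ, M₀ ≤ M →
    (2 : ℝ) ^ 1000 ≤ M ∧ 5 ≤ M ∧ M ^ (-(1 / 10 : ℝ)) ≤ 1 / 4 ∧ M ^ (-(1 / 10 : ℝ)) ≤ ε₀ / 32 ∧
      M ^ (-(49 / 50 : ℝ)) ≤ M ^ (-(1 / 10 : ℝ)) ∧ 3 ≤ M ^ (4 / 5 : ℝ) ∧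
      M ≤ (M ^ (4 / 5 : ℝ)) ^ 2 * M ^ (-(1 / 10 : ℝ)) := by
  have ht := tendsto_rpow_neg_atTop (y := (1 / 10 : ℝ)) (by norm_num)
  have h1 := ht.eventually (ge_mem_nhds (show (0 : ℝ) < 1 / 4 by norm_num))
  have h2 := ht.eventually (ge_mem_nhds (show (0 : ℝ) < ε₀ / 32 by positivity))
  have h3 := (tendsto_rpow_atTop (y := (4 / 5 : ℝ)) (by norm_num)).eventually_ge_atTop 3
  obtain ⟨M₀, h⟩ := Filter.eventually_atTop.1
    (h1.and (h2.and (h3.and ((Filter.eventually_ge_atTop ((2 : ℝ) ^ 1000)).and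
      (Filter.eventually_ge_atTop (5 : ℝ))))))
  refine ⟨M₀, fun M hM => ?_⟩
  obtain ⟨k1, k2, k3, k4, k5⟩ := h M hM
  have hM1 : (1 : ℝ) ≤ M := le_trans (by norm_num) k5
  have hM0 : (0 : ℝ) < M := lt_of_lt_of_le one_pos hM1
  refine ⟨k4, k5, k1, k2, Real.rpow_le_rpow_of_exponent_le hM1 (by norm_num), k3, ?_⟩
  rw [← Real.rpow_natCast, ← Real.rpow_mul hM0.le, ← Real.rpow_add hM0]
  conv_lhs => rw [← Real.rpow_one M]
  exact Real.rpow_le_rpow_of_exponent_le hM1 (by norm_num)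

/-- Let `ν = nuN χ N = |χ (N+1)|` (`PlM.abs_succ`), `b = w χ(N+1)`, `β = |b| = |w| ν ∈ (0, 1]`.
All estimates come from `cdist` with `S = N` (valid for `‖τ‖ ν ≤ M^(4/5)`, `τ = w u`).
`near`, `eps`: real `u`.  `aff`: `pa_of_analytic 1` for `u ↦ w cchi (t₀ + w u) (N+1)` on the disc of radius
`M^(4/5)/β`, bound `2β`; error `≤ 32 M^(-8/5)`.  `cub`: `pa_of_analytic 3` on the disc of radius `3/β`, where
`‖cX (N+1) - rX (N+1)‖ ≤ 6`, so `‖cvee‖ ≤ 2 + K e^(12π)` (`norm_cvee_le`) and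
`‖D‖ ≤ 2β (2β (2 + K e^(12π)) + β)`; the error is `≤ C₀ β⁶ K` with `C₀ = 40 e^(12π)`, say. -/
theorem side_ok : ∃ C₀ > 0, ∀ ε₀ > 0, ∃ M₀ : ℝ, ∀ (k a t₀ w : ℝ) (N : ℕ), M₀ ≤ Mk k →
    PlM (Mk k) (rchi k a t₀) N → w ≠ 0 → |w| * nuN (rchi k a t₀) N ≤ 1 →
      (sideOf k a t₀ N w).Ok (2 * Real.pi * k) C₀ ε₀ (w * rchi k a t₀ (N + 1)) := by
  refine ⟨50 * Real.exp (12 * Real.pi), by positivity, fun ε₀ hε => ?_⟩
  obtain ⟨M₀, hM₀⟩ := side_consts hε
  refine ⟨M₀, fun k a t₀ w N hM hP hw hβ1 => ?_⟩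
  obtain ⟨c1, c2, c3, c4, c5, c6, c7⟩ := hM₀ _ hM
  have hcd := cdist (a := a) (t₀ := t₀) c1 hP le_rfl
  clear c1 hM₀
  have hK1 : 1 ≤ 2 * Real.pi * k := by unfold Mk at c2; linarith
  have hKM : 2 * Real.pi * k ≤ Mk k := by unfold Mk; linarith
  have hk : 0 ≤ k := by
    by_contra h
    have : 2 * Real.pi * k < 0 := mul_neg_of_pos_of_neg (by positivity) (not_le.1 h)
    linarith
  obtain ⟨e1, e0⟩ := hP.abs_succ hk
  have hν := nuN_rchi_pos k a t₀ N
  have hη0 : 0 < Mk k ^ (-(1 / 10 : ℝ)) := Real.rpow_pos_of_pos (by linarith) _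
  have key : ∀ u : ℂ, ‖u‖ * (|w| * nuN (rchi k a t₀) N) ≤ Mk k ^ (4 / 5 : ℝ) →
      ‖cchi k a (t₀ + w * u) N - (rchi k a t₀ N : ℝ)‖ ≤
          Mk k ^ (-(1 / 10 : ℝ)) * nuN (rchi k a t₀) N ∧
        ‖cchi k a (t₀ + w * u) (N + 1) - (rchi k a t₀ (N + 1) : ℝ)‖ ≤
          Mk k ^ (-(1 / 10 : ℝ)) * nuN (rchi k a t₀) N := by
    intro u hu
    have := hcd (w * u) (by
      rw [sub_self, zero_add, mul_one, norm_mul, Complex.norm_real, Real.norm_eq_abs]
      linarith)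
    exact ⟨this.1, this.2.1⟩
  clear hcd hP
  generalize Mk k ^ (-(49 / 50 : ℝ)) = η' at *
  generalize Mk k ^ (-(1 / 10 : ℝ)) = η at *
  generalize Mk k ^ (4 / 5 : ℝ) = R at *
  generalize Mk k = M at *
  set ν := nuN (rchi k a t₀) N with hνdef
  have hw0 : 0 < |w| := abs_pos.2 hw
  have hb : |w * rchi k a t₀ (N + 1)| = |w| * ν := by rw [abs_mul, e1]
  set β := |w| * ν with hβ
  have hβ0 : 0 < β := by positivity
  have hην : η * ν ≤ ν / 4 := by nlinarith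
  have e0' : |rchi k a t₀ N| ≤ η * ν := e0.trans (mul_le_mul_of_nonneg_right c5 hν.le)
  -- complex bounds
  have kc0 : ∀ u : ℂ, ‖u‖ * β ≤ R → ‖cchi k a (t₀ + w * u) N‖ ≤ 2 * (η * ν) := fun u hu => by
    have h1 := norm_le_norm_sub_add (cchi k a (t₀ + w * u) N) (rchi k a t₀ N : ℝ)
    rw [Complex.norm_real, Real.norm_eq_abs] at h1
    linarith [(key u hu).1]
  have kc1 : ∀ u : ℂ, ‖u‖ * β ≤ R → ‖(w : ℂ) * cchi k a (t₀ + w * u) (N + 1)‖ ≤ 2 * β :=
    fun u hu => by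
    have h1 := norm_le_norm_sub_add (cchi k a (t₀ + w * u) (N + 1)) (rchi k a t₀ (N + 1) : ℝ)
    rw [Complex.norm_real, Real.norm_eq_abs, e1] at h1
    rw [norm_mul, Complex.norm_real, Real.norm_eq_abs]
    have : ‖cchi k a (t₀ + w * u) (N + 1)‖ ≤ 2 * ν := by linarith [(key u hu).2]
    calc _ ≤ |w| * (2 * ν) := mul_le_mul_of_nonneg_left this hw0.le
      _ = _ := by rw [hβ]; ring
  -- real points
  have hre : ∀ u ∈ Icc (-2 : ℝ) 2, ‖(u : ℂ)‖ * β ≤ R := fun u hu => by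
    rw [Complex.norm_real, Real.norm_eq_abs]
    have : |u| ≤ 2 := abs_le.2 hu
    nlinarith [abs_nonneg u]
  have hcast : ∀ (u : ℝ) (n : ℕ),
      cchi k a (t₀ + w * u) n = (rchi k a (t₀ + w * u) n : ℝ) := fun u n => by
    rw [← cchi_ofReal]; push_cast; rfl
  have kr1 : ∀ u ∈ Icc (-2 : ℝ) 2,
      |rchi k a (t₀ + w * u) (N + 1) - rchi k a t₀ (N + 1)| ≤ η * ν := fun u hu => by
    have := (key u (hre u hu)).2
    rwa [hcast, ← Complex.ofReal_sub, Complex.norm_real, Real.norm_eq_abs] at this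
  have kr1' : ∀ u ∈ Icc (-2 : ℝ) 2, ν / 2 ≤ |rchi k a (t₀ + w * u) (N + 1)| := fun u hu => by
    have h1 := abs_sub_abs_le_abs_sub (rchi k a t₀ (N + 1)) (rchi k a (t₀ + w * u) (N + 1))
    rw [abs_sub_comm, e1] at h1
    linarith [kr1 u hu]
  have kr0 : ∀ u ∈ Icc (-2 : ℝ) 2, |rchi k a (t₀ + w * u) N| ≤ 2 * (η * ν) := fun u hu => by
    have := kc0 u (hre u hu)
    rwa [hcast, Complex.norm_real, Real.norm_eq_abs] at this
  have hlin : Differentiable ℂ fun u : ℂ => (t₀ : ℂ) + w * u := by fun_prop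
  have hdc : ∀ n, Differentiable ℂ fun u : ℂ => cchi k a (t₀ + w * u) n := fun n =>
    (differentiable_cchi k a n).comp hlin
  have hball : ∀ {r : ℝ} {u : ℂ}, u ∈ Metric.ball (0 : ℂ) (r / β) → ‖u‖ * β ≤ r := fun hu => by
    rw [mem_ball_zero_iff, lt_div_iff₀ hβ0] at hu
    exact hu.le
  refine ⟨fun u hu => ?_, fun u hu => ?_, fun u hu => ?_, ?_, fun u hu => ?_, ?_⟩
  · have h1 : HasDerivAt (fun u : ℝ => t₀ + w * u) w u := by
      simpa using ((hasDerivAt_id u).const_mul w).const_add t₀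
    have := (hasDerivAt_rX k a (t₀ + w * u) (N + 1)).comp u h1
    rw [mul_comm] at this
    exact this
  · show |w * rchi k a (t₀ + w * u) (N + 1) - w * rchi k a t₀ (N + 1)| ≤ _
    rw [← mul_sub, abs_mul, hb]
    calc _ ≤ |w| * (η * ν) := mul_le_mul_of_nonneg_left (kr1 u hu) hw0.le
      _ = η * β := by rw [hβ]; ring
      _ ≤ ε₀ * β := mul_le_mul_of_nonneg_right (by linarith) hβ0.le
  · show |rchi k a (t₀ + w * u) N / rchi k a (t₀ + w * u) (N + 1)| ≤ _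
    have h1 := kr1' u hu
    rw [abs_div, div_le_iff₀ (by linarith)]
    have h2 : η * ν ≤ ε₀ / 32 * ν := mul_le_mul_of_nonneg_right c4 hν.le
    have h3 : ε₀ * (ν / 2) ≤ ε₀ * |rchi k a (t₀ + w * u) (N + 1)| :=
      mul_le_mul_of_nonneg_left h1 hε.le
    have h4 : 0 ≤ ε₀ * ν := by positivity
    linarith [kr0 u hu]
  · have hϱ : 2 < R / β := by rw [lt_div_iff₀ hβ0]; linarith
    refine (pa_of_analytic 1 (fun u => (w : ℂ) * cchi k a (t₀ + w * u) (N + 1)) hϱ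
      ((hdc (N + 1)).const_mul _).differentiableOn (fun u hu => kc1 u (hball hu)) _
      (fun u hu => ?_)).mono ?_
    · show w * rchi k a (t₀ + w * u) (N + 1) = _
      rw [hcast, ← Complex.ofReal_mul, Complex.ofReal_re]
    · have hR : 0 < R := by linarith
      have h1 : 2 * β * (4 / (R / β)) ^ (1 + 1) = 32 * β ^ 3 / R ^ 2 := by
        rw [one_add_one_eq_two]; field_simp; ring
      rw [h1, div_le_div_iff₀ (by positivity) (by linarith)]
      have h2 : β ^ 3 ≤ 1 := pow_le_one₀ hβ0.le hβ1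
      have h3 : R ^ 2 * η ≤ R ^ 2 * (ε₀ / 32) := mul_le_mul_of_nonneg_left c4 (by positivity)
      have h4 : β ^ 3 * (2 * Real.pi * k) ≤ 1 * (2 * Real.pi * k) :=
        mul_le_mul_of_nonneg_right h2 (by linarith)
      linarith
  · have h1 := kr1' u hu
    have h2 : rchi k a (t₀ + w * u) (N + 1) ≠ 0 := abs_pos.1 (by linarith)
    show w ^ 2 * rchi k a (t₀ + w * u) (N + 1) * rchi k a (t₀ + w * u) (N + 2) =
      (w * rchi k a (t₀ + w * u) (N + 1)) ^ 2 *
        (2 + 2 * Real.pi * k * Real.cos (2 * Real.pi * rX k a (t₀ + w * u) (N + 1)) -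
          rchi k a (t₀ + w * u) N / rchi k a (t₀ + w * u) (N + 1))
    rw [rchi_rec, vee]
    field_simp
  · have hϱ : 2 < 3 / β := by rw [lt_div_iff₀ hβ0]; linarith
    set E := Real.exp (12 * Real.pi) with hE
    have hE1 : 1 ≤ E := Real.one_le_exp (by positivity)
    set K := 2 * Real.pi * k with hK
    have hKE : 1 ≤ K * E := by nlinarith
    have hX : ∀ u ∈ Metric.ball (0 : ℂ) (3 / β),
        ‖cX k a (t₀ + w * u) (N + 1) - (rX k a t₀ (N + 1) : ℝ)‖ ≤ 6 := fun u hu => by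
      have hd : ∀ x ∈ Metric.ball (0 : ℂ) (3 / β),
          HasDerivWithinAt (fun u : ℂ => cX k a (t₀ + w * u) (N + 1))
            ((w : ℂ) * cchi k a (t₀ + w * x) (N + 1)) (Metric.ball (0 : ℂ) (3 / β)) x :=
        fun x _ => by
          have h1 : HasDerivAt (fun u : ℂ => (t₀ : ℂ) + w * u) w x := by
            simpa using ((hasDerivAt_id x).const_mul (w : ℂ)).const_add (t₀ : ℂ)
          have := (hasDerivAt_cX k a (t₀ + w * x) (N + 1)).comp x h1
          rw [mul_comm] at this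
          exact this.hasDerivWithinAt
      have := (convex_ball (0 : ℂ) (3 / β)).norm_image_sub_le_of_norm_hasDerivWithin_le hd
        (fun x hx => kc1 x ((hball hx).trans c6)) (Metric.mem_ball_self (by linarith)) hu
      simp only [mul_zero, add_zero, sub_zero, cX_ofReal] at this
      have h2 := hball hu
      linarith
    have hV : ∀ u ∈ Metric.ball (0 : ℂ) (3 / β),
        ‖cvee k (cX k a (t₀ + w * u) (N + 1))‖ ≤ 2 + K * E := fun u hu => by
      have := norm_cvee_le hk (rX k a t₀ (N + 1))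
        (cX k a (t₀ + w * u) (N + 1) - (rX k a t₀ (N + 1) : ℝ))
      rw [add_sub_cancel] at this
      refine this.trans ?_
      have h1 : Real.exp (2 * Real.pi * ‖cX k a (t₀ + w * u) (N + 1) - (rX k a t₀ (N + 1) : ℝ)‖)
          ≤ E := Real.exp_le_exp.2 (by nlinarith [hX u hu, Real.pi_pos])
      have := mul_le_mul_of_nonneg_left h1 (show 0 ≤ K by linarith)
      linarith
    refine (pa_of_analytic 3 (fun u => ((w : ℂ) * cchi k a (t₀ + w * u) (N + 1)) *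
        (w * cchi k a (t₀ + w * u) (N + 2))) (B := 14 * (K * E) * β ^ 2) hϱ
      (((hdc (N + 1)).const_mul _).mul ((hdc (N + 2)).const_mul _)).differentiableOn
      (fun u hu => ?_) _ (fun u hu => ?_)).mono ?_
    · have hu' := (hball hu).trans c6
      have h1 := kc1 u hu'
      have h2 : ‖(w : ℂ) * cchi k a (t₀ + w * u) N‖ ≤ β := by
        rw [norm_mul, Complex.norm_real, Real.norm_eq_abs, hβ]
        exact mul_le_mul_of_nonneg_left (by linarith [kc0 u hu']) hw0.le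
      have h3 : ‖(w : ℂ) * cchi k a (t₀ + w * u) (N + 2)‖ ≤ (2 + K * E) * (2 * β) + β := by
        rw [cchi_rec, mul_sub, mul_left_comm]
        refine (norm_sub_le _ _).trans (add_le_add ?_ h2)
        rw [norm_mul]
        exact mul_le_mul (hV u hu) h1 (norm_nonneg _) (by linarith)
      rw [norm_mul]
      refine (mul_le_mul h1 h3 (norm_nonneg _) (by positivity)).trans ?_
      have h4 : 1 * β ^ 2 ≤ K * E * β ^ 2 := mul_le_mul_of_nonneg_right hKE (by positivity)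
      nlinarith
    · show w ^ 2 * rchi k a (t₀ + w * u) (N + 1) * rchi k a (t₀ + w * u) (N + 2) = _
      rw [hcast, hcast, ← Complex.ofReal_mul, ← Complex.ofReal_mul, ← Complex.ofReal_mul,
        Complex.ofReal_re]
      ring
    · rw [hb]
      have h1 : 14 * (K * E) * β ^ 2 * (4 / (3 / β)) ^ (3 + 1) = 3584 / 81 * (K * E * β ^ 6) := by
        field_simp; ring
      have h2 : 0 ≤ K * E * β ^ 6 := by positivity
      rw [h1]
      linarith

end Crest.Agent.R128
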