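import Crest.Agent.R128.CDist
import Crest.Agent.R128.Taylor

/-! The smooth part: `ρ_{N+1} = ξ_{N+1}/χ_{N+1}` is almost a quintic polynomial. -/

set_option autoImplicit false
set_option exponentiation.threshold 1100

noncomputable section

open MeasureTheory Set

namespace Crest.Agent.R128

/-- For two consecutive cuts choose an entry in each; the difference of the quotients `ξ/χ` is a
Wronskian (`0`, `±1` or `± v`) divided by the two entries. -/
theorem rho_diff (k a : ℝ) (t : ℂ) (s i i' : ℕ) (hi : i = s ∨ i = s + 1) (hi' : i' = s + 1 ∨ i' = s + 2)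
    (h : cchi k a t i ≠ 0) (h' : cchi k a t i' ≠ 0) :
    ‖cxi k a t i' / cchi k a t i' - cxi k a t i / cchi k a t i‖ ≤
      max 1 ‖cvee k (cX k a t (s + 1))‖ / (‖cchi k a t i‖ * ‖cchi k a t i'‖) := by
  rw [div_sub_div _ _ h' h, norm_div, norm_mul, mul_comm ‖cchi k a t i'‖]
  refine div_le_div_of_nonneg_right ?_ (by positivity)
  have w0 := cwronsk k a t s
  have w1 := cwronsk k a t (s + 1)
  rcases hi with rfl | rfl <;> rcases hi' with rfl | rfl
  · have : cxi k a t (i + 1) * cchi k a t i - cchi k a t (i + 1) * cxi k a t i = -1 := by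
      linear_combination -w0
    rw [this]; simp
  · have : cxi k a t (i + 2) * cchi k a t i - cchi k a t (i + 2) * cxi k a t i =
        -cvee k (cX k a t (i + 1)) := by
      rw [cxi_rec, cchi_rec]
      linear_combination -cvee k (cX k a t (i + 1)) * w0
    rw [this]; simp
  · have : cxi k a t (s + 1) * cchi k a t (s + 1) - cchi k a t (s + 1) * cxi k a t (s + 1) = 0 := by
      ring
    rw [this]; simp
  · have : cxi k a t (s + 2) * cchi k a t (s + 1) - cchi k a t (s + 2) * cxi k a t (s + 1) = -1 := by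
      linear_combination -w1
    rw [this]; simp

/-- the entry carrying the norm at cut `s` -/
def siderhoN (u : ℕ → ℝ) (s : ℕ) : ℕ := if |u s| ≤ |u (s + 1)| then s + 1 else s

theorem siderhoN_cases (u : ℕ → ℝ) (s : ℕ) : siderhoN u s = s ∨ siderhoN u s = s + 1 := by
  unfold siderhoN; split_ifs <;> simp

theorem abs_siderhoN (u : ℕ → ℝ) (s : ℕ) : |u (siderhoN u s)| = nuN u s := by
  unfold siderhoN nuN
  split_ifs with h
  · rw [max_eq_right h]
  · rw [max_eq_left (not_le.1 h).le]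

theorem siderho_geom {q : ℝ} (h0 : 0 ≤ q) (h : q ≤ 1 / 2) (N : ℕ) :
    ∑ S ∈ Finset.range N, q ^ (N - S) ≤ 2 * q := by
  induction N with
  | zero => simpa using h0
  | succ N ih =>
    rw [Finset.sum_range_succ, Nat.add_sub_cancel_left, pow_one,
      Finset.sum_congr rfl (g := fun S => q * q ^ (N - S)) (fun S hS => by
        rw [← pow_succ', Nat.sub_add_comm (Finset.mem_range.1 hS).le]), ← Finset.mul_sum]
    nlinarith

theorem siderho_low {k a t₀ : ℝ} (hM : (2 : ℝ) ^ 1000 ≤ Mk k) {N : ℕ}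
    (hP : PlM (Mk k) (rchi k a t₀) N) {S : ℕ} (hS : S ≤ N) (τ : ℂ)
    (hτ : ‖τ‖ * nuN (rchi k a t₀) N ≤ Mk k ^ (4 / 5 * ((N : ℝ) - S + 1))) :
    nuN (rchi k a t₀) S / 2 ≤ ‖cchi k a (t₀ + τ) (siderhoN (rchi k a t₀) S)‖ := by
  obtain ⟨h1, h2, -⟩ := cdist hM hP hS τ hτ
  have h3 : Mk k ^ (-(1 / 10 : ℝ)) ≤ 1 / 2 := by
    have := big_rpow hM (x := 1 / 10) 1 (by norm_num)
    rw [Real.rpow_neg (le_trans (by positivity) hM), one_div (2 : ℝ)]
    exact inv_anti₀ (by norm_num) (by simpa using this)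
  have h4 : ‖cchi k a (t₀ + τ) (siderhoN (rchi k a t₀) S) -
      (rchi k a t₀ (siderhoN (rchi k a t₀) S) : ℝ)‖ ≤ 1 / 2 * nuN (rchi k a t₀) S := by
    refine le_trans ?_ (mul_le_mul_of_nonneg_right h3 (nuN_nonneg _ _))
    rcases siderhoN_cases (rchi k a t₀) S with e | e <;> rw [e] <;> assumption
  have h5 := norm_sub_norm_le ((rchi k a t₀ (siderhoN (rchi k a t₀) S) : ℝ) : ℂ)
    (cchi k a (t₀ + τ) (siderhoN (rchi k a t₀) S))
  rw [norm_sub_rev, Complex.norm_real, Real.norm_eq_abs, abs_siderhoN] at h5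
  linarith

theorem siderho_term {k a t₀ w m : ℝ} (hM : (2 : ℝ) ^ 1000 ≤ Mk k) (hk : 0 ≤ k) {N : ℕ}
    (hP : PlM (Mk k) (rchi k a t₀) N) (hw : w ≠ 0) (hβ : |w| * nuN (rchi k a t₀) N ≤ 1)
    (hm2 : 2 ≤ m) (hm5 : m ^ 5 = Mk k) {S : ℕ} (hS : S < N) :
    PA 5 (fun u => (rxi k a (t₀ + w * u) (siderhoN (rchi k a t₀) (S + 1)) /
        rchi k a (t₀ + w * u) (siderhoN (rchi k a t₀) (S + 1)) -
      rxi k a (t₀ + w * u) (siderhoN (rchi k a t₀) S) /
        rchi k a (t₀ + w * u) (siderhoN (rchi k a t₀) S)) / w ^ 2)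
      (32768 * ((m ^ 14)⁻¹) ^ (N - S)) := by
  obtain ⟨j, rfl⟩ : ∃ j, N = S + 1 + j := ⟨N - (S + 1), by omega⟩
  have hmp : 0 < m := by linarith
  have hm1 : 1 ≤ m := by linarith
  set ν := nuN (rchi k a t₀) with hν
  have hνp : ∀ s, 0 < ν s := nuN_rchi_pos k a t₀
  set β := |w| * ν (S + 1 + j) with hβd
  have hwp : 0 < |w| := abs_pos.2 hw
  have hβp : 0 < β := mul_pos hwp (hνp _)
  set i := siderhoN (rchi k a t₀) S with hi
  set i' := siderhoN (rchi k a t₀) (S + 1) with hi'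
  have hrp : ∀ n : ℕ, Mk k ^ (4 / 5 * (n : ℝ)) = m ^ (4 * n) := fun n => by
    rw [← hm5, ← Real.rpow_natCast m 5, ← Real.rpow_mul hmp.le, ← Real.rpow_natCast]
    congr 1
    push_cast
    ring
  have hτ : ∀ z ∈ Metric.ball (0 : ℂ) (m ^ (4 * (j + 1)) / β),
      ‖(w : ℂ) * z‖ * ν (S + 1 + j) ≤ m ^ (4 * (j + 1)) := fun z hz => by
    rw [mem_ball_zero_iff, lt_div_iff₀ hβp] at hz
    rw [norm_mul, Complex.norm_real, Real.norm_eq_abs]
    refine le_trans (le_of_eq ?_) hz.le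
    rw [hβd]; ring
  have hτ1 : ∀ z ∈ Metric.ball (0 : ℂ) (m ^ (4 * (j + 1)) / β),
      ‖(w : ℂ) * z‖ * ν (S + 1 + j) ≤
        Mk k ^ (4 / 5 * (((S + 1 + j : ℕ) : ℝ) - (S + 1 : ℕ) + 1)) := fun z hz => by
    refine (hτ z hz).trans (le_of_eq ?_)
    rw [← hrp]; congr 1; push_cast; ring
  have hτ0 : ∀ z ∈ Metric.ball (0 : ℂ) (m ^ (4 * (j + 1)) / β),
      ‖(w : ℂ) * z‖ * ν (S + 1 + j) ≤
        Mk k ^ (4 / 5 * (((S + 1 + j : ℕ) : ℝ) - (S : ℕ) + 1)) := fun z hz => by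
    refine (hτ z hz).trans (le_trans (pow_le_pow_right₀ hm1 (by omega : 4 * (j + 1) ≤ 4 * (j + 2)))
      (le_of_eq ?_))
    rw [← hrp]; congr 1; push_cast; ring
  have hl0 : ∀ z ∈ Metric.ball (0 : ℂ) (m ^ (4 * (j + 1)) / β),
      ν S / 2 ≤ ‖cchi k a (t₀ + w * z) i‖ := fun z hz =>
    siderho_low hM hP (by omega) _ (hτ0 z hz)
  have hl1 : ∀ z ∈ Metric.ball (0 : ℂ) (m ^ (4 * (j + 1)) / β),
      ν (S + 1) / 2 ≤ ‖cchi k a (t₀ + w * z) i'‖ := fun z hz =>
    siderho_low hM hP (by omega) _ (hτ1 z hz)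
  have hn0 : ∀ z ∈ Metric.ball (0 : ℂ) (m ^ (4 * (j + 1)) / β),
      cchi k a (t₀ + w * z) i ≠ 0 := fun z hz =>
    norm_pos_iff.1 ((half_pos (hνp S)).trans_le (hl0 z hz))
  have hn1 : ∀ z ∈ Metric.ball (0 : ℂ) (m ^ (4 * (j + 1)) / β),
      cchi k a (t₀ + w * z) i' ≠ 0 := fun z hz =>
    norm_pos_iff.1 ((half_pos (hνp _)).trans_le (hl1 z hz))
  have hlin : Differentiable ℂ fun z : ℂ => (t₀ : ℂ) + w * z := by fun_prop
  have hϱ : 2 < m ^ (4 * (j + 1)) / β := by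
    rw [lt_div_iff₀ hβp]
    have h1 : (2 : ℝ) ^ 4 ≤ m ^ 4 := pow_le_pow_left₀ (by norm_num) hm2 4
    have h2 : m ^ 4 ≤ m ^ (4 * (j + 1)) := pow_le_pow_right₀ hm1 (by omega)
    linarith
  have hM1 : 1 ≤ Mk k := hm5 ▸ one_le_pow₀ hm1
  have hb0 : ν (S + 1 + j) ≤ m ^ (5 * (j + 1)) * ν S := by
    have := nuN_rchi_le hk a t₀ (s := S) (s' := S + 1 + j) (by omega)
    rwa [show S + 1 + j - S = j + 1 by omega, ← hm5, ← pow_mul] at this
  have hb1 : ν (S + 1 + j) ≤ m ^ (5 * j) * ν (S + 1) := by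
    have := nuN_rchi_le hk a t₀ (s := S + 1) (s' := S + 1 + j) (by omega)
    rwa [show S + 1 + j - (S + 1) = j by omega, ← hm5, ← pow_mul] at this
  have key := pa_of_analytic 5 (fun z : ℂ => (cxi k a (t₀ + w * z) i' / cchi k a (t₀ + w * z) i' -
      cxi k a (t₀ + w * z) i / cchi k a (t₀ + w * z) i) / (w : ℂ) ^ 2)
    (B := 8 * m ^ (10 * (j + 1)) / β ^ 2) hϱ
    (DifferentiableOn.div_const (DifferentiableOn.sub
      ((((differentiable_cxi k a i').comp hlin).differentiableOn).div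
        (((differentiable_cchi k a i').comp hlin).differentiableOn) hn1)
      ((((differentiable_cxi k a i).comp hlin).differentiableOn).div
        (((differentiable_cchi k a i).comp hlin).differentiableOn) hn0)) _)
    (fun z hz => by
      have h1 := rho_diff k a (t₀ + w * z) S i i' (siderhoN_cases _ _) (siderhoN_cases _ _)
        (hn0 z hz) (hn1 z hz)
      have h2 : max 1 ‖cvee k (cX k a (t₀ + w * z) (S + 1))‖ ≤ 2 * m ^ 5 := by
        rw [hm5]
        exact max_le (by linarith) (cdist hM hP (by omega) _ (hτ1 z hz)).2.2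
      have h3 : max 1 ‖cvee k (cX k a (t₀ + w * z) (S + 1))‖ /
          (‖cchi k a (t₀ + w * z) i‖ * ‖cchi k a (t₀ + w * z) i'‖) ≤
          2 * m ^ 5 / (ν S / 2 * (ν (S + 1) / 2)) := by
        have := hνp S
        have := hνp (S + 1)
        gcongr
        · exact hl0 z hz
        · exact hl1 z hz
      rw [norm_div, norm_pow, Complex.norm_real, Real.norm_eq_abs, div_le_iff₀ (by positivity)]
      refine h1.trans (h3.trans ?_)
      have p0 := hνp S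
      have p1 := hνp (S + 1)
      have p2 := hνp (S + 1 + j)
      have h4 : ν (S + 1 + j) * ν (S + 1 + j) ≤ m ^ (5 * (j + 1)) * ν S * (m ^ (5 * j) * ν (S + 1)) :=
        mul_le_mul hb0 hb1 p2.le (by positivity)
      have h5 : 8 * m ^ (10 * (j + 1)) / β ^ 2 * |w| ^ 2 =
          8 * m ^ (10 * (j + 1)) / (ν (S + 1 + j) * ν (S + 1 + j)) := by
        rw [hβd]; field_simp
      rw [h5, div_le_div_iff₀ (by positivity) (by positivity)]
      calc 2 * m ^ 5 * (ν (S + 1 + j) * ν (S + 1 + j))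
          ≤ 2 * m ^ 5 * (m ^ (5 * (j + 1)) * ν S * (m ^ (5 * j) * ν (S + 1))) := by gcongr
        _ = _ := by ring)
    (fun u => (rxi k a (t₀ + w * u) i' / rchi k a (t₀ + w * u) i' -
      rxi k a (t₀ + w * u) i / rchi k a (t₀ + w * u) i) / w ^ 2)
    (fun u _ => by
      have e : (t₀ : ℂ) + w * u = ((t₀ + w * u : ℝ) : ℂ) := by push_cast; ring
      simp only [e, cxi_ofReal, cchi_ofReal]
      norm_cast)
  refine key.mono ?_
  rw [show S + 1 + j - S = j + 1 by omega]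
  have h6 : 8 * m ^ (10 * (j + 1)) / β ^ 2 * (4 / (m ^ (4 * (j + 1)) / β)) ^ (5 + 1) =
      32768 * ((m ^ 14)⁻¹) ^ (j + 1) * β ^ 4 := by
    have e1 : m ^ (10 * (j + 1)) = (m ^ (j + 1)) ^ 10 := by rw [← pow_mul, mul_comm]
    have e2 : m ^ (4 * (j + 1)) = (m ^ (j + 1)) ^ 4 := by rw [← pow_mul, mul_comm]
    have e3 : ((m ^ 14)⁻¹) ^ (j + 1) = ((m ^ (j + 1)) ^ 14)⁻¹ := by
      rw [inv_pow, ← pow_mul, ← pow_mul, mul_comm]
    rw [e1, e2, e3]
    have hx : 0 < m ^ (j + 1) := by positivity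
    generalize m ^ (j + 1) = x at hx
    rw [show 5 + 1 = 6 from rfl]
    field_simp
    norm_num
  rw [h6]
  exact mul_le_of_le_one_right (by positivity) (pow_le_one₀ hβp.le hβ)

/-- Choose `ñ s ∈ {s, s+1}` with `|χ(t₀) (ñ s)| = ν(s)`, `ñ 0 = 1`, `ñ N = N + 1` (`PlM.abs_succ`).
Telescoping: `ρ_{N+1} = Σ_{S=1}^{N} (ρ_{ñ S} - ρ_{ñ (S-1)})` since `ρ_1 = 0`.  With `j = N - S` the term
`u ↦ w⁻² (ρ_{ñ S} - ρ_{ñ(S-1)})(t₀ + w u)` is analytic on the disc of radius `M^((4/5)(j+1))/β` (`cdist` at `S`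
and `S - 1`: the entries stay `≥ ν/2`) with norm `≤ 8 β⁻² M^(2j+2)` (`rho_diff`, `nuN_rchi_le`).
`pa_of_analytic 5` gives the error `8·4^6 β⁴ M^(-(14/5)(j+1))`; sum with `PA.sum` (geometric series). -/
theorem side_rho : ∀ ε₀ > 0, ∃ M₀ : ℝ, ∀ (k a t₀ w : ℝ) (N : ℕ), M₀ ≤ Mk k →
    PlM (Mk k) (rchi k a t₀) N → w ≠ 0 → |w| * nuN (rchi k a t₀) N ≤ 1 →
      PA 5 (fun u => rxi k a (t₀ + w * u) (N + 1) / rchi k a (t₀ + w * u) (N + 1) / w ^ 2)
        (ε₀ / (2 * Real.pi * k) ^ 2) := by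
  intro ε₀ hε
  refine ⟨max (2 ^ 1000) ((65536 / ε₀) ^ 5), fun k a t₀ w N hM0 hP hw hβ => ?_⟩
  have hM : (2 : ℝ) ^ 1000 ≤ Mk k := (le_max_left _ _).trans hM0
  have hM' : (65536 / ε₀) ^ 5 ≤ Mk k := (le_max_right _ _).trans hM0
  have hM32 : (32 : ℝ) ≤ Mk k := by
    refine le_trans ?_ hM
    calc (32 : ℝ) = 2 ^ 5 := by norm_num
      _ ≤ 2 ^ 1000 := pow_le_pow_right₀ (by norm_num) (by norm_num)
  have hK : 0 < 2 * Real.pi * k := by unfold Mk at hM32; linarith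
  have hk : 0 ≤ k := by
    by_contra h
    have := mul_pos (mul_pos two_pos Real.pi_pos) (neg_pos.2 (not_le.1 h))
    linarith
  obtain ⟨m, hm0, hm5⟩ : ∃ m : ℝ, 0 ≤ m ∧ m ^ 5 = Mk k :=
    ⟨Mk k ^ ((5 : ℕ) : ℝ)⁻¹, by positivity, Real.rpow_inv_natCast_pow (by linarith) (by norm_num)⟩
  have hm2 : 2 ≤ m := by
    refine le_of_pow_le_pow_left₀ (n := 5) (by norm_num) hm0 ?_
    rw [hm5]; linarith
  have hmε : 65536 / ε₀ ≤ m := by
    refine le_of_pow_le_pow_left₀ (n := 5) (by norm_num) hm0 ?_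
    rwa [hm5]
  have key := PA.sum (m := 5) (Finset.range N) _ _ fun S hS =>
    siderho_term hM hk hP hw hβ hm2 hm5 (Finset.mem_range.1 hS)
  refine (key.congr fun u _ => ?_).mono ?_
  · rw [← Finset.sum_div, Finset.sum_range_sub (fun S => rxi k a (t₀ + w * u)
      (siderhoN (rchi k a t₀) S) / rchi k a (t₀ + w * u) (siderhoN (rchi k a t₀) S))]
    have h0 : siderhoN (rchi k a t₀) 0 = 1 := by simp [siderhoN]
    have hN : siderhoN (rchi k a t₀) N = N + 1 := by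
      rw [siderhoN, if_pos]
      rw [(hP.abs_succ hk).1]
      exact abs_le_nuN _ _
    rw [h0, hN]
    simp
  · have hq0 : 0 ≤ (m ^ 14)⁻¹ := by positivity
    have hm14 : (2 : ℝ) ≤ m ^ 14 := hm2.trans (le_self_pow₀ (by linarith) (by norm_num))
    have hq : (m ^ 14)⁻¹ ≤ 1 / 2 := by
      rw [one_div]; exact inv_anti₀ (by norm_num) hm14
    have h1 : ∑ S ∈ Finset.range N, 32768 * ((m ^ 14)⁻¹) ^ (N - S) ≤ 65536 * (m ^ 14)⁻¹ := by
      rw [← Finset.mul_sum]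
      linarith [siderho_geom hq0 hq N]
    refine h1.trans ?_
    have h2 : (2 * Real.pi * k) ^ 2 ≤ m ^ 10 := by
      rw [show m ^ 10 = (m ^ 5) ^ 2 by ring, hm5]
      exact pow_le_pow_left₀ hK.le (by unfold Mk; linarith) 2
    rw [le_div_iff₀ (by positivity)]
    rw [div_le_iff₀ hε] at hmε
    have hm4 : m ≤ m ^ 4 := le_self_pow₀ (by linarith) (by norm_num)
    have hmp : 0 < m := by linarith
    calc 65536 * (m ^ 14)⁻¹ * (2 * Real.pi * k) ^ 2 ≤ 65536 * (m ^ 14)⁻¹ * m ^ 10 := by gcongr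
      _ = 65536 / m ^ 4 := by field_simp
      _ ≤ ε₀ := by
        rw [div_le_iff₀ (by positivity)]
        nlinarith

end Crest.Agent.R128
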