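import Crest.Agent.R128.CBasic

/-! The tail estimate. -/

set_option autoImplicit false

noncomputable section

open MeasureTheory Set

namespace Crest.Agent.R128

theorem tail_frac {a b c d K x y : ℝ} (hb : |b| = x) (hd : |d| = y) (hx : 0 < x) (hy : 0 < y)
    (h : |a * d - c * b| ≤ K) : |a / b - c / d| ≤ K / (x * y) := by
  have hb0 : b ≠ 0 := abs_pos.1 (hb ▸ hx)
  have hd0 : d ≠ 0 := abs_pos.1 (hd ▸ hy)
  rw [div_sub_div _ _ hb0 hd0, abs_div, abs_mul, hb, hd, mul_comm b c]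
  exact div_le_div_of_nonneg_right h (by positivity)

theorem tail_abs {M A : ℝ} (hA : 2 ≤ A) (hM : 2 * M ≤ A ^ 2) {v χ ψ : ℕ → ℝ}
    (hv : ∀ n, |v n| ≤ M - 2)
    (hχ : ∀ n, χ (n + 2) = v (n + 1) * χ (n + 1) - χ n)
    (hψ : ∀ n, ψ (n + 2) = v (n + 1) * ψ (n + 1) - ψ n)
    (hW : ∀ n, ψ n * χ (n + 1) - ψ (n + 1) * χ n = 1) {N p : ℕ} (hNp : N + 3 ≤ p)
    (hP : ∀ j, N + j ≤ p → A ^ j * nuN χ N ≤ nuN χ (N + j)) (hend : nuN ψ p * nuN χ N ≤ 1) :
    χ (N + 2) ≠ 0 ∧ |ψ (N + 2) / χ (N + 2)| ≤ 3 / (A ^ 3 * nuN χ N ^ 2) := by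
  have hM2 : 2 ≤ M := by linarith [hv 0, abs_nonneg (v 0)]
  have hl : ∀ (u : ℕ → ℝ) s, |u s| ≤ nuN u s := fun u s => le_max_left _ _
  have hr : ∀ (u : ℕ → ℝ) s, |u (s + 1)| ≤ nuN u s := fun u s => le_max_right _ _
  have hpos : ∀ s, 0 < nuN χ s := by
    intro s
    by_contra h
    have h1 : χ s = 0 := abs_nonpos_iff.1 ((hl χ s).trans (not_lt.1 h))
    have h2 : χ (s + 1) = 0 := abs_nonpos_iff.1 ((hr χ s).trans (not_lt.1 h))
    have := hW s
    rw [h1, h2] at this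
    simp at this
  -- the index carrying the norm
  have hex : ∀ s, ∃ i, (i = s ∨ i = s + 1) ∧ |χ i| = nuN χ s := fun s => by
    rcases le_total |χ s| |χ (s + 1)| with h | h
    · exact ⟨s + 1, Or.inr rfl, (max_eq_right h).symm⟩
    · exact ⟨s, Or.inl rfl, (max_eq_left h).symm⟩
  choose m hm hmν using hex
  have hstep : ∀ s, |ψ (m s) / χ (m s) - ψ (m (s + 1)) / χ (m (s + 1))| ≤
      M / (nuN χ s * nuN χ (s + 1)) := by
    intro s
    refine tail_frac (hmν s) (hmν (s + 1)) (hpos _) (hpos _) ?_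
    rcases hm s with e | e <;> rcases hm (s + 1) with e' | e' <;> rw [e, e']
    · rw [hW, abs_one]; linarith
    · have : ψ s * χ (s + 1 + 1) - ψ (s + 1 + 1) * χ s = v (s + 1) := by
        rw [hχ s, hψ s]
        linear_combination v (s + 1) * hW s
      rw [this]
      linarith [hv (s + 1)]
    · rw [sub_self, abs_zero]; linarith
    · rw [hW, abs_one]; linarith
  set x := nuN χ N with hx
  have x0 : 0 < x := hpos N
  have A0 : 0 < A := by linarith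
  have hup : nuN χ (N + 1) ≤ M * x := by
    refine max_le ((hr χ N).trans (by nlinarith)) ?_
    rw [hχ N]
    have h1 := hl χ N
    have h2 := hr χ N
    have h3 : |v (N + 1) * χ (N + 1)| ≤ (M - 2) * x := by
      rw [abs_mul]
      exact mul_le_mul (hv _) h2 (abs_nonneg _) (by linarith)
    have h4 := abs_sub (v (N + 1) * χ (N + 1)) (χ N)
    nlinarith
  have p1 := hP 1 (by omega)
  have p2 := hP 2 (by omega)
  have e1 : |χ (N + 2)| = nuN χ (N + 1) := by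
    rcases hm (N + 1) with e | e
    · have h1 := hmν (N + 1)
      have h2 := hr χ N
      rw [e] at h1
      nlinarith
    · rw [← hmν (N + 1), e]
  have e2 : m (N + 2) = N + 3 := by
    rcases hm (N + 2) with e | e
    · have h1 := hmν (N + 2)
      rw [e, e1] at h1
      nlinarith
    · exact e
  have e3 : |χ (N + 3)| = nuN χ (N + 2) := by rw [← hmν (N + 2), e2]
  refine ⟨abs_pos.1 (e1 ▸ hpos _), ?_⟩
  set B := 1 / (A ^ 3 * x ^ 2) with hB
  have B0 : 0 < B := by positivity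
  have t1 : |ψ (N + 2) / χ (N + 2) - ψ (N + 3) / χ (N + 3)| ≤ B := by
    refine (tail_frac (K := 1) e1 e3 (hpos _) (hpos _) (by rw [hW, abs_one])).trans ?_
    refine one_div_le_one_div_of_le (by positivity) ?_
    calc A ^ 3 * x ^ 2 = (A ^ 1 * x) * (A ^ 2 * x) := by ring
      _ ≤ _ := mul_le_mul p1 p2 (by positivity) (hpos _).le
  have t2 : ∀ j, N + 2 + j ≤ p → |ψ (N + 3) / χ (N + 3) - ψ (m (N + 2 + j)) / χ (m (N + 2 + j))| ≤
      B * (1 - (1 / 2) ^ j) := by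
    intro j
    induction j with
    | zero => intro _; simp [e2]
    | succ j ih =>
      intro hj
      have h1 := ih (by omega)
      have h2 := hstep (N + 2 + j)
      have h3 := hP (2 + j) (by omega)
      have h4 := hP (2 + j + 1) (by omega)
      rw [← add_assoc] at h3
      rw [← add_assoc, ← add_assoc] at h4
      have h5 : M / (nuN χ (N + 2 + j) * nuN χ (N + 2 + j + 1)) ≤ B * (1 / 2) ^ (j + 1) := by
        have h6 : (2 : ℝ) ^ j ≤ A ^ j := pow_le_pow_left₀ (by norm_num) hA j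
        have h7 : (1 : ℝ) ≤ A ^ j := one_le_pow₀ (by linarith)
        rw [hB, one_div_pow, one_div_mul_one_div, div_le_div_iff₀ (mul_pos (hpos _) (hpos _))
          (by positivity), one_mul]
        calc M * (A ^ 3 * x ^ 2 * 2 ^ (j + 1)) = (2 * M) * 2 ^ j * 1 * (A ^ 3 * x ^ 2) := by ring
          _ ≤ A ^ 2 * A ^ j * A ^ j * (A ^ 3 * x ^ 2) := by gcongr
          _ = (A ^ (2 + j) * x) * (A ^ (2 + j + 1) * x) := by ring
          _ ≤ _ := mul_le_mul h3 h4 (by positivity) (hpos _).le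
      have h6 := abs_sub_le (ψ (N + 3) / χ (N + 3)) (ψ (m (N + 2 + j)) / χ (m (N + 2 + j)))
        (ψ (m (N + 2 + j + 1)) / χ (m (N + 2 + j + 1)))
      rw [← add_assoc, pow_succ] at *
      linarith
  obtain ⟨j, rfl⟩ : ∃ j, p = N + 2 + j := ⟨p - (N + 2), by omega⟩
  have t3 : |ψ (m (N + 2 + j)) / χ (m (N + 2 + j))| ≤ B := by
    have h1 : |ψ (m (N + 2 + j))| ≤ nuN ψ (N + 2 + j) := by
      rcases hm (N + 2 + j) with e | e <;> rw [e]
      · exact hl ψ _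
      · exact hr ψ _
    have h2 := hP (2 + j) (by omega)
    rw [← add_assoc] at h2
    have h3 : A ^ 3 ≤ A ^ (2 + j) := pow_le_pow_right₀ (by linarith) (by omega)
    rw [abs_div, hmν, hB, div_le_div_iff₀ (hpos _) (by positivity), one_mul]
    calc |ψ (m (N + 2 + j))| * (A ^ 3 * x ^ 2) ≤ nuN ψ (N + 2 + j) * (A ^ 3 * x ^ 2) := by gcongr
      _ = nuN ψ (N + 2 + j) * x * (A ^ 3 * x) := by ring
      _ ≤ 1 * (A ^ (2 + j) * x) := by gcongr
      _ ≤ _ := by rw [one_mul]; exact h2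
  have t4 := t2 j le_rfl
  have t5 : 0 ≤ B * (1 / 2) ^ j := by positivity
  have t6 := abs_sub_le (ψ (N + 2) / χ (N + 2)) (ψ (N + 3) / χ (N + 3))
    (ψ (m (N + 2 + j)) / χ (m (N + 2 + j)))
  have t7 := abs_sub_abs_le_abs_sub (ψ (N + 2) / χ (N + 2)) (ψ (m (N + 2 + j)) / χ (m (N + 2 + j)))
  have t8 : 3 / (A ^ 3 * x ^ 2) = 3 * B := by rw [hB]; ring
  rw [t8]
  linarith

/-- Let `γ = 49/50`, `ν = nuN χ`.  Choose `ñ s ∈ {s, s+1}` with `|χ (ñ s)| = ν s` and `c s = ψ(ñ s)/χ(ñ s)`.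
From `PlP` (and `ν(s+1) ≤ M ν s`): `ν(N+1) > ν N`, `ν(N+2) > ν(N+1)`, so `ñ(N+1) = N+2`, `ñ(N+2) = N+3` and
`|c(N+1) - c(N+2)| = 1/(ν(N+1) ν(N+2)) ≤ M^(-3γ)/ν(N)²`.  In general
`|c s - c(s+1)| ≤ M/(ν s ν(s+1))` (Wronskian; a gap of two indices gives the factor `v`), and the sum over
`s ≥ N + 2` is `≤ 2 M^(1-5γ)/ν(N)² ≤ M^(-3γ)/ν(N)²`.  Finally `|c p| ≤ nuN ψ p/ν p ≤ M^(-3γ)/ν(N)²`. -/
theorem tail_est {M : ℝ} (hM : (2 : ℝ) ^ 1000 ≤ M) {v χ ψ : ℕ → ℝ} (hv : ∀ n, |v n| ≤ M - 2)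
    (hχ : ∀ n, χ (n + 2) = v (n + 1) * χ (n + 1) - χ n)
    (hψ : ∀ n, ψ (n + 2) = v (n + 1) * ψ (n + 1) - ψ n)
    (hW : ∀ n, ψ n * χ (n + 1) - ψ (n + 1) * χ n = 1) {N p : ℕ} (hNp : N + 3 ≤ p)
    (hP : PlP M χ N p) (hend : nuN ψ p * nuN χ N ≤ 1) :
    χ (N + 2) ≠ 0 ∧ |ψ (N + 2) / χ (N + 2)| ≤ 3 * M ^ (-(147 / 50 : ℝ)) / nuN χ N ^ 2 := by
  have hM4 : (4 : ℝ) ≤ M := by
    have h1 : (2 : ℝ) ^ 2 ≤ 2 ^ 1000 := pow_le_pow_right₀ (by norm_num) (by norm_num)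
    have h2 := h1.trans hM
    clear hM h1
    linarith
  clear hM
  have M0 : 0 < M := by linarith
  have h2 : ∀ y : ℝ, 1 / 2 ≤ y → 2 ≤ M ^ y := fun y hy => by
    calc (2 : ℝ) = 4 ^ (1 / 2 : ℝ) := by
          rw [show (4 : ℝ) = 2 ^ (2 : ℝ) by norm_num, ← Real.rpow_mul (by norm_num)]
          norm_num
      _ ≤ M ^ (1 / 2 : ℝ) := Real.rpow_le_rpow (by norm_num) hM4 (by norm_num)
      _ ≤ M ^ y := Real.rpow_le_rpow_of_exponent_le (by linarith) hy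
  have hpow : ∀ j : ℕ, (M ^ (49 / 50 : ℝ)) ^ j = M ^ (49 / 50 * j : ℝ) := fun j => by
    rw [← Real.rpow_natCast, ← Real.rpow_mul M0.le]
  have hA2 : 2 * M ≤ (M ^ (49 / 50 : ℝ)) ^ 2 := by
    rw [hpow, show (49 / 50 * (2 : ℕ) : ℝ) = 24 / 25 + 1 by norm_num, Real.rpow_add M0,
      Real.rpow_one]
    exact mul_le_mul_of_nonneg_right (h2 _ (by norm_num)) M0.le
  have := tail_abs (h2 _ (by norm_num)) hA2 hv hχ hψ hW hNp (fun j hj => by
    have h3 := hP (N + j) (by omega) hj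
    rwa [Nat.cast_add, add_sub_cancel_left, ← hpow] at h3) hend
  refine ⟨this.1, this.2.trans (le_of_eq ?_)⟩
  rw [hpow, Real.rpow_neg M0.le, show (49 / 50 * (3 : ℕ) : ℝ) = 147 / 50 by norm_num]
  ring

/-- The form used in the level lemma (`ψ = ξ + α χ`; `ν(N) ≤ M^N` by `nuN_rchi_le`;
`ξ(N+2)/χ(N+2) = ξ(N+1)/χ(N+1) - 1/(χ(N+1) χ(N+2))` by `rwronsk`). -/
theorem tail_side {k κ a t α : ℝ} (hM : (2 : ℝ) ^ 1000 ≤ Mk k) {N p : ℕ} (hNp : N + 3 ≤ p)
    (hN : (N : ℝ) ≤ (1 - κ) * p) (hP : PlP (Mk k) (rchi k a t) N p)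
    (hW : nuN (fun n => rxi k a t n + α * rchi k a t n) p < Mk k ^ (-((1 - κ) * p)))
    (h1 : rchi k a t (N + 1) ≠ 0) :
    rchi k a t (N + 2) ≠ 0 ∧
      |α + rxi k a t (N + 1) / rchi k a t (N + 1) - 1 / (rchi k a t (N + 1) * rchi k a t (N + 2))| ≤
        3 * Mk k ^ (-(147 / 50 : ℝ)) / rchi k a t (N + 1) ^ 2 := by
  have hk := nonneg_of_big hM
  have M1 : 1 ≤ Mk k := (one_le_pow₀ (by norm_num)).trans hM
  have M0 : 0 < Mk k := by linarith only [M1]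
  have hend : nuN (fun n => rxi k a t n + α * rchi k a t n) p * nuN (rchi k a t) N ≤ 1 := by
    have h2 := nuN_rchi_le hk a t (Nat.zero_le N)
    rw [nuN_rchi_zero, mul_one, Nat.sub_zero, ← Real.rpow_natCast] at h2
    refine (mul_le_mul hW.le h2 (nuN_nonneg _ _) (Real.rpow_nonneg M0.le _)).trans ?_
    rw [← Real.rpow_add M0]
    exact Real.rpow_le_one_of_one_le_of_nonpos M1 (by linarith only [hN])
  obtain ⟨h2, h3⟩ := tail_est hM (v := fun n => vee k (rX k a t n)) (χ := rchi k a t)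
    (ψ := fun n => rxi k a t n + α * rchi k a t n) (fun n => abs_vee_le hk _) (rchi_rec k a t)
    (fun n => by rw [rxi_rec, rchi_rec]; ring)
    (fun n => by linear_combination rwronsk k a t n) hNp hP hend
  refine ⟨h2, ?_⟩
  have e1 : α + rxi k a t (N + 1) / rchi k a t (N + 1) -
      1 / (rchi k a t (N + 1) * rchi k a t (N + 2)) =
      (rxi k a t (N + 2) + α * rchi k a t (N + 2)) / rchi k a t (N + 2) := by
    have := rwronsk k a t (N + 1)
    field_simp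
    linear_combination this
  rw [e1]
  refine h3.trans (div_le_div_of_nonneg_left (by positivity) (by positivity) ?_)
  rw [← sq_abs]
  exact pow_le_pow_left₀ (abs_nonneg _) (abs_succ_le_nuN _ _) 2

end Crest.Agent.R128
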