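import Crest.Agent.R128.Por
import Crest.Agent.R128.Side
import Crest.Agent.R128.SideRho
import Crest.Agent.R128.Tail

/-! One level: a hole of definite relative size. -/

set_option autoImplicit false

noncomputable section

open MeasureTheory Set

namespace Crest.Agent.R128

theorem level_rpow {M : ℝ} (hM : (2 : ℝ) ^ 1000 ≤ M) :
    (M - 4) ^ (-(3 / 5 : ℝ)) ≤ M ^ (-(51 / 100 : ℝ)) := by
  have h0 : (2 : ℝ) ^ 11 ≤ 2 ^ 1000 := pow_le_pow_right₀ (by norm_num) (by norm_num)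
  have h1 : (2 : ℝ) ^ 10 ≤ M - 4 := by
    generalize (2 : ℝ) ^ 1000 = X at h0 hM
    linarith
  have h8 : 8 ≤ M := by
    generalize (2 : ℝ) ^ 1000 = X at h0 hM
    linarith
  clear hM h0
  have hK : 1 ≤ M - 4 := by linarith
  have h2 : (2 : ℝ) ≤ (M - 4) ^ (1 / 10 : ℝ) := by
    have := Real.rpow_le_rpow (by positivity) h1 (by norm_num : (0 : ℝ) ≤ 1 / 10)
    rwa [← Real.rpow_natCast, ← Real.rpow_mul (by norm_num),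
      show ((10 : ℕ) : ℝ) * (1 / 10) = 1 by norm_num, Real.rpow_one] at this
  have h3 : M ≤ (M - 4) ^ (11 / 10 : ℝ) := by
    rw [show (11 / 10 : ℝ) = 1 / 10 + 1 by norm_num, Real.rpow_add (by linarith), Real.rpow_one]
    nlinarith
  have h4 : M ^ (51 / 100 : ℝ) ≤ (M - 4) ^ (3 / 5 : ℝ) := by
    refine (Real.rpow_le_rpow (by linarith) h3 (by norm_num)).trans ?_
    rw [← Real.rpow_mul (by linarith)]
    exact Real.rpow_le_rpow_of_exponent_le hK (by norm_num)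
  rw [Real.rpow_neg (by linarith), Real.rpow_neg (by linarith)]
  exact inv_anti₀ (Real.rpow_pos_of_pos (by linarith) _) h4

theorem level_err {M K ε b w x y A B : ℝ} (hM : 0 < M) (hK : 0 < K) (hKM : K ≤ M) (hw : w ≠ 0)
    (hε : M ^ (-(43 / 100 : ℝ)) ≤ ε / 24) (hb : M ^ (-(51 / 100 : ℝ)) ≤ |b|) (hb1 : |b| ≤ 1)
    (hx : 1 / 2 ≤ |w * x|) (hy : |b| / 2 ≤ |w * y|)
    (hA : |A| ≤ 3 * M ^ (-(147 / 50 : ℝ)) / x ^ 2) (hB : |B| ≤ 3 * M ^ (-(147 / 50 : ℝ)) / y ^ 2) :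
    |(A + B) / w ^ 2| ≤ ε / (|b| * K ^ 2) := by
  have hb0 : 0 < |b| := (Real.rpow_pos_of_pos hM _).trans_le hb
  have hT : 0 < M ^ (-(147 / 50 : ℝ)) := Real.rpow_pos_of_pos hM _
  have key : ∀ {z C : ℝ}, |b| / 2 ≤ |w * z| → |C| ≤ 3 * M ^ (-(147 / 50 : ℝ)) / z ^ 2 →
      |C| / w ^ 2 ≤ 12 * M ^ (-(147 / 50 : ℝ)) / |b| ^ 2 := fun {z C} hz hC => by
    have h1 : (|b| / 2) ^ 2 ≤ (w * z) ^ 2 := by
      rw [← sq_abs (w * z)]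
      exact pow_le_pow_left₀ (by positivity) hz 2
    calc |C| / w ^ 2 ≤ 3 * M ^ (-(147 / 50 : ℝ)) / z ^ 2 / w ^ 2 := by gcongr
      _ = 3 * M ^ (-(147 / 50 : ℝ)) / (w * z) ^ 2 := by rw [div_div, mul_pow, mul_comm (z ^ 2)]
      _ ≤ 3 * M ^ (-(147 / 50 : ℝ)) / (|b| / 2) ^ 2 := by gcongr
      _ = _ := by field_simp; norm_num
  have h1 := key (by linarith : |b| / 2 ≤ |w * x|) hA
  have h2 := key hy hB
  have h3 : |(A + B) / w ^ 2| ≤ 24 * M ^ (-(147 / 50 : ℝ)) / |b| ^ 2 := by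
    rw [abs_div, abs_of_pos (by positivity : 0 < w ^ 2)]
    calc |A + B| / w ^ 2 ≤ (|A| + |B|) / w ^ 2 := by gcongr; exact abs_add_le _ _
      _ = |A| / w ^ 2 + |B| / w ^ 2 := add_div _ _ _
      _ ≤ _ := by
        rw [show (24 : ℝ) = 12 + 12 by norm_num, add_mul, add_div]
        exact add_le_add h1 h2
  refine h3.trans ?_
  have h4 : M ^ (-(147 / 50 : ℝ)) * M ^ 2 = M ^ (-(43 / 100 : ℝ)) * M ^ (-(51 / 100 : ℝ)) := by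
    rw [← Real.rpow_natCast, ← Real.rpow_add hM, ← Real.rpow_add hM]
    norm_num
  have h5 : M ^ (-(147 / 50 : ℝ)) * K ^ 2 ≤ ε / 24 * |b| :=
    calc M ^ (-(147 / 50 : ℝ)) * K ^ 2 ≤ M ^ (-(147 / 50 : ℝ)) * M ^ 2 := by gcongr
      _ ≤ ε / 24 * |b| := by
        rw [h4]
        exact mul_le_mul hε hb (Real.rpow_pos_of_pos hM _).le
          ((Real.rpow_pos_of_pos hM _).le.trans hε)
  rw [div_le_div_iff₀ (by positivity) (by positivity)]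
  nlinarith [mul_le_mul_of_nonneg_right h5 hb0.le]

/-- The case where side 1 is the faster one.  `w = 1/χ(t₁)(N₁+1)`, `s₁ = sideOf k a t₁ N₁ w` (`b = 1`),
`s₂ = sideOf k a t₂ N₂ (-w)` (`b = -w χ(t₂)(N₂+1)`, `|b| = ν₂/ν₁ ≥ M^(-51/100) ≥ K^(-3/5)`),
`G u = (vee a + ρ₁ + ρ₂)/w²` (`side_rho` with `ε₀/2`, `PA.const`, `PA.add`),
`E = {u | PlP (t₁ + w u) ∧ PlP (t₂ - w u) ∧ Wline}`.  On `E`, `near` gives `|w χ(N₁+1)| ≥ 1/2`,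
`|w χ(N₂+1)| ≥ |b|/2`, and `tail_side` gives the error `≤ 12 M^(-147/50)(1 + b⁻²) ≤ ε₀/(|b| K²)`.
`porosity` gives a hole `[s, s + δ] ⊆ [-2,2]` in `u`; its image under `u ↦ w u` is the required interval
(reversed if `w < 0`). -/
theorem level_fast : ∃ δ > 0, δ ≤ 1 ∧ ∃ M₀ : ℝ, ∀ (k κ a t₁ t₂ : ℝ) (N₁ N₂ p : ℕ), M₀ ≤ Mk k →
    PlM (Mk k) (rchi k a t₁) N₁ → PlM (Mk k) (rchi k a t₂) N₂ →
    nuN (rchi k a t₁) N₁ ≤ Mk k ^ (51 / 100 : ℝ) * nuN (rchi k a t₂) N₂ →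
    nuN (rchi k a t₂) N₂ ≤ nuN (rchi k a t₁) N₁ →
    N₁ + 3 ≤ p → N₂ + 3 ≤ p → (N₁ : ℝ) ≤ (1 - κ) * p → (N₂ : ℝ) ≤ (1 - κ) * p →
    ∃ s : ℝ, -(2 / nuN (rchi k a t₁) N₁) ≤ s ∧
      s + δ / nuN (rchi k a t₁) N₁ ≤ 2 / nuN (rchi k a t₁) N₁ ∧
      ∀ τ, s ≤ τ → τ ≤ s + δ / nuN (rchi k a t₁) N₁ →
        ¬ (PlP (Mk k) (rchi k a (t₁ + τ)) N₁ p ∧ PlP (Mk k) (rchi k a (t₂ - τ)) N₂ p ∧
          Wline k κ p a (t₁ + τ) (t₂ - τ)) := by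
  obtain ⟨C₀, hC, hside⟩ := side_ok
  obtain ⟨δ, hδ, hδ1, ε₀, hε, K₁, hpor⟩ := porosity hC
  obtain ⟨M₁, hM₁⟩ := hside ε₀ hε
  obtain ⟨M₂, hM₂⟩ := hside (1 / 2) (by norm_num)
  obtain ⟨M₃, hM₃⟩ := side_rho (ε₀ / 2) (by positivity)
  obtain ⟨M₄, hM₄⟩ := Filter.eventually_atTop.1
    ((tendsto_rpow_neg_atTop (by norm_num : (0 : ℝ) < 43 / 100)).eventually
      (ge_mem_nhds (by positivity : (0 : ℝ) < ε₀ / 24)))
  refine ⟨δ, hδ, hδ1, max (max (max M₁ M₂) (max M₃ M₄)) (max (K₁ + 4) (2 ^ 1000)),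
    fun k κ a t₁ t₂ N₁ N₂ p hM hP₁ hP₂ h12 h21 hp₁ hp₂ hN₁ hN₂ => ?_⟩
  simp only [max_le_iff] at hM
  obtain ⟨⟨⟨m1, m2⟩, m3, m4⟩, m5, hM⟩ := hM
  have hk := nonneg_of_big hM
  have hK : 2 * Real.pi * k = Mk k - 4 := by rw [Mk]; ring
  have hr := level_rpow hM
  have h8 : 8 ≤ Mk k :=
    le_trans (by norm_num) ((pow_le_pow_right₀ one_le_two (by norm_num : 3 ≤ 1000)).trans hM)
  have hM0 : 0 < Mk k := by linarith only [h8]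
  have hν₁ := nuN_rchi_pos k a t₁ N₁
  have hν₂ := nuN_rchi_pos k a t₂ N₂
  have e₁ := (hP₁.abs_succ hk).1
  have e₂ := (hP₂.abs_succ hk).1
  have hχ : rchi k a t₁ (N₁ + 1) ≠ 0 := abs_pos.1 (e₁ ▸ hν₁)
  obtain ⟨w, hw⟩ : ∃ w, w = (rchi k a t₁ (N₁ + 1))⁻¹ := ⟨_, rfl⟩
  have hw0 : w ≠ 0 := hw ▸ inv_ne_zero hχ
  have hw0' : -w ≠ 0 := neg_ne_zero.2 hw0
  have hwa : |w| = (nuN (rchi k a t₁) N₁)⁻¹ := by rw [hw, abs_inv, e₁]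
  have hw1 : w * rchi k a t₁ (N₁ + 1) = 1 := hw ▸ inv_mul_cancel₀ hχ
  have a₁ : |w| * nuN (rchi k a t₁) N₁ ≤ 1 := by rw [hwa, inv_mul_cancel₀ hν₁.ne']
  have a₂ : |-w| * nuN (rchi k a t₂) N₂ ≤ 1 := by
    rw [abs_neg]
    exact (mul_le_mul_of_nonneg_left h21 (abs_nonneg w)).trans a₁
  obtain ⟨b, hb⟩ : ∃ b, b = -w * rchi k a t₂ (N₂ + 1) := ⟨_, rfl⟩
  have hb1 : |b| ≤ 1 := by rwa [hb, abs_mul, e₂]
  have hb2 : Mk k ^ (-(51 / 100 : ℝ)) ≤ |b| := by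
    rw [hb, abs_mul, e₂, abs_neg, hwa, Real.rpow_neg hM0.le, inv_mul_eq_div,
      le_div_iff₀ hν₁, inv_mul_le_iff₀ (Real.rpow_pos_of_pos hM0 _)]
    exact h12
  have o₁ := hM₁ k a t₁ w N₁ m1 hP₁ hw0 a₁
  have o₂ := hM₁ k a t₂ (-w) N₂ m1 hP₂ hw0' a₂
  have n₁ := (hM₂ k a t₁ w N₁ m2 hP₁ hw0 a₁).near
  have n₂ := (hM₂ k a t₂ (-w) N₂ m2 hP₂ hw0' a₂).near
  rw [hw1] at o₁ n₁
  rw [← hb] at o₂ n₂
  have sm := ((PA.const 5 (vee k a / w ^ 2)).add (hM₃ k a t₁ w N₁ m3 hP₁ hw0 a₁)).add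
    (hM₃ k a t₂ (-w) N₂ m3 hP₂ hw0' a₂)
  have hnd := hpor (2 * Real.pi * k) (by linarith) b _ _ _
    {u | PlP (Mk k) (rchi k a (t₁ + w * u)) N₁ p ∧ PlP (Mk k) (rchi k a (t₂ + -w * u)) N₂ p ∧
      Wline k κ p a (t₁ + w * u) (t₂ + -w * u)}
    ⟨o₁, o₂, hb1, by rw [hK]; exact hr.trans hb2, sm.mono (le_of_eq (by ring)), by
      rintro u ⟨q₁, q₂, α, α', hα, q₃, q₄⟩ hu
      have c₁ : 1 / 2 ≤ |w * rchi k a (t₁ + w * u) (N₁ + 1)| := by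
        have h1 := n₁ u hu
        have h2 := abs_sub_abs_le_abs_sub (1 : ℝ) (w * rchi k a (t₁ + w * u) (N₁ + 1))
        rw [abs_sub_comm] at h2
        simp only [sideOf, abs_one] at h1 h2
        linarith
      have c₂ : |b| / 2 ≤ |w * rchi k a (t₂ + -w * u) (N₂ + 1)| := by
        have h1 := n₂ u hu
        have h2 := abs_sub_abs_le_abs_sub b (-w * rchi k a (t₂ + -w * u) (N₂ + 1))
        rw [abs_sub_comm, neg_mul w (rchi k a (t₂ + -w * u) (N₂ + 1)), abs_neg] at h2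
        simp only [sideOf, neg_mul w (rchi k a (t₂ + -w * u) (N₂ + 1))] at h1
        linarith
      have hb0 : 0 < |b| := (Real.rpow_pos_of_pos hM0 _).trans_le hb2
      have d₁ : rchi k a (t₁ + w * u) (N₁ + 1) ≠ 0 := fun h => by
        rw [h] at c₁
        norm_num at c₁
      have d₂ : rchi k a (t₂ + -w * u) (N₂ + 1) ≠ 0 := fun h => by
        rw [h, mul_zero, abs_zero] at c₂
        linarith
      obtain ⟨f₁, g₁⟩ := tail_side hM hp₁ hN₁ q₁ q₃ d₁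
      obtain ⟨f₂, g₂⟩ := tail_side hM hp₂ hN₂ q₂ q₄ d₂
      refine ⟨mul_ne_zero (mul_ne_zero (pow_ne_zero 2 hw0) d₁) f₁,
        mul_ne_zero (mul_ne_zero (pow_ne_zero 2 hw0') d₂) f₂, ?_⟩
      refine le_trans (le_of_eq ?_) (level_err (K := 2 * Real.pi * k) hM0 (by linarith only [hK, h8])
        (by linarith only [hK]) hw0 (hM₄ _ m4) hb2 hb1 c₁ c₂ g₁ g₂)
      congr 1
      simp only [sideOf, ← hα, neg_sq]
      field_simp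
      ring⟩
  simp only [DenseIn, not_forall, not_exists, not_and] at hnd
  obtain ⟨s, hs1, hs2, hs⟩ := hnd
  have main : ∀ τ, s ≤ τ / w → τ / w ≤ s + δ →
      ¬ (PlP (Mk k) (rchi k a (t₁ + τ)) N₁ p ∧ PlP (Mk k) (rchi k a (t₂ - τ)) N₂ p ∧
        Wline k κ p a (t₁ + τ) (t₂ - τ)) := fun τ h1 h2 h => by
    refine hs (τ / w) ?_ h1 h2
    have e1 : w * (τ / w) = τ := by field_simp
    have e2 : t₂ + -w * (τ / w) = t₂ - τ := by rw [neg_mul, e1, sub_eq_add_neg]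
    simp only [mem_ofPred_eq, e1, e2]
    exact h
  simp only [div_eq_mul_inv _ (nuN (rchi k a t₁) N₁), ← hwa]
  rcases lt_or_gt_of_ne hw0 with h | h
  · rw [abs_of_neg h]
    refine ⟨(s + δ) * w, by nlinarith, by nlinarith, fun τ h1 h2 => main τ ?_ ?_⟩
    · rw [le_div_iff_of_neg h]
      linarith
    · rw [div_le_iff_of_neg h]
      linarith
  · rw [abs_of_pos h]
    refine ⟨s * w, by nlinarith, by nlinarith, fun τ h1 h2 => main τ ?_ ?_⟩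
    · rw [le_div_iff₀ h]
      linarith
    · rw [div_le_iff₀ h]
      linarith

theorem Wline.symm {k κ : ℝ} {p : ℕ} {a t t' : ℝ} (h : Wline k κ p a t t') : Wline k κ p a t' t := by
  obtain ⟨α, α', h1, h2, h3⟩ := h
  exact ⟨α', α, by rw [add_comm, h1], h3, h2⟩

/-- General case: apply `level_fast` to the faster side (swap the sides and `τ ↦ -τ`). -/
theorem level : ∃ δ > 0, δ ≤ 1 ∧ ∃ M₀ : ℝ, ∀ (k κ a t₁ t₂ : ℝ) (N₁ N₂ p : ℕ) (ν : ℝ), M₀ ≤ Mk k →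
    PlM (Mk k) (rchi k a t₁) N₁ → PlM (Mk k) (rchi k a t₂) N₂ →
    nuN (rchi k a t₁) N₁ ≤ Mk k ^ (51 / 100 : ℝ) * nuN (rchi k a t₂) N₂ →
    nuN (rchi k a t₂) N₂ ≤ Mk k ^ (51 / 100 : ℝ) * nuN (rchi k a t₁) N₁ →
    N₁ + 3 ≤ p → N₂ + 3 ≤ p → (N₁ : ℝ) ≤ (1 - κ) * p → (N₂ : ℝ) ≤ (1 - κ) * p →
    ν = max (nuN (rchi k a t₁) N₁) (nuN (rchi k a t₂) N₂) →
    ∃ s : ℝ, -(2 / ν) ≤ s ∧ s + δ / ν ≤ 2 / ν ∧
      ∀ τ, s ≤ τ → τ ≤ s + δ / ν →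
        ¬ (PlP (Mk k) (rchi k a (t₁ + τ)) N₁ p ∧ PlP (Mk k) (rchi k a (t₂ - τ)) N₂ p ∧
          Wline k κ p a (t₁ + τ) (t₂ - τ)) := by
  obtain ⟨δ, hδ, hδ1, M₀, h⟩ := level_fast
  refine ⟨δ, hδ, hδ1, M₀, fun k κ a t₁ t₂ N₁ N₂ p ν hM hP₁ hP₂ h12 h21 hp₁ hp₂ hN₁ hN₂ hν => ?_⟩
  rcases le_total (nuN (rchi k a t₂) N₂) (nuN (rchi k a t₁) N₁) with hle | hle
  · rw [hν, max_eq_left hle]
    exact h k κ a t₁ t₂ N₁ N₂ p hM hP₁ hP₂ h12 hle hp₁ hp₂ hN₁ hN₂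
  · rw [hν, max_eq_right hle]
    obtain ⟨s, h1, h2, h3⟩ := h k κ a t₂ t₁ N₂ N₁ p hM hP₂ hP₁ h21 hle hp₂ hp₁ hN₂ hN₁
    refine ⟨-(s + δ / nuN (rchi k a t₂) N₂), by linarith, by linarith, fun τ h4 h5 h6 => ?_⟩
    refine h3 (-τ) (by linarith) (by linarith) ?_
    rw [← sub_eq_add_neg, sub_neg_eq_add]
    exact ⟨h6.2.1, h6.1, h6.2.2.symm⟩

end Crest.Agent.R128
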