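import Crest.Agent.R128.Cell
import Crest.Agent.R128.Count

/-! Exponential bound for the W-event on a line. -/

set_option autoImplicit false

noncomputable section

open MeasureTheory Set

namespace Crest.Agent.R128

/-- Union bound over `H × H` (`count_data`, `hOf_mono`, `hOf_zero`, `hOf_le_of_W`, `cell_bound`,
`count_const`); for `p < 30` use that the measure is `≤ 1` (enlarge `C`). -/
theorem line_bound : ∃ κ > 0, ∃ c > 0, ∃ C M₀ : ℝ, ∀ (k : ℝ), M₀ ≤ Mk k → ∀ (p : ℕ) (a : ℝ),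
    volume {t : ℝ | t ∈ Ico (0 : ℝ) 1 ∧ Wline k κ p a t (phi k a - t)} ≤
      ENNReal.ofReal (C * Real.exp (-(c * p))) := by
  classical
  obtain ⟨δ, hδ0, hδ1, M₀, hcell⟩ := cell_bound
  obtain ⟨κ, hκ0, hκ1, x, hx0, hx1, c, hc0, C, hC⟩ := count_const hδ0 hδ1
  refine ⟨κ, hκ0, c, hc0, max C (Real.exp (c * 30)), max M₀ (2 ^ 1000), fun k hk p a => ?_⟩
  have hM₀ : M₀ ≤ Mk k := (le_max_left _ _).trans hk
  have hM : (2 : ℝ) ^ 1000 ≤ Mk k := (le_max_right _ _).trans hk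
  have hk0 : 0 ≤ k := by
    have h1 : (2 : ℝ) ^ 2 ≤ 2 ^ 1000 := pow_le_pow_right₀ (by norm_num) (by norm_num)
    have h2 : 0 ≤ 2 * Real.pi * k := by
      have h3 := h1.trans hM
      unfold Mk at h3
      clear hk hM h1
      linarith
    exact nonneg_of_mul_nonneg_right h2 (by positivity)
  by_cases hp : p < 30
  · calc volume {t : ℝ | t ∈ Ico (0 : ℝ) 1 ∧ Wline k κ p a t (phi k a - t)}
        ≤ volume (Ico (0 : ℝ) 1) := measure_mono fun t ht => ht.1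
      _ = ENNReal.ofReal 1 := by rw [Real.volume_Ico, sub_zero]
      _ ≤ _ := by
        refine ENNReal.ofReal_le_ofReal (le_trans ?_
          (mul_le_mul_of_nonneg_right (le_max_right _ _) (Real.exp_pos _).le))
        rw [← Real.exp_add]
        refine Real.one_le_exp ?_
        have : (p : ℝ) ≤ 30 := by exact_mod_cast hp.le
        nlinarith
  push Not at hp
  have hp' : (30 : ℝ) ≤ p := by exact_mod_cast hp
  have hZ : ⌊100 * κ * p⌋₊ + 1 ≤ p := by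
    have h1 : (⌊100 * κ * p⌋₊ : ℝ) ≤ 100 * κ * p := Nat.floor_le (by positivity)
    have h2 : ((⌊100 * κ * p⌋₊ + 1 : ℕ) : ℝ) ≤ p := by
      push_cast
      nlinarith
    exact_mod_cast h2
  have hCp := hC p
  have hW := fun (t α : ℝ) => hOf_le_of_W (k := k) (κ := κ) (a := a) (t := t) (α := α) hM hκ0.le
    (p := p)
  generalize ⌊100 * κ * p⌋₊ + 1 = Z at hZ hCp hW
  obtain ⟨H, hH, hH1, hH2⟩ := count_data p Z hx0 hx1
  set B : ℝ := 5 * (1 - δ / 40) ^ ((p : ℝ) / 2 - 6 * Z - 1) with hB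
  have hB0 : 0 ≤ B := mul_nonneg (by norm_num) (Real.rpow_nonneg (by linarith) _)
  calc volume {t : ℝ | t ∈ Ico (0 : ℝ) 1 ∧ Wline k κ p a t (phi k a - t)}
      ≤ volume (⋃ q ∈ H ×ˢ H, {t : ℝ | t ∈ Ico (0 : ℝ) 1 ∧ Wline k κ p a t (phi k a - t) ∧
        (∀ s, s ≤ p → q.1 s = hOf (Mk k) (rchi k a t) s) ∧
        (∀ s, s ≤ p → q.2 s = hOf (Mk k) (rchi k a (phi k a - t)) s)}) := by
        refine measure_mono fun t ht => ?_
        obtain ⟨α, α', -, h1, h2⟩ := ht.2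
        obtain ⟨h₁, m₁, e₁⟩ := hH2 _ (hOf_mono hk0 a t) (hOf_zero k a t) (hW _ _ h1)
        obtain ⟨h₂, m₂, e₂⟩ := hH2 _ (hOf_mono hk0 a (phi k a - t)) (hOf_zero k a _) (hW _ _ h2)
        exact mem_biUnion (x := (h₁, h₂)) (Finset.mem_coe.2 (Finset.mem_product.2 ⟨m₁, m₂⟩))
          ⟨ht.1, ht.2, e₁, e₂⟩
    _ ≤ ∑ q ∈ H ×ˢ H, volume {t : ℝ | t ∈ Ico (0 : ℝ) 1 ∧ Wline k κ p a t (phi k a - t) ∧
        (∀ s, s ≤ p → q.1 s = hOf (Mk k) (rchi k a t) s) ∧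
        (∀ s, s ≤ p → q.2 s = hOf (Mk k) (rchi k a (phi k a - t)) s)} :=
        measure_biUnion_finset_le _ _
    _ ≤ ∑ _q ∈ H ×ˢ H, ENNReal.ofReal B := by
        refine Finset.sum_le_sum fun q hq => ?_
        obtain ⟨m₁, m₂⟩ := Finset.mem_product.1 hq
        exact hcell k κ a p Z q.1 q.2 hM₀ (by linarith) hp hZ (hH1 _ m₁).1 (hH1 _ m₂).1
          (hH1 _ m₁).2.1 (hH1 _ m₂).2.1 (hH1 _ m₁).2.2 (hH1 _ m₂).2.2
    _ = ENNReal.ofReal ((H.card : ℝ) ^ 2 * B) := by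
        rw [← ENNReal.ofReal_sum_of_nonneg fun _ _ => hB0, Finset.sum_const, Finset.card_product,
          nsmul_eq_mul, Nat.cast_mul, sq]
    _ ≤ _ := by
        refine ENNReal.ofReal_le_ofReal (le_trans ?_ (hCp.trans
          (mul_le_mul_of_nonneg_right (le_max_left _ _) (Real.exp_pos _).le)))
        exact mul_le_mul_of_nonneg_right (pow_le_pow_left₀ (Nat.cast_nonneg _) hH 2) hB0

end Crest.Agent.R128
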