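import Crest.Agent.R128.Rec

/-! Orbits of the standard map. -/

set_option autoImplicit false

noncomputable section

open MeasureTheory Set

namespace Crest.Agent.R128

@[simp] theorem orb_zero (k : ℝ) (z : ℝ × ℝ) : orb k z 0 = z.1 := by
  exact rec2_left _ _ _ _

@[simp] theorem orb_one (k : ℝ) (z : ℝ × ℝ) : orb k z 1 = z.2 := by
  exact rec2_right (fun _ => phi k) 0 z.1 z.2

theorem orb_rec (k : ℝ) (z : ℝ × ℝ) (s : ℤ) :
    orb k z (s + 1) = phi k (orb k z s) - orb k z (s - 1) := by
  exact rec2_rec (fun _ => phi k) 0 z.1 z.2 s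

theorem orb_sp (k : ℝ) (t : ℤ) (z : ℝ × ℝ) (s : ℤ) : orb k (sp k t z) s = orb k z (s + t) := by
  have := eq_of_rec (g := fun _ => phi k) (u := orb k (sp k t z)) (w := fun s => orb k z (s + t))
    (orb_rec k _) (fun s => by
      have h := orb_rec k z (s + t)
      rw [show s + t + 1 = s + 1 + t by ring, show s + t - 1 = s - 1 + t by ring] at h
      exact h) 0 (by simp [sp]) (by simp [sp, add_comm])
  exact congrFun this s

@[simp] theorem sp_zero (k : ℝ) (z : ℝ × ℝ) : sp k 0 z = z := by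
  simp [sp]

theorem sp_sp (k : ℝ) (s t : ℤ) (z : ℝ × ℝ) : sp k s (sp k t z) = sp k (s + t) z := by
  simp only [sp]
  have h1 := orb_sp k t z s
  have h2 := orb_sp k t z (s + 1)
  simp only [sp] at h1 h2
  rw [h1, h2, show s + 1 + t = s + t + 1 by ring]

theorem sp_one (k : ℝ) (z : ℝ × ℝ) : sp k 1 z = (z.2, phi k z.2 - z.1) := by
  simp only [sp]
  rw [orb_rec]
  simp

theorem pot_sp (k : ℝ) (t : ℤ) (z : ℝ × ℝ) : pot k (sp k t z) = shift t (pot k z) := by
  funext s
  simp only [pot, shift, orb_sp]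

theorem orb_swap (k : ℝ) (z : ℝ × ℝ) (s : ℤ) : orb k z.swap s = orb k z (1 - s) := by
  have := eq_of_rec (g := fun _ => phi k) (u := orb k z.swap) (w := fun s => orb k z (1 - s))
    (orb_rec k _) (fun s => by
      have h := orb_rec k z (1 - s)
      rw [show 1 - s + 1 = 1 - (s - 1) by ring, show 1 - s - 1 = 1 - (s + 1) by ring] at h
      linarith) 0 (by simp) (by simp)
  exact congrFun this s

theorem pot_swap (k : ℝ) (z : ℝ × ℝ) : pot k z.swap = refl (pot k z) := by
  funext s
  simp only [pot, refl, orb_swap]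

theorem sp_swap (k : ℝ) (t : ℤ) (z : ℝ × ℝ) : sp k t z.swap = (sp k (-t) z).swap := by
  simp only [sp, orb_swap, Prod.swap_prod_mk]
  rw [show 1 - t = -t + 1 by ring, show 1 - (t + 1) = -t by ring]

theorem abs_vee_le {k : ℝ} (hk : 0 ≤ k) (x : ℝ) : |vee k x| ≤ Mk k - 2 := by
  have h1 : 0 ≤ 2 * Real.pi * k := by positivity
  have h2 := mul_le_mul_of_nonneg_left (Real.cos_le_one (2 * Real.pi * x)) h1
  have h3 := mul_le_mul_of_nonneg_left (Real.neg_one_le_cos (2 * Real.pi * x)) h1
  unfold vee Mk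
  rw [abs_le]
  constructor <;> linarith

theorem pot_bdd {k : ℝ} (hk : 0 ≤ k) (z : ℝ × ℝ) : Bdd (Mk k) (pot k z) := by
  exact fun s => abs_vee_le hk _

theorem nonneg_of_Mk {k : ℝ} (h : 4 ≤ Mk k) : 0 ≤ k := by
  unfold Mk at h
  exact nonneg_of_mul_nonneg_right (a := 2 * Real.pi) (by linarith) (by positivity)

theorem nonneg_of_big {k : ℝ} (h : (2 : ℝ) ^ 1000 ≤ Mk k) : 0 ≤ k := by
  refine nonneg_of_Mk (le_trans ?_ h)
  calc (4 : ℝ) = 2 ^ 2 := by norm_num
    _ ≤ 2 ^ 1000 := pow_le_pow_right₀ one_le_two (by omega)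

/-- The orbit of `z + (m,n)` differs from the orbit of `z` by integers (`int_ind2`). -/
theorem pot_per (k : ℝ) (z : ℝ × ℝ) (m n : ℤ) : pot k (z + ((m : ℝ), (n : ℝ))) = pot k z := by
  have hphi : ∀ (x : ℝ) (j : ℤ), phi k (x + j) = phi k x + 2 * j := fun x j => by
    unfold phi
    rw [show 2 * Real.pi * (x + j) = 2 * Real.pi * x + j * (2 * Real.pi) by ring,
      Real.sin_add_int_mul_two_pi]
    ring
  have key : ∀ s, ∃ j : ℤ, orb k (z + ((m : ℝ), (n : ℝ))) s = orb k z s + j := by
    refine int_ind2 0 ⟨m, by simp⟩ ⟨n, by simp⟩ ?_ ?_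
    · rintro s ⟨i, hi⟩ ⟨j, hj⟩
      refine ⟨2 * j - i, ?_⟩
      rw [orb_rec, orb_rec, hi, hj, hphi]
      push_cast
      ring
    · rintro s ⟨i, hi⟩ ⟨j, hj⟩
      refine ⟨2 * j - i, ?_⟩
      rw [orb_rec, orb_rec, hj, hphi] at hi
      push_cast
      linarith
  funext s
  obtain ⟨j, hj⟩ := key s
  simp only [pot, vee, hj]
  rw [show 2 * Real.pi * (orb k z s + j) = 2 * Real.pi * orb k z s + j * (2 * Real.pi) by ring,
    Real.cos_add_int_mul_two_pi]

theorem per_pot (k : ℝ) (S : Set (ℤ → ℝ)) : Per (pot k ⁻¹' S) := by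
  intro z m n
  rw [mem_preimage, mem_preimage, pot_per]

theorem hasDerivAt_phi (k x : ℝ) : HasDerivAt (phi k) (vee k x) x := by
  have h1 : HasDerivAt (fun x => 2 * Real.pi * x) (2 * Real.pi) x := by
    simpa using (hasDerivAt_id x).const_mul (2 * Real.pi)
  have h2 : HasDerivAt (fun x : ℝ => 2 * x) 2 x := by
    simpa using (hasDerivAt_id x).const_mul (2 : ℝ)
  have h3 := h2.fun_add (h1.sin.const_mul k)
  have e : vee k x = 2 + k * (Real.cos (2 * Real.pi * x) * (2 * Real.pi)) := by
    unfold vee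
    ring
  rw [e]
  exact h3

theorem phi_lip {k : ℝ} (hk : 0 ≤ k) (x y : ℝ) : |phi k x - phi k y| ≤ (Mk k - 2) * |x - y| := by
  have h1 := Real.abs_sin_sub_sin_le (2 * Real.pi * x) (2 * Real.pi * y)
  rw [← mul_sub, abs_mul, abs_of_pos (by positivity : 0 < 2 * Real.pi)] at h1
  have e : phi k x - phi k y =
      2 * (x - y) + k * (Real.sin (2 * Real.pi * x) - Real.sin (2 * Real.pi * y)) := by
    unfold phi
    ring
  rw [e]
  refine (abs_add_le _ _).trans ?_
  rw [abs_mul, abs_mul, abs_of_nonneg hk, abs_two]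
  unfold Mk
  nlinarith [mul_le_mul_of_nonneg_left h1 hk]

theorem vee_lip {k : ℝ} (hk : 0 ≤ k) (x y : ℝ) : |vee k x - vee k y| ≤ 7 * Mk k * |x - y| := by
  have h1 := Real.abs_cos_sub_cos_le (2 * Real.pi * x) (2 * Real.pi * y)
  rw [← mul_sub, abs_mul, abs_of_pos (by positivity : 0 < 2 * Real.pi)] at h1
  have e : vee k x - vee k y =
      2 * Real.pi * k * (Real.cos (2 * Real.pi * x) - Real.cos (2 * Real.pi * y)) := by
    unfold vee
    ring
  have hK : 0 ≤ 2 * Real.pi * k := by positivity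
  rw [e, abs_mul, abs_of_nonneg hK]
  refine (mul_le_mul_of_nonneg_left h1 hK).trans ?_
  rw [← mul_assoc]
  refine mul_le_mul_of_nonneg_right ?_ (abs_nonneg _)
  have h2 : 2 * Real.pi ≤ 7 := by linarith [Real.pi_lt_d2]
  unfold Mk
  nlinarith [mul_le_mul_of_nonneg_left h2 hK]

/-- `|φ''| ≤ 4π² k = 2π (M - 4)`, so the remainder is `≤ π M h²`. -/
theorem phi_taylor {k : ℝ} (hk : 0 ≤ k) (x h : ℝ) :
    |phi k (x + h) - phi k x - vee k x * h| ≤ 4 * Mk k * h ^ 2 := by
  have hM : 0 ≤ Mk k := by unfold Mk; positivity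
  have hd : ∀ t : ℝ, HasDerivAt (fun t => phi k (x + t * h) - phi k x - vee k x * (t * h))
      (vee k (x + t * h) * h - vee k x * h) t := fun t => by
    have h1 : HasDerivAt (fun t : ℝ => t * h) h t := by simpa using (hasDerivAt_id t).mul_const h
    exact (((hasDerivAt_phi k (x + t * h)).comp t (h1.const_add x)).sub_const _).sub
      (h1.const_mul _)
  have hB : ∀ t : ℝ, HasDerivAt (fun t : ℝ => 4 * Mk k * h ^ 2 * (t * t))
      (4 * Mk k * h ^ 2 * (1 * t + t * 1)) t := fun t =>
    ((hasDerivAt_id t).mul (hasDerivAt_id t)).const_mul _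
  have key := image_norm_le_of_norm_deriv_right_le_deriv_boundary (a := 0) (b := 1)
    (fun t _ => (hd t).continuousAt.continuousWithinAt) (fun t _ => (hd t).hasDerivWithinAt)
    (by simp) hB (fun t ht => by
      rw [← sub_mul, Real.norm_eq_abs, abs_mul]
      refine (mul_le_mul_of_nonneg_right (vee_lip hk _ _) (abs_nonneg h)).trans ?_
      rw [add_sub_cancel_left, abs_mul, abs_of_nonneg ht.1, mul_assoc, mul_assoc t, abs_mul_abs_self]
      nlinarith [mul_nonneg hM (mul_nonneg ht.1 (mul_self_nonneg h))])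
    (show (1 : ℝ) ∈ Icc (0 : ℝ) 1 from ⟨zero_le_one, le_rfl⟩)
  simpa using key

theorem continuous_orb (k : ℝ) (s : ℤ) : Continuous fun z => orb k z s := by
  have hc : Continuous (phi k) := by unfold phi; fun_prop
  refine int_ind2 (P := fun s => Continuous fun z => orb k z s) 0 ?_ ?_ ?_ ?_ s
  · simp only [orb_zero]; fun_prop
  · simp only [zero_add, orb_one]; fun_prop
  · intro s a b
    simp only [orb_rec]
    exact (hc.comp b).sub a
  · intro s a b
    have e : (fun z => orb k z (s - 1)) = fun z => phi k (orb k z s) - orb k z (s + 1) := by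
      funext z
      rw [orb_rec]
      ring
    rw [e]
    exact (hc.comp b).sub a

theorem continuous_pot (k : ℝ) : Continuous (pot k) := by
  have hc : Continuous (vee k) := by unfold vee; fun_prop
  exact continuous_pi fun s => hc.comp (continuous_orb k s)

theorem measurable_pot (k : ℝ) : Measurable (pot k) := by
  exact measurable_pi_lambda _ fun s =>
    ((continuous_apply s).comp (continuous_pot k)).measurable

theorem continuous_sp (k : ℝ) (t : ℤ) : Continuous (sp k t) := by
  exact (continuous_orb k t).prodMk (continuous_orb k (t + 1))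

/-- Two-sided induction (`int_ind2`) with the chain rule. -/
theorem hasFDerivAt_orb (k : ℝ) (z : ℝ × ℝ) (s : ℤ) :
    HasFDerivAt (fun z => orb k z s)
      (sol (pot k z) 0 1 0 s • ContinuousLinearMap.fst ℝ ℝ ℝ +
        sol (pot k z) 0 0 1 s • ContinuousLinearMap.snd ℝ ℝ ℝ) z := by
  refine int_ind2 (P := fun s => HasFDerivAt (fun z => orb k z s)
      (sol (pot k z) 0 1 0 s • ContinuousLinearMap.fst ℝ ℝ ℝ +
        sol (pot k z) 0 0 1 s • ContinuousLinearMap.snd ℝ ℝ ℝ) z) 0 ?_ ?_ ?_ ?_ s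
  · simp only [orb_zero, sol_left, one_smul, zero_smul, add_zero]
    exact hasFDerivAt_fst
  · simp only [sol_right, one_smul, zero_smul]
    simp only [zero_add, orb_one]
    exact hasFDerivAt_snd
  · intro s a b
    have h := ((hasDerivAt_phi k (orb k z s)).comp_hasFDerivAt z b).fun_sub a
    simp only [orb_rec]
    refine h.congr_fderiv ?_
    rw [sol_isSol (pot k z) 0 1 0 s, sol_isSol (pot k z) 0 0 1 s]
    simp only [pot]
    module
  · intro s a b
    have h := ((hasDerivAt_phi k (orb k z s)).comp_hasFDerivAt z b).fun_sub a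
    have e : (fun z => orb k z (s - 1)) = fun z => phi k (orb k z s) - orb k z (s + 1) := by
      funext z
      rw [orb_rec]
      ring
    rw [e]
    refine h.congr_fderiv ?_
    rw [sol_isSol (pot k z) 0 1 0 s, sol_isSol (pot k z) 0 0 1 s]
    simp only [pot]
    module

theorem hasFDerivAt_sp (k : ℝ) (t : ℤ) (z : ℝ × ℝ) :
    HasFDerivAt (sp k t) (tm (pot k z) 0 t) z := by
  exact (hasFDerivAt_orb k z t).prodMk (hasFDerivAt_orb k z (t + 1))

theorem orb_nat (k a t : ℝ) (n : ℕ) : orb k (a, t) n = rX k a t n := by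
  have := rec2_nat (fun _ => phi k) 0 a t n
  rw [zero_add] at this
  exact this

theorem orb_neg_nat (k a t : ℝ) (n : ℕ) : orb k (a, t) (-(n : ℤ)) = rX k a (phi k a - t) n := by
  rw [← orb_nat]
  have := eq_of_rec (g := fun _ => phi k) (u := fun s => orb k (a, t) (-s))
    (w := orb k (a, phi k a - t)) (fun s => by
      have h := orb_rec k (a, t) (-s)
      rw [show -s + 1 = -(s - 1) by ring, show -s - 1 = -(s + 1) by ring] at h
      linarith) (orb_rec k _) 0 (by simp) (by
      have h := orb_rec k (a, t) 0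
      simp only [zero_add, orb_one, orb_zero, zero_sub] at h ⊢
      linarith)
  exact congrFun this n

end Crest.Agent.R128
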