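import Crest.Agent.R128.Orb

/-! Invariance of Lebesgue measure on the plane and for periodic sets. -/

set_option autoImplicit false

noncomputable section

open MeasureTheory Set

namespace Crest.Agent.R128

/-- On the plane: `(a,b) ↦ (b, ψ b - a)` is a swap followed by a skew product whose fibres
`a ↦ ψ b - a` preserve Lebesgue measure. -/
theorem measurePreserving_skew {ψ : ℝ → ℝ} (hψ : Measurable ψ) :
    MeasurePreserving (fun z : ℝ × ℝ => (z.2, ψ z.2 - z.1)) volume volume := by
  have h1 : MeasurePreserving (fun p : ℝ × ℝ => (id p.1, (fun b a : ℝ => ψ b - a) p.1 p.2))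
      ((volume : Measure ℝ).prod (volume : Measure ℝ))
      ((volume : Measure ℝ).prod (volume : Measure ℝ)) := by
    refine MeasurePreserving.skew_product (μc := (volume : Measure ℝ)) (μd := (volume : Measure ℝ))
      (g := fun b a : ℝ => ψ b - a) (MeasurePreserving.id (volume : Measure ℝ)) ?_ ?_
    · exact (hψ.comp measurable_fst).sub measurable_snd
    · exact Filter.Eventually.of_forall fun b =>
        (Measure.measurePreserving_sub_left (volume : Measure ℝ) (ψ b)).map_eq
  have h2 : MeasurePreserving (Prod.swap : ℝ × ℝ → ℝ × ℝ)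
      ((volume : Measure ℝ).prod (volume : Measure ℝ))
      ((volume : Measure ℝ).prod (volume : Measure ℝ)) := Measure.measurePreserving_swap
  exact h1.comp h2

theorem per_measurePreserving_swap :
    MeasurePreserving (Prod.swap : ℝ × ℝ → ℝ × ℝ) volume volume :=
  (Measure.measurePreserving_swap :
    MeasurePreserving (Prod.swap : ℝ × ℝ → ℝ × ℝ)
      ((volume : Measure ℝ).prod (volume : Measure ℝ))
      ((volume : Measure ℝ).prod (volume : Measure ℝ)))

theorem per_measurePreserving_sp_nat (k : ℝ) (n : ℕ) :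
    MeasurePreserving (sp k (n : ℤ)) volume volume := by
  induction n with
  | zero =>
    have : sp k ((0 : ℕ) : ℤ) = id := by
      funext z
      simp
    rw [this]
    exact MeasurePreserving.id _
  | succ n ih =>
    have hphi : Measurable (phi k) :=
      (continuous_iff_continuousAt.2 fun x => (hasDerivAt_phi k x).continuousAt).measurable
    have : sp k ((n + 1 : ℕ) : ℤ) =
        (fun z : ℝ × ℝ => (z.2, phi k z.2 - z.1)) ∘ sp k (n : ℤ) := by
      funext z
      rw [Function.comp_apply, ← sp_one, sp_sp]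
      congr 1
      push_cast
      ring
    rw [this]
    exact (measurePreserving_skew hphi).comp ih

/-- Induction on `t` in both directions (`sp_sp`, `sp_one`; for the inverse use that a bijective
measure-preserving map has a measure-preserving inverse, or `sp_swap`). -/
theorem measurePreserving_sp (k : ℝ) (t : ℤ) : MeasurePreserving (sp k t) volume volume := by
  obtain ⟨n, rfl | rfl⟩ := Int.eq_nat_or_neg t
  · exact per_measurePreserving_sp_nat k n
  · have : sp k (-(n : ℤ)) = Prod.swap ∘ sp k (n : ℤ) ∘ Prod.swap := by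
      funext z
      simp only [Function.comp_apply]
      rw [sp_swap, Prod.swap_swap]
    rw [this]
    exact per_measurePreserving_swap.comp
      ((per_measurePreserving_sp_nat k n).comp per_measurePreserving_swap)

theorem per_measurableSet_Q0 : MeasurableSet Q0 := measurableSet_Ico.prod measurableSet_Ico

theorem per_one_dim {S : Set ℝ} (hS : MeasurableSet S) (hp : ∀ (x : ℝ) (n : ℤ), x + n ∈ S ↔ x ∈ S)
    (c : ℝ) : volume ((fun a : ℝ => c - a) ⁻¹' S ∩ Ico 0 1) = volume (S ∩ Ico 0 1) := by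
  have h1 : (fun a : ℝ => c - a) ⁻¹' S ∩ Ico 0 1 =
      (fun a : ℝ => c - a) ⁻¹' (S ∩ Ioc (c - 1) (c - 1 + 1)) := by
    ext a
    simp only [mem_inter_iff, mem_preimage, mem_Ico, mem_Ioc]
    constructor
    · rintro ⟨h, h2, h3⟩
      exact ⟨h, by linarith, by linarith⟩
    · rintro ⟨h, h2, h3⟩
      exact ⟨h, by linarith, by linarith⟩
  rw [h1, (Measure.measurePreserving_sub_left (volume : Measure ℝ) c).measure_preimage
    (hS.inter measurableSet_Ioc).nullMeasurableSet]
  have h2 := (isAddFundamentalDomain_Ioc (T := (1 : ℝ)) one_pos (c - 1) volume).measure_set_eq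
    (isAddFundamentalDomain_Ioc (T := (1 : ℝ)) one_pos 0 volume) hS (by
      intro g
      obtain ⟨g, hg⟩ := g
      obtain ⟨n, rfl⟩ := AddSubgroup.mem_zmultiples_iff.1 hg
      ext x
      simp only [mem_preimage]
      have : ((⟨n • (1 : ℝ), hg⟩ : AddSubgroup.zmultiples (1 : ℝ)) +ᵥ x) = x + n := by
        change n • (1 : ℝ) + x = x + n
        simp [add_comm]
      rw [this]
      exact hp x n)
  rw [h2, zero_add]
  exact measure_congr (ae_eq_set_inter (Filter.EventuallyEq.refl _ _) Ico_ae_eq_Ioc.symm)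

/-- Fubini and one-dimensional periodicity: for fixed `b` the set `{c | (b,c) ∈ A}` is `1`-periodic, so its
measure in `(ψ b - 1, ψ b]` equals its measure in `[0,1)`. -/
theorem per_skew {ψ : ℝ → ℝ} (hψ : Measurable ψ) {A : Set (ℝ × ℝ)} (hA : MeasurableSet A)
    (hp : Per A) :
    volume ((fun z : ℝ × ℝ => (z.2, ψ z.2 - z.1)) ⁻¹' A ∩ Q0) = volume (A ∩ Q0) := by
  have hm : MeasurableSet ((fun z : ℝ × ℝ => (z.2, ψ z.2 - z.1)) ⁻¹' A ∩ Q0) :=
    ((measurePreserving_skew hψ).measurable hA).inter per_measurableSet_Q0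
  rw [Measure.volume_eq_prod, Measure.prod_apply_symm hm,
    Measure.prod_apply (hA.inter per_measurableSet_Q0)]
  refine lintegral_congr fun b => ?_
  by_cases hb : b ∈ Ico (0 : ℝ) 1
  · have hS : MeasurableSet (Prod.mk b ⁻¹' A) := measurable_prodMk_left hA
    have h := per_one_dim hS (fun x n => by
      have := hp (b, x) 0 n
      simpa using this) (ψ b)
    convert h using 2
    · ext a
      simp only [Q0, mem_preimage, mem_inter_iff, mem_prod, hb, and_true]
    · ext a
      simp only [Q0, mem_preimage, mem_inter_iff, mem_prod, hb, true_and]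
  · have h1 : (fun x : ℝ => (x, b)) ⁻¹' ((fun z : ℝ × ℝ => (z.2, ψ z.2 - z.1)) ⁻¹' A ∩ Q0) = ∅ := by
      ext a
      simp only [Q0, mem_preimage, mem_inter_iff, mem_prod, hb, and_false, mem_empty_iff_false]
    have h2 : Prod.mk b ⁻¹' (A ∩ Q0) = ∅ := by
      ext a
      simp only [Q0, mem_preimage, mem_inter_iff, mem_prod, hb, false_and, and_false,
        mem_empty_iff_false]
    rw [h1, h2]

theorem per_swap {A : Set (ℝ × ℝ)} (hA : MeasurableSet A) :
    volume (Prod.swap ⁻¹' A ∩ Q0) = volume (A ∩ Q0) := by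
  have h1 : Prod.swap ⁻¹' A ∩ Q0 = Prod.swap ⁻¹' (A ∩ Q0) := by
    ext z
    simp only [Q0, mem_inter_iff, mem_preimage, mem_prod, Prod.fst_swap, Prod.snd_swap]
    tauto
  rw [h1, per_measurePreserving_swap.measure_preimage
    (hA.inter per_measurableSet_Q0).nullMeasurableSet]

/-- `[-2,3)²` is the union of 25 integer translates of `Q0`. -/
theorem per_big {A : Set (ℝ × ℝ)} (hp : Per A) :
    volume (A ∩ Ico (-2 : ℝ) 3 ×ˢ Ico (-2 : ℝ) 3) ≤ 25 * volume (A ∩ Q0) := by
  have hsub : A ∩ Ico (-2 : ℝ) 3 ×ˢ Ico (-2 : ℝ) 3 ⊆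
      ⋃ q ∈ (Finset.Icc (-2 : ℤ) 2 ×ˢ Finset.Icc (-2 : ℤ) 2),
        (fun z : ℝ × ℝ => z + (((-q.1 : ℤ) : ℝ), ((-q.2 : ℤ) : ℝ))) ⁻¹' (A ∩ Q0) := by
    rintro ⟨x, y⟩ ⟨hA, ⟨hx1, hx2⟩, ⟨hy1, hy2⟩⟩
    simp only [mem_iUnion]
    refine ⟨(⌊x⌋, ⌊y⌋), ?_, ?_, ?_⟩
    · simp only [Finset.mem_product, Finset.mem_Icc]
      have a1 : (-2 : ℤ) ≤ ⌊x⌋ := Int.le_floor.2 (by exact_mod_cast hx1)
      have a2 : ⌊x⌋ < 3 := Int.floor_lt.2 (by exact_mod_cast hx2)
      have a3 : (-2 : ℤ) ≤ ⌊y⌋ := Int.le_floor.2 (by exact_mod_cast hy1)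
      have a4 : ⌊y⌋ < 3 := Int.floor_lt.2 (by exact_mod_cast hy2)
      omega
    · exact (hp _ _ _).2 hA
    · have a1 := Int.floor_le x
      have a2 := Int.lt_floor_add_one x
      have a3 := Int.floor_le y
      have a4 := Int.lt_floor_add_one y
      simp only [Q0, mem_prod, mem_Ico, Prod.fst_add, Prod.snd_add, Int.cast_neg]
      refine ⟨⟨?_, ?_⟩, ?_, ?_⟩ <;> linarith
  refine (measure_mono hsub).trans ((measure_biUnion_finset_le _ _).trans ?_)
  simp only [measure_preimage_add_right, Finset.sum_const, Finset.card_product, Int.card_Icc,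
    nsmul_eq_mul]
  have h5 : ((2 : ℤ) + 1 - -2).toNat = 5 := by decide
  rw [h5]
  norm_num

theorem volume_Q0 : volume Q0 = 1 := by
  rw [Q0, Measure.volume_eq_prod, Measure.prod_prod]
  simp

end Crest.Agent.R128
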