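import Crest.Agent.R128.Key

/-! Linear perturbation of a Pliss solution. -/

set_option autoImplicit false

noncomputable section

open MeasureTheory Set

namespace Crest.Agent.R128

theorem pert_small {M : ℝ} (hM : (2 : ℝ) ^ 1000 ≤ M) :
    M * (M ^ (-(9 / 10 : ℝ))) ^ 2 ≤ 1 / 40 := by
  have h16 : (1600 : ℝ) ≤ M :=
    le_trans (by norm_num) ((pow_le_pow_right₀ (by norm_num : (1 : ℝ) ≤ 2)
      (by norm_num : 11 ≤ 1000)).trans hM)
  clear hM
  have hM0 : 0 < M := by linarith
  have hM1 : 1 ≤ M := by linarith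
  have e : M * (M ^ (-(9 / 10 : ℝ))) ^ 2 = M ^ (-(4 / 5 : ℝ)) := by
    rw [sq, ← Real.rpow_add hM0]
    nth_rewrite 1 [← Real.rpow_one M]
    rw [← Real.rpow_add hM0]
    norm_num
  have e2 : (1600 : ℝ) ^ (-(1 / 2 : ℝ)) = 1 / 40 := by
    have : (1600 : ℝ) = 40 ^ (2 : ℝ) := by norm_num
    rw [this, ← Real.rpow_mul (by norm_num)]
    norm_num [Real.rpow_neg_one]
  rw [e, ← e2]
  exact (Real.rpow_le_rpow_of_exponent_le hM1 (by norm_num)).trans
    (Real.rpow_le_rpow_of_nonpos (by norm_num) h16 (by norm_num))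

/-- Let `B s = M^(-(9/10)(b-s)) nu u b`, `E = w - u`.  `E` vanishes at cut `a` and
`E (s+1) = v s E s - E (s-1) + (v' s - v s) w s`.  By induction on `s ∈ [a,b]`:
`nu E s ≤ 52 M^(1 - (9/10)(b+1-s)) B (s-1)` (which is `≤ B s / 2`). -/
theorem lin_pert {M : ℝ} (hM : (2 : ℝ) ^ 1000 ≤ M) {v v' u w : ℤ → ℝ} (hv : Bdd M v)
    (hu : IsSol v u) (hw : IsSol v' w) {a b : ℤ} (hab : a ≤ b) (h0 : w a = u a)
    (h1 : w (a + 1) = u (a + 1))
    (hP : ∀ s, a ≤ s → s ≤ b → nu u s ≤ M ^ (-(9 / 10 * ((b : ℝ) - s))) * nu u b)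
    (hd : ∀ s, a < s → s ≤ b → |v' s - v s| ≤ 13 * M * M ^ (-(9 / 10 * ((b : ℝ) + 1 - s)))) :
    nu u b ≤ 2 * nu w b := by
  have hκ := pert_small hM
  clear hM
  have hM2 : 2 ≤ M := hv.two_le
  have hM0 : 0 < M := by linarith
  have hM1 : 1 ≤ M := by linarith
  set r : ℝ := M ^ (-(9 / 10 : ℝ)) with hr
  set N : ℝ := nu u b with hN
  have hN0 : 0 ≤ N := nu_nonneg u b
  let P : ℤ → ℝ := fun s => M ^ (-(9 / 10 * ((b : ℝ) - s)))
  have hP0 : ∀ s, 0 < P s := fun s => Real.rpow_pos_of_pos hM0 _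
  have hP1 : ∀ s, s ≤ b → P s ≤ 1 := by
    intro s hs
    have : (s : ℝ) ≤ b := by exact_mod_cast hs
    exact Real.rpow_le_one_of_one_le_of_nonpos hM1 (by linarith)
  have hPs : ∀ s, P s = r * P (s + 1) := by
    intro s
    simp only [P, hr]
    rw [← Real.rpow_add hM0]
    congr 1
    push_cast
    ring
  let E : ℤ → ℝ := fun s => w s - u s
  have key : ∀ s, a ≤ s → s ≤ b → nu E s ≤ 1 / 2 * P s ^ 2 * N := by
    intro s hs
    induction s, hs using Int.leInduction with
    | base =>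
      intro _
      have : nu E a = 0 := by simp [nu, E, h0, h1]
      rw [this]
      have := hP0 a
      positivity
    | succ s hs ih =>
      intro hsb
      have ih' := ih (by omega)
      have p0 := hP0 s
      have p1 := hP1 s (by omega)
      have hu1 : |u (s + 1)| ≤ P s * N := (abs_succ_le_nu u s).trans (hP s hs (by omega))
      have hd1 : |v' (s + 1) - v (s + 1)| ≤ 13 * M * P s := by
        have := hd (s + 1) (by omega) hsb
        have e : ((b : ℝ) + 1 - ((s + 1 : ℤ) : ℝ)) = (b : ℝ) - s := by push_cast; ring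
        rwa [e] at this
      have e0 : |E s| ≤ nu E s := abs_le_nu E s
      have e1 : |E (s + 1)| ≤ nu E s := abs_succ_le_nu E s
      have hE0 : 0 ≤ nu E s := nu_nonneg E s
      have hPN : 0 ≤ P s ^ 2 * N := by positivity
      have hhalf : nu E s ≤ 1 / 2 * (P s * N) := by
        have : P s ^ 2 * N ≤ P s * N := mul_le_mul_of_nonneg_right (by nlinarith) hN0
        linarith
      have hw1 : |w (s + 1)| ≤ 3 / 2 * (P s * N) := by
        have e : w (s + 1) = u (s + 1) + E (s + 1) := by simp [E]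
        rw [e]
        linarith [abs_add_le (u (s + 1)) (E (s + 1))]
      have hrec : E (s + 1 + 1) =
          v (s + 1) * E (s + 1) - E s + (v' (s + 1) - v (s + 1)) * w (s + 1) := by
        have h2 := hu (s + 1)
        have h3 := hw (s + 1)
        rw [add_sub_cancel_right] at h2 h3
        simp only [E]
        rw [h2, h3]
        ring
      have hA : |v (s + 1) * E (s + 1)| ≤ (M - 2) * nu E s := by
        rw [abs_mul]
        exact mul_le_mul (hv _) e1 (abs_nonneg _) (by linarith)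
      have hB : |(v' (s + 1) - v (s + 1)) * w (s + 1)| ≤ 13 * M * P s * (3 / 2 * (P s * N)) := by
        rw [abs_mul]
        exact mul_le_mul hd1 hw1 (abs_nonneg _) (by positivity)
      have hC : M * nu E s ≤ M * (1 / 2 * P s ^ 2 * N) := mul_le_mul_of_nonneg_left ih' hM0.le
      have hD : |E (s + 1 + 1)| ≤ 20 * M * (P s ^ 2 * N) := by
        rw [hrec]
        have t1 := abs_add_le (v (s + 1) * E (s + 1) - E s) ((v' (s + 1) - v (s + 1)) * w (s + 1))
        have t2 := abs_sub (v (s + 1) * E (s + 1)) (E s)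
        nlinarith
      have hD' : |E (s + 1)| ≤ 20 * M * (P s ^ 2 * N) := by
        have := mul_le_mul_of_nonneg_right hM1 hPN
        linarith
      have hfin : 20 * M * (P s ^ 2 * N) ≤ 1 / 2 * P (s + 1) ^ 2 * N := by
        have hq : 0 ≤ P (s + 1) ^ 2 * N := by have := hP0 (s + 1); positivity
        have := mul_le_mul_of_nonneg_right hκ hq
        rw [hPs s]
        nlinarith
      exact max_le (hD'.trans hfin) (hD.trans hfin)
  have hb := key b hab le_rfl
  have hPb : P b = 1 := by simp [P]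
  rw [hPb] at hb
  have hle : N ≤ nu w b + nu E b := by
    refine max_le ?_ ?_
    · have e : u b = w b - E b := by simp [E]
      rw [e]
      linarith [abs_sub (w b) (E b), abs_le_nu w b, abs_le_nu E b]
    · have e : u (b + 1) = w (b + 1) - E (b + 1) := by simp [E]
      rw [e]
      linarith [abs_sub (w (b + 1)) (E (b + 1)), abs_succ_le_nu w b, abs_succ_le_nu E b]
  linarith

/-- For `l ≤ G` take the basis solution of `nrm_le_basis` at cut `b - l`, apply `pliss` (with `G := l`) and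
`lin_pert`; `nu w b ≤ nrm v' (b-l) b`. -/
theorem nrm_pert {M : ℝ} (hM : (2 : ℝ) ^ 1000 ≤ M) {v v' : ℤ → ℝ} (hv : Bdd M v) (b : ℤ) (G : ℕ)
    (hreg : ∀ l : ℕ, 1 ≤ l → l ≤ G → dfc M v (b - l) b ≤ l / 50)
    (hd : ∀ s, b - G < s → s ≤ b → |v' s - v s| ≤ 13 * M * M ^ (-(9 / 10 * ((b : ℝ) + 1 - s)))) :
    ∀ l : ℕ, l ≤ G → nrm v (b - l) b ≤ 8 * nrm v' (b - l) b := by
  intro l hl
  have hM1 : 1 ≤ M := one_le_two.trans hv.two_le
  have key : ∀ p q : ℝ, max |p| |q| = 1 → nrm v (b - l) b ≤ 4 * nu (sol v (b - l) p q) b →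
      nrm v (b - l) b ≤ 8 * nrm v' (b - l) b := by
    intro p q hpq hbig
    have hu := sol_isSol v (b - l) p q
    have hw := sol_isSol v' (b - l) p q
    have hua : nu (sol v (b - l) p q) (b - l) = 1 := by rw [nu_sol_self, hpq]
    have hwa : nu (sol v' (b - l) p q) (b - l) = 1 := by rw [nu_sol_self, hpq]
    have hp : ∀ s, 0 < nu (sol v (b - l) p q) s := hu.nu_pos (a := b - l) (by rw [hua]; norm_num)
    have hpl := pliss hM hv hu hp b l (fun l' h1 h2 => hreg l' h1 (h2.trans hl))
      (by rw [hua, mul_one]; exact hbig)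
    have h2 := lin_pert hM hv hu hw (a := b - l) (b := b) (by omega) (by simp) (by simp)
      (fun s h1 h2 => by
        obtain ⟨n, hn⟩ := Int.eq_ofNat_of_zero_le (sub_nonneg.mpr h2)
        have hs : s = b - n := by omega
        have hn' : (b : ℝ) - s = n := by exact_mod_cast hn
        have h3 := hpl n (by omega)
        rw [← hs] at h3
        refine h3.trans (mul_le_mul_of_nonneg_right ?_ (nu_nonneg _ _))
        rw [hn']
        have : (0 : ℝ) ≤ n := Nat.cast_nonneg n
        exact Real.rpow_le_rpow_of_exponent_le hM1 (by clear hM; linarith))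
      (fun s h1 h2 => hd s (by omega) h2)
    have h3 := nu_le_nrm hw (b - l) b
    rw [hwa, mul_one] at h3
    linarith
  rcases nrm_le_basis v (b - l) b with h | h
  · exact key 1 0 (by simp) h
  · exact key 0 1 (by simp) h

end Crest.Agent.R128
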