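import Crest.Agent.R128.PorMid

/-! Porosity, case IIa: matched poles, no cancellation. -/

set_option autoImplicit false

noncomputable section

open MeasureTheory Set

namespace Crest.Agent.R128

theorem porIIa_sq {s : Sd} {K C₀ ε₀ b : ℝ} (h : s.Ok K C₀ ε₀ b) (hε : ε₀ ≤ 1 / 1000) (hb : |b| ≤ 1)
    {u : ℝ} (hu : u ∈ Icc (-2 : ℝ) 2) : s.dy u ^ 2 ≤ 2 := by
  have h1 := h.near u hu
  have hb0 := abs_nonneg b
  have h2 : ε₀ * |b| ≤ 1 / 1000 * |b| := mul_le_mul_of_nonneg_right hε hb0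
  have h3 := abs_abs_sub_abs_le_abs_sub (s.dy u) b
  have h4 := abs_le.1 (h3.trans (h1.trans h2))
  have h5 := abs_nonneg (s.dy u)
  rw [← sq_abs (s.dy u)]
  nlinarith [h4.1, h4.2]

theorem porIIa_D_le {s : Sd} {K C₀ ε₀ b : ℝ} (h : s.Ok K C₀ ε₀ b) (hε : ε₀ ≤ 1 / 1000) (hb : |b| ≤ 1)
    (hK : 0 ≤ K) {u : ℝ} (hu : u ∈ Icc (-2 : ℝ) 2) {X : ℝ}
    (hX : K * |Real.cos (2 * Real.pi * s.y u)| + 3 ≤ X) : |s.D u| ≤ 2 * X := by
  rw [h.Deq u hu, abs_mul, abs_of_nonneg (sq_nonneg _)]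
  have h1 := abs_le.1 (h.eps u hu)
  have h2 : |2 + K * Real.cos (2 * Real.pi * s.y u) - s.e u| ≤ X := by
    have h3 : |K * Real.cos (2 * Real.pi * s.y u)| = K * |Real.cos (2 * Real.pi * s.y u)| := by
      rw [abs_mul, abs_of_nonneg hK]
    have h4 := abs_le.1 h3.le
    rw [abs_le]
    constructor <;> linarith [h1.1, h1.2, h4.1, h4.2]
  exact mul_le_mul (porIIa_sq h hε hb hu) h2 (abs_nonneg _) (by positivity)

theorem porIIa_sin {d : ℝ} (h0 : 0 ≤ d) (h1 : d ≤ 1 / 4) : 4 * d ≤ Real.sin (2 * Real.pi * d) := by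
  have hpi := Real.pi_pos
  have h := Real.mul_le_sin (x := 2 * Real.pi * d) (by positivity) (by nlinarith)
  have e : 2 / Real.pi * (2 * Real.pi * d) = 4 * d := by field_simp; ring
  linarith

theorem porIIa_sign {s : Sd} {K C₀ ε₀ b τ d : ℝ} (h : s.Ok K C₀ ε₀ b) (hε : ε₀ ≤ 1 / 1000)
    {u : ℝ} (hu : u ∈ Icc (-2 : ℝ) 2) (hτ : τ = 1 ∨ τ = -1)
    (hcos : Real.cos (2 * Real.pi * s.y u) = τ * Real.sin (2 * Real.pi * d))
    (hS : 3 ≤ K * Real.sin (2 * Real.pi * d)) : 0 ≤ τ * s.D u := by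
  rw [h.Deq u hu, hcos]
  have h1 := abs_le.1 (h.eps u hu)
  have h2 : 0 ≤ τ * (2 + K * (τ * Real.sin (2 * Real.pi * d)) - s.e u) := by
    rcases hτ with rfl | rfl <;> nlinarith [h1.1, h1.2]
  have h3 := mul_nonneg (sq_nonneg (s.dy u)) h2
  linarith [show s.dy u ^ 2 * (τ * (2 + K * (τ * Real.sin (2 * Real.pi * d)) - s.e u)) =
    τ * (s.dy u ^ 2 * (2 + K * (τ * Real.sin (2 * Real.pi * d)) - s.e u)) by ring]

theorem porIIa_inv {τ D D' X : ℝ} (hτ : τ = 1 ∨ τ = -1) (h1 : 0 ≤ τ * D) (h2 : 0 ≤ τ * D')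
    (hD : D ≠ 0) (hX : |D| ≤ X) : 1 / X ≤ |1 / D + 1 / D'| := by
  have hD0 : 0 < |D| := abs_pos.2 hD
  have h3 : 1 / X ≤ 1 / |D| := one_div_le_one_div_of_le hD0 hX
  refine h3.trans ?_
  rcases hτ with rfl | rfl
  · have a1 : 0 ≤ D := by linarith
    have a2 : 0 ≤ 1 / D' := one_div_nonneg.2 (by linarith)
    rw [abs_of_nonneg a1]
    exact le_trans (by linarith) (le_abs_self _)
  · have a1 : D ≤ 0 := by linarith
    have a2 : 1 / D' ≤ 0 := one_div_nonpos.2 (by linarith)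
    rw [abs_of_nonpos a1, div_neg]
    exact le_trans (by linarith) (neg_le_abs _)

/-- `j` even.  `por_mid` with `A = 5 K`.  At a point `x ∈ E ∩ [u₀ + 2c, u₀ + 2c + δ]`, `δ ≤ c`: both
`y - Y₀ ∈ [1.9c, 3.1c]` and `σ z - j/2 - Y₀ ∈ [0.9c, 4.1c]` lie in `(0, 1/4]`, so by `cos_pole` the two cosines
have the same sign and `K |cos| > 3`; `D` and `D'` have the same sign and
`|1/D + 1/D'| ≥ 1/|D| ≥ 1/(50 c K)`.  Contradiction for `c` small. -/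
theorem por_IIa : ∃ c > 0, ∃ δ > 0, ∃ K₁ : ℝ, ∀ K ≥ K₁,
    ∀ (C₀ ε₀ b σ : ℝ) (s₁ s₂ : Sd) (G : ℝ → ℝ) (E : Set ℝ),
      0 < ε₀ → ε₀ ≤ 1 / 1000 → PorData K C₀ ε₀ b s₁ s₂ G E → 1 / 2 ≤ |b| →
      ∀ (u₀ : ℝ) (j₀ j : ℤ), u₀ ∈ Icc (-(11 / 10) : ℝ) (11 / 10) → s₁.y u₀ = (j₀ : ℝ) / 2 + 1 / 4 →
        (σ = 1 ∨ σ = -1) → Even j →
        (∀ x ∈ Icc (-2 : ℝ) 2, |σ * s₂.y x - s₁.y x - (j : ℝ) / 2| ≤ c) → ¬ DenseIn δ E := by
  obtain ⟨T, hT⟩ : ∃ T : ℝ, T = 2000 * (6 * 480 ^ 5) := ⟨_, rfl⟩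
  have hT1 : (1000 : ℝ) ≤ T := by rw [hT]; norm_num
  have hT0 : 0 < T := by linarith
  obtain ⟨c, hc⟩ : ∃ c : ℝ, c = 1 / (100 * T) := ⟨_, rfl⟩
  have hc0 : 0 < c := by rw [hc]; positivity
  have hcT : c * (100 * T) = 1 := by rw [hc]; field_simp
  have hc1 : c ≤ 1 / 1000 := by nlinarith
  refine ⟨c, hc0, c, hc0, 100 * T, ?_⟩
  intro K hK C₀ ε₀ b σ s₁ s₂ G E hε0 hε hP hb u₀ j₀ j hu₀ hy hσ hj he hE
  have hK100 : (100 : ℝ) ≤ K := by linarith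
  have hK0 : 0 < K := by linarith
  have hcK : 1 ≤ c * K := by nlinarith
  have hb1 : |(1 : ℝ)| ≤ 1 := by simp
  have hA : ∀ x ∈ Icc (u₀ + 1 / 5) (u₀ + 3 / 10), |s₁.D x + s₂.D x| ≤ 5 * K := by
    intro x hx
    have hx2 : x ∈ Icc (-2 : ℝ) 2 := ⟨by linarith [hx.1, hu₀.1], by linarith [hx.2, hu₀.2]⟩
    have a1 := porIIa_D_le hP.ok₁ hε hb1 hK0.le hx2 (X := K + 3) (by
      have := Real.abs_cos_le_one (2 * Real.pi * s₁.y x)
      nlinarith)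
    have a2 := porIIa_D_le hP.ok₂ hε hP.b_le hK0.le hx2 (X := K + 3) (by
      have := Real.abs_cos_le_one (2 * Real.pi * s₂.y x)
      nlinarith)
    have := abs_add_le (s₁.D x) (s₂.D x)
    linarith
  have hmid := por_mid hK100 hε0 hε hP hb (c := c) (δ := c) (by linarith) (by linarith) hE hu₀ hy hσ
    he hA
  obtain ⟨x, hxE, hx1, hx2⟩ := hE (u₀ + 2 * c) (by linarith [hu₀.1]) (by linarith [hu₀.2])
  have hx : x ∈ Icc (-2 : ℝ) 2 := ⟨by linarith [hu₀.1], by linarith [hu₀.2]⟩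
  have hu2 : u₀ ∈ Icc (-2 : ℝ) 2 := ⟨by linarith [hu₀.1], by linarith [hu₀.2]⟩
  have hinc := hP.ok₁.incr hu2 hx
  rw [abs_one, mul_one, one_mul, abs_of_nonneg (show 0 ≤ x - u₀ by linarith)] at hinc
  have hinc2 : ε₀ * (x - u₀) ≤ 1 / 1000 * (3 * c) :=
    mul_le_mul hε (by linarith) (by linarith) (by norm_num)
  have hinc3 := abs_le.1 (hinc.trans hinc2)
  have hex := abs_le.1 (he x hx)
  obtain ⟨d, hd⟩ : ∃ d : ℝ, d = s₁.y x - ((j₀ : ℝ) / 2 + 1 / 4) := ⟨_, rfl⟩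
  obtain ⟨d', hd'⟩ : ∃ d' : ℝ, d' = σ * s₂.y x - (((j₀ + j : ℤ) : ℝ) / 2 + 1 / 4) := ⟨_, rfl⟩
  have hd1 : 19 / 10 * c ≤ d := by linarith [hinc3.1]
  have hd2 : d ≤ 31 / 10 * c := by linarith [hinc3.2]
  have hdd : d' = d + (σ * s₂.y x - s₁.y x - (j : ℝ) / 2) := by
    rw [hd', hd]; push_cast; ring
  have hd3 : 9 / 10 * c ≤ d' := by linarith [hex.1]
  have hd4 : d' ≤ 41 / 10 * c := by linarith [hex.2]
  obtain ⟨τ, hτd⟩ : ∃ τ : ℝ, τ = -((-1 : ℝ) ^ j₀) := ⟨_, rfl⟩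
  have hτ : τ = 1 ∨ τ = -1 := by
    rcases Int.even_or_odd j₀ with h | h
    · right; rw [hτd, h.neg_one_zpow]
    · left; rw [hτd, h.neg_one_zpow]; norm_num
  have hcos1 : Real.cos (2 * Real.pi * s₁.y x) = τ * Real.sin (2 * Real.pi * d) := by
    rw [hτd, ← cos_pole j₀ d]
    congr 2
    rw [hd]; ring
  have hcos2 : Real.cos (2 * Real.pi * s₂.y x) = τ * Real.sin (2 * Real.pi * d') := by
    have e1 := cos_pole (j₀ + j) d'
    rw [zpow_add₀ (by norm_num), hj.neg_one_zpow, mul_one] at e1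
    rw [hτd, ← e1]
    have e2 : ((j₀ + j : ℤ) : ℝ) / 2 + 1 / 4 + d' = σ * s₂.y x := by rw [hd']; ring
    rw [e2]
    rcases hσ with rfl | rfl
    · rw [one_mul]
    · rw [neg_one_mul, mul_neg, Real.cos_neg]
  have hs1 := porIIa_sin (d := d) (by linarith) (by linarith)
  have hs2 := porIIa_sin (d := d') (by linarith) (by linarith)
  have hk1 : K * (18 / 5 * c) ≤ K * Real.sin (2 * Real.pi * d) :=
    mul_le_mul_of_nonneg_left (by linarith) hK0.le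
  have hk2 : K * (18 / 5 * c) ≤ K * Real.sin (2 * Real.pi * d') :=
    mul_le_mul_of_nonneg_left (by linarith) hK0.le
  have hp1 := porIIa_sign hP.ok₁ hε hx hτ hcos1 (by linarith)
  have hp2 := porIIa_sign hP.ok₂ hε hx hτ hcos2 (by linarith)
  have hcle : |Real.cos (2 * Real.pi * s₁.y x)| ≤ 22 * c := by
    rw [hcos1, abs_mul]
    have a1 : |τ| = 1 := by rcases hτ with h | h <;> rw [h] <;> simp
    rw [a1, one_mul]
    refine (Real.abs_sin_le_abs).trans ?_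
    have hpi := Real.pi_lt_d2
    have hpi0 := Real.pi_pos
    have hd0 : 0 ≤ d := by linarith
    rw [abs_of_nonneg (by positivity)]
    have a2 : Real.pi * d ≤ 3.15 * (31 / 10 * c) := mul_le_mul hpi.le hd2 hd0 (by norm_num)
    linarith
  have hk3 : K * |Real.cos (2 * Real.pi * s₁.y x)| ≤ K * (22 * c) :=
    mul_le_mul_of_nonneg_left hcle hK0.le
  have hDle := porIIa_D_le hP.ok₁ hε hb1 hK0.le hx (X := 25 * (c * K)) (by linarith)
  have hlow := porIIa_inv hτ hp1 hp2 (hP.ev x hxE hx).1 hDle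
  have hup := hmid x hxE hx
  have hup2 : (6 * 480 ^ 5 * (256 * (5 * K) + 1) + 1) / K ^ 2 ≤ T / K := by
    rw [div_le_div_iff₀ (by positivity) hK0, hT]
    have a1 : K ≤ K * K := le_mul_of_one_le_right hK0.le (by linarith)
    have a2 : K ^ 2 = K * K := sq K
    rw [a2]
    linarith
  have hlow2 : 1 / (2 * (25 * (c * K))) = 2 * (T / K) := by
    rw [hc]; field_simp; ring
  have : 0 < T / K := by positivity
  linarith

end Crest.Agent.R128
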