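import Crest.Agent.R128.Taylor
import Crest.Agent.R128.Interp

/-! Functions with an almost affine derivative. -/

set_option autoImplicit false

noncomputable section

open MeasureTheory Set

namespace Crest.Agent.R128

theorem porAlt_mvt {e e' : ℝ → ℝ} (hd : ∀ x ∈ Icc (-2 : ℝ) 2, HasDerivAt e (e' x) x) {a b : ℝ}
    (ha : a ∈ Icc (-2 : ℝ) 2) (hb : b ∈ Icc (-2 : ℝ) 2) (hab : a < b) :
    ∃ ξ, a < ξ ∧ ξ < b ∧ ξ ∈ Icc (-2 : ℝ) 2 ∧ e' ξ * (b - a) = e b - e a := by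
  have hs : Icc a b ⊆ Icc (-2 : ℝ) 2 := Icc_subset_Icc ha.1 hb.2
  obtain ⟨ξ, hξ, h⟩ := exists_hasDerivAt_eq_slope e e' hab
    (fun x hx => (hd x (hs hx)).continuousAt.continuousWithinAt)
    (fun x hx => hd x (hs (Ioo_subset_Icc_self hx)))
  exact ⟨ξ, hξ.1, hξ.2, hs (Ioo_subset_Icc_self hξ), by
    rw [h, div_mul_cancel₀ _ (sub_pos.2 hab).ne']⟩

theorem porAlt_affine {f : ℝ → ℝ} {ρ : ℝ} (ha : PA 1 f ρ) :
    ∃ a c : ℝ, ∀ x ∈ Icc (-2 : ℝ) 2, |f x - (a * x + c)| ≤ ρ := by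
  obtain ⟨P, hP, h⟩ := ha
  obtain ⟨a, c, rfl⟩ := Polynomial.exists_eq_X_add_C_of_natDegree_le_one hP
  exact ⟨a, c, fun x hx => by simpa using h x hx⟩

/-- A function whose derivative `e'` is within `ρ` of an affine function, and which is bounded by `B` at four
points with gaps in `[2/5, 3/5]`.  Mean value theorem: `|e' ξ₀|, |e' ξ₂| ≤ 5B` at points `ξ₀ ∈ (u 0, u 1)`,
`ξ₂ ∈ (u 2, u 3)`, `ξ₂ - ξ₀ ≥ 2/5`; so the affine function is `≤ 21 (5B + ρ)` on `[-2,2]`. -/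
theorem deriv_bound_of_four {e e' : ℝ → ℝ} {ρ B : ℝ}
    (hd : ∀ x ∈ Icc (-2 : ℝ) 2, HasDerivAt e (e' x) x) (ha : PA 1 e' ρ) (u : ℕ → ℝ)
    (hu : ∀ i : ℕ, i ≤ 3 → u i ∈ Icc (-2 : ℝ) 2)
    (hgap : ∀ i : ℕ, i < 3 → 2 / 5 ≤ u (i + 1) - u i ∧ u (i + 1) - u i ≤ 3 / 5)
    (hB : ∀ i : ℕ, i ≤ 3 → |e (u i)| ≤ B) :
    ∀ x ∈ Icc (-2 : ℝ) 2, |e' x| ≤ 105 * B + 22 * ρ := by
  obtain ⟨a, c, h⟩ := porAlt_affine ha
  have g0 := hgap 0 (by omega)
  have g1 := hgap 1 (by omega)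
  have g2 := hgap 2 (by omega)
  have b0 := abs_le.1 (hB 0 (by omega))
  have b1 := abs_le.1 (hB 1 (by omega))
  have b2 := abs_le.1 (hB 2 (by omega))
  have b3 := abs_le.1 (hB 3 (by omega))
  norm_num at g0 g1 g2
  obtain ⟨x0, l0, r0, m0, e0⟩ := porAlt_mvt hd (hu 0 (by omega)) (hu 1 (by omega)) (by linarith)
  obtain ⟨x2, l2, r2, m2, e2⟩ := porAlt_mvt hd (hu 2 (by omega)) (hu 3 (by omega)) (by linarith)
  have hB0 : 0 ≤ B := by linarith
  have k0 : |e' x0| ≤ 5 * B := by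
    rw [abs_le]
    constructor <;> (by_contra h'; nlinarith)
  have k2 : |e' x2| ≤ 5 * B := by
    rw [abs_le]
    constructor <;> (by_contra h'; nlinarith)
  have a0 := abs_le.1 (h x0 m0)
  have a2 := abs_le.1 (h x2 m2)
  rw [abs_le] at k0 k2
  have hρ : 0 ≤ ρ := by linarith
  have hx : 2 / 5 ≤ x2 - x0 := by linarith
  have ka : |a| ≤ 5 * (5 * B + ρ) := by
    rw [abs_le]
    constructor <;> (by_contra h'; nlinarith)
  intro x hx
  have a1 := abs_le.1 (h x hx)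
  have k4 : |x - x0| ≤ 4 := abs_le.2 ⟨by linarith [hx.1, m0.2], by linarith [hx.2, m0.1]⟩
  have k5 : |a * (x - x0)| ≤ 5 * (5 * B + ρ) * 4 := by
    rw [abs_mul]
    exact mul_le_mul ka k4 (abs_nonneg _) (by linarith)
  rw [abs_le] at k5 ⊢
  constructor <;> nlinarith

/-- No alternation: if `s (-1)^i e (u i) < -θ` for `i ≤ 3` then `s (-1)^i e' ξ_i > 3θ ≥ ρ` at three increasing
points, so an affine function alternates in sign at three points. -/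
theorem no_alternation {e e' : ℝ → ℝ} {ρ θ s : ℝ}
    (hd : ∀ x ∈ Icc (-2 : ℝ) 2, HasDerivAt e (e' x) x) (ha : PA 1 e' ρ) (u : ℕ → ℝ)
    (hu : ∀ i : ℕ, i ≤ 3 → u i ∈ Icc (-2 : ℝ) 2)
    (hgap : ∀ i : ℕ, i < 3 → 2 / 5 ≤ u (i + 1) - u i ∧ u (i + 1) - u i ≤ 3 / 5)
    (hθ : 0 < θ) (hρ : ρ ≤ 3 * θ) (hs : s = 1 ∨ s = -1) :
    ∃ i : ℕ, i ≤ 3 ∧ -θ ≤ s * (-1) ^ i * e (u i) := by
  obtain ⟨a, c, h⟩ := porAlt_affine ha
  by_contra hc
  push Not at hc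
  have g0 := hgap 0 (by omega)
  have g1 := hgap 1 (by omega)
  have g2 := hgap 2 (by omega)
  have b0 := hc 0 (by omega)
  have b1 := hc 1 (by omega)
  have b2 := hc 2 (by omega)
  have b3 := hc 3 (by omega)
  norm_num at g0 g1 g2 b0 b1 b2 b3
  obtain ⟨x0, l0, r0, m0, e0⟩ := porAlt_mvt hd (hu 0 (by omega)) (hu 1 (by omega)) (by linarith)
  obtain ⟨x1, l1, r1, m1, e1⟩ := porAlt_mvt hd (hu 1 (by omega)) (hu 2 (by omega)) (by linarith)
  obtain ⟨x2, l2, r2, m2, e2⟩ := porAlt_mvt hd (hu 2 (by omega)) (hu 3 (by omega)) (by linarith)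
  have a0 := abs_le.1 (h x0 m0)
  have a1 := abs_le.1 (h x1 m1)
  have a2 := abs_le.1 (h x2 m2)
  have h01 : 0 < x1 - x0 := by linarith
  have h12 : 0 < x2 - x1 := by linarith
  have key : (a * x1 + c) * ((x1 - x0) + (x2 - x1)) =
      (a * x0 + c) * (x2 - x1) + (a * x2 + c) * (x1 - x0) := by ring
  rcases hs with rfl | rfl
  · have k0 : 3 * θ < e' x0 := by by_contra h'; nlinarith
    have k1 : e' x1 < -(3 * θ) := by by_contra h'; nlinarith
    have k2 : 3 * θ < e' x2 := by by_contra h'; nlinarith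
    have f0 : 0 < a * x0 + c := by linarith
    have f1 : a * x1 + c < 0 := by linarith
    have f2 : 0 < a * x2 + c := by linarith
    nlinarith [mul_pos f0 h12, mul_pos f2 h01, mul_neg_of_neg_of_pos f1 (add_pos h01 h12)]
  · have k0 : e' x0 < -(3 * θ) := by by_contra h'; nlinarith
    have k1 : 3 * θ < e' x1 := by by_contra h'; nlinarith
    have k2 : e' x2 < -(3 * θ) := by by_contra h'; nlinarith
    have f0 : a * x0 + c < 0 := by linarith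
    have f1 : 0 < a * x1 + c := by linarith
    have f2 : a * x2 + c < 0 := by linarith
    nlinarith [mul_neg_of_neg_of_pos f0 h12, mul_neg_of_neg_of_pos f2 h01,
      mul_pos f1 (add_pos h01 h12)]

end Crest.Agent.R128
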