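import Crest.Agent.R128.PorMid
import Crest.Agent.R128.PorAlt

/-! Porosity, case IIb: the resonant case (the leading terms cancel). -/

set_option autoImplicit false

noncomputable section

open MeasureTheory Set

namespace Crest.Agent.R128

theorem PorIIb_cos {σ y z w : ℝ} {j : ℤ} (hσ : σ = 1 ∨ σ = -1) (hj : Odd j)
    (hw : w = σ * z - y - (j : ℝ) / 2) :
    Real.cos (2 * Real.pi * z) = - Real.cos (2 * Real.pi * (y + w)) := by
  have h1 : Real.cos (2 * Real.pi * z) = Real.cos (2 * Real.pi * (σ * z)) := by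
    rcases hσ with rfl | rfl
    · simp
    · rw [show 2 * Real.pi * (-1 * z) = -(2 * Real.pi * z) by ring, Real.cos_neg]
  obtain ⟨m, rfl⟩ := hj
  rw [h1, show 2 * Real.pi * (σ * z) = 2 * Real.pi * (y + w) + Real.pi + m * (2 * Real.pi) by
    rw [hw]; push_cast; ring, Real.cos_add_int_mul_two_pi, Real.cos_add_pi]

theorem PorIIb_form (K p q e₁ e₂ Y w : ℝ) :
    p ^ 2 * (2 + K * Real.cos (2 * Real.pi * Y) - e₁) +
      q ^ 2 * (2 + K * (- Real.cos (2 * Real.pi * (Y + w))) - e₂) =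
    (p ^ 2 * (2 - e₁) + q ^ 2 * (2 - e₂)) +
      2 * K * p ^ 2 * Real.sin (2 * Real.pi * (Y + w / 2)) * Real.sin (Real.pi * w) -
      K * (q ^ 2 - p ^ 2) * Real.cos (2 * Real.pi * (Y + w)) := by
  have h := Real.cos_sub_cos (2 * Real.pi * Y) (2 * Real.pi * (Y + w))
  rw [show (2 * Real.pi * Y + 2 * Real.pi * (Y + w)) / 2 = 2 * Real.pi * (Y + w / 2) by ring,
    show (2 * Real.pi * Y - 2 * Real.pi * (Y + w)) / 2 = -(Real.pi * w) by ring, Real.sin_neg] at h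
  linear_combination (K * p ^ 2) * h

theorem PorIIb_m {p q e₁ e₂ : ℝ} (hp1 : 998 / 1000 ≤ p ^ 2) (hp2 : p ^ 2 ≤ 1003 / 1000)
    (hq1 : 24 / 100 ≤ q ^ 2) (hq2 : q ^ 2 ≤ 1003 / 1000) (h1 : |e₁| ≤ 1 / 1000) (h2 : |e₂| ≤ 1 / 1000) :
    2 ≤ p ^ 2 * (2 - e₁) + q ^ 2 * (2 - e₂) ∧ p ^ 2 * (2 - e₁) + q ^ 2 * (2 - e₂) ≤ 5 := by
  obtain ⟨h1a, h1b⟩ := abs_le.mp h1
  obtain ⟨h2a, h2b⟩ := abs_le.mp h2
  constructor <;> nlinarith

/-- The global bound on `N`. -/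
theorem PorIIb_glob {K Λ m P g S C w : ℝ} (hK : 0 ≤ K) (hΛ : 1 ≤ Λ) (hm1 : 2 ≤ m) (hm2 : m ≤ 5)
    (hP0 : 0 ≤ P) (hP : P ≤ 1003 / 1000) (hS : |S| ≤ 1) (hC : |C| ≤ 1) (hg : K * |g| ≤ 220 * Λ)
    (hw : K * |w| ≤ 421 * Λ) :
    |m + 2 * K * P * S * Real.sin (Real.pi * w) - K * g * C| ≤ 3000 * Λ := by
  have hs : |Real.sin (Real.pi * w)| ≤ 63 / 20 * |w| := by
    refine (Real.abs_sin_le_abs).trans ?_
    rw [abs_mul, abs_of_pos Real.pi_pos]
    exact mul_le_mul_of_nonneg_right (by linarith [Real.pi_lt_d2]) (abs_nonneg _)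
  have h1 : |2 * K * P * S * Real.sin (Real.pi * w)| ≤ 2700 * Λ := by
    rw [abs_mul, abs_mul, abs_of_nonneg (by positivity : 0 ≤ 2 * K * P)]
    calc 2 * K * P * |S| * |Real.sin (Real.pi * w)|
        ≤ 2 * K * (1003 / 1000) * 1 * (63 / 20 * |w|) := by gcongr
      _ = 2 * (1003 / 1000) * (63 / 20) * (K * |w|) := by ring
      _ ≤ 2700 * Λ := by linarith
  have h2 : |K * g * C| ≤ 220 * Λ := by
    rw [abs_mul, abs_mul, abs_of_nonneg hK]
    calc K * |g| * |C| ≤ K * |g| * 1 := by gcongr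
      _ ≤ 220 * Λ := by linarith
  obtain ⟨h1a, h1b⟩ := abs_le.mp h1
  obtain ⟨h2a, h2b⟩ := abs_le.mp h2
  rw [abs_le]; constructor <;> linarith

/-- Large `E*`. -/
theorem PorIIb_big {K Λ m P R s C w : ℝ} (hK : 0 ≤ K) (hΛ : 11 ≤ Λ) (hm1 : 2 ≤ m) (hm2 : m ≤ 5)
    (hP : 998 / 1000 ≤ P) (hC : 1 / 2 ≤ C) (hs : s = 1 ∨ s = -1) (hR : |R| ≤ Λ / 100)
    (hw1 : |w| ≤ 1 / 2) (hw : Λ - 1 - Λ / 100 ≤ K * |w|) :
    Λ / 11 ≤ |m + 2 * K * P * (s * C) * Real.sin (Real.pi * w) - R| := by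
  have hsin : 2 * |w| ≤ |Real.sin (Real.pi * w)| := by
    have h := Real.mul_abs_le_abs_sin (x := Real.pi * w) (by
      rw [abs_mul, abs_of_pos Real.pi_pos]
      nlinarith [Real.pi_pos])
    rw [abs_mul, abs_of_pos Real.pi_pos] at h
    have : 2 / Real.pi * (Real.pi * |w|) = 2 * |w| := by field_simp
    linarith
  have hs1 : |s| = 1 := by rcases hs with rfl | rfl <;> simp
  have h1 : 3 / 2 * Λ ≤ |2 * K * P * (s * C) * Real.sin (Real.pi * w)| := by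
    rw [abs_mul, abs_mul, abs_mul s, hs1, abs_of_nonneg (by positivity : 0 ≤ 2 * K * P),
      abs_of_nonneg (by linarith : 0 ≤ C)]
    calc 3 / 2 * Λ ≤ 2 * (998 / 1000) * (K * |w|) := by linarith
      _ = 2 * K * (998 / 1000) * (1 * (1 / 2)) * (2 * |w|) := by ring
      _ ≤ 2 * K * P * (1 * C) * |Real.sin (Real.pi * w)| := by gcongr
  obtain ⟨hRa, hRb⟩ := abs_le.mp hR
  rcases le_abs.mp h1 with h | h
  · exact le_abs.mpr (Or.inl (by linarith))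
  · exact le_abs.mpr (Or.inr (by linarith))

/-- Small `E*`. -/
theorem PorIIb_small {K Λ m P R s C w : ℝ} (hK : 0 < K) (hΛ : Λ ≤ 11) (hm1 : 2 ≤ m)
    (hP0 : 0 ≤ P) (hP : P ≤ 1003 / 1000) (hC0 : 0 ≤ C) (hC : C ≤ 1) (hs : s = 1 ∨ s = -1)
    (hR : |R| ≤ Λ / 100) (hw1 : |w| ≤ 1 / 2) (hw : -(2 / 100) ≤ K * (s * w)) :
    Λ / 11 ≤ |m + 2 * K * P * (s * C) * Real.sin (Real.pi * w) - R| := by
  have hsw : s * Real.sin (Real.pi * w) = Real.sin (Real.pi * (s * w)) := by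
    rcases hs with rfl | rfl
    · simp
    · rw [show Real.pi * (-1 * w) = -(Real.pi * w) by ring, Real.sin_neg]; ring
  have hsw1 : |s * w| ≤ 1 / 2 := by
    rcases hs with rfl | rfl <;> simpa using hw1
  have hT : -(1 / 10) ≤ K * Real.sin (Real.pi * (s * w)) := by
    rcases le_total 0 (s * w) with h0 | h0
    · have : 0 ≤ Real.sin (Real.pi * (s * w)) :=
        Real.sin_nonneg_of_nonneg_of_le_pi (by positivity) (by
          have := (abs_le.mp hsw1).2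
          nlinarith [Real.pi_pos])
      have := mul_nonneg hK.le this
      linarith
    · have h1 : Real.pi * (s * w) ≤ Real.sin (Real.pi * (s * w)) :=
        Real.le_sin (by nlinarith [Real.pi_pos])
      have h2 : K * (Real.pi * (s * w)) ≤ K * Real.sin (Real.pi * (s * w)) :=
        mul_le_mul_of_nonneg_left h1 hK.le
      have h3 : K * (s * w) ≤ 0 := by nlinarith
      nlinarith [Real.pi_lt_four, Real.pi_pos]
  have hPC : P * C ≤ 1003 / 1000 := by nlinarith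
  have hPC0 : 0 ≤ P * C := by positivity
  have h4 : 2 * K * P * (s * C) * Real.sin (Real.pi * w) =
      2 * (P * C) * (K * Real.sin (Real.pi * (s * w))) := by rw [← hsw]; ring
  obtain ⟨hRa, hRb⟩ := abs_le.mp hR
  refine le_abs.mpr (Or.inl ?_)
  rw [h4]
  nlinarith

theorem PorIIb_final {K Λ D D' δ M : ℝ} (hK : 0 < K) (hΛ : 0 < Λ) (hδ : 0 < δ) (hD : D ≠ 0) (hD' : D' ≠ 0)
    (h1 : |D| ≤ 16 * K * δ) (h2 : |D'| ≤ 4 * K) (hN : Λ / 11 ≤ |D + D'|)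
    (hM : |1 / D + 1 / D'| ≤ M * Λ / K ^ 2) : 1 ≤ 704 * δ * M := by
  have e1 : |D + D'| = |1 / D + 1 / D'| * (|D| * |D'|) := by
    rw [← abs_mul, ← abs_mul]; congr 1; field_simp; ring
  have h3 : |D + D'| ≤ M * Λ / K ^ 2 * (16 * K * δ * (4 * K)) := by
    rw [e1]
    have : 0 ≤ M * Λ / K ^ 2 := (abs_nonneg _).trans hM
    gcongr
  have e2 : M * Λ / K ^ 2 * (16 * K * δ * (4 * K)) = 64 * δ * M * Λ := by field_simp; ring
  rw [e2] at h3
  have h4 : Λ * 1 ≤ Λ * (704 * δ * M) := by linarith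
  exact le_of_mul_le_mul_left h4 hΛ

set_option maxHeartbeats 1000000 in
/-- `j` odd.  Let `e = σ z - y - j/2`, `e' = σ z' - y'` (within `2ε₀/K` of an affine function),
`E* = K max_{i ≤ 3} |e (u i)|`, `Λ = 1 + E*`.  `deriv_bound_of_four`: `K |e'| ≤ 105 Λ`, hence `K |e| ≤ 421 Λ`.
`cos 2πz = - cos 2π(y + e)`, `g = z'² - y'²`, `K |g| ≤ 220 Λ`, and
`N = D + D' = m + 2K y'² sin(2π(y + e/2)) sin(π e) - K g cos 2π(y + e)`,
`m = y'²(2 - e₁) + z'²(2 - e₂) ∈ [2, 5]`.  So `|N| ≤ C₄ Λ` on `[-2,2]` and `por_mid` gives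
`|1/D + 1/D'| ≤ C₅ Λ/K²` on `E`.  For `x ∈ [u i, u i + δ]`: `|K g cos 2π(y+e)| ≤ 220 Λ · 2π(1.01 δ + c) ≤ Λ/100`,
`(-1)^(j₀+i) sin(2π(y + e/2)) ∈ [1/2, 1]` (`sin_pole`), `K |e x - e (u i)| ≤ 105 Λ δ`.
If `E* ≥ 10` take the maximising `i` (`|sin π e| ≥ 2|e|`): `|N| ≥ Λ/11`.  If `E* < 10` take `i` from
`no_alternation` (`θ = 1/(100 K)`, `s = (-1)^j₀`): `N ≥ 1 ≥ Λ/11`.  At `x ∈ E ∩ [u i, u i + δ]`:
`|D| ≤ 16 K δ`, `|D'| ≤ 4K`, so `|1/D + 1/D'| = |N|/|D D'| ≥ Λ/(704 K² δ)`; contradiction for small `δ`. -/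
theorem por_IIb : ∃ c > 0, ∃ δ > 0, ∃ K₁ : ℝ, ∀ K ≥ K₁,
    ∀ (C₀ ε₀ b σ : ℝ) (s₁ s₂ : Sd) (G : ℝ → ℝ) (E : Set ℝ),
      0 < ε₀ → ε₀ ≤ 1 / 1000 → PorData K C₀ ε₀ b s₁ s₂ G E → 1 / 2 ≤ |b| →
      ∀ (u : ℕ → ℝ) (j₀ j : ℤ),
        (∀ i : ℕ, i ≤ 3 → u i ∈ Icc (-(11 / 10) : ℝ) (11 / 10) ∧
          s₁.y (u i) = ((j₀ + i : ℤ) : ℝ) / 2 + 1 / 4) →
        (σ = 1 ∨ σ = -1) → Odd j →
        (∀ x ∈ Icc (-2 : ℝ) 2, |σ * s₂.y x - s₁.y x - (j : ℝ) / 2| ≤ c) → ¬ DenseIn δ E := by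
  refine ⟨1 / 10 ^ 6, by norm_num, 1 / 10 ^ 24, by norm_num, 10 ^ 24, ?_⟩
  intro K hK C₀ ε₀ b σ s₁ s₂ G E hε0 hε hP hb u j₀ j hu hσ hj he hE
  have hK0 : 0 < K := by linarith
  have hσ1 : |σ| = 1 := by rcases hσ with rfl | rfl <;> simp
  have hσ2 : σ ^ 2 = 1 := by rcases hσ with rfl | rfl <;> norm_num
  have hb1 := hP.b_le
  set e : ℝ → ℝ := fun x => σ * s₂.y x - s₁.y x - (j : ℝ) / 2 with hedef
  set e' : ℝ → ℝ := fun x => σ * s₂.dy x + (-1) * s₁.dy x with he'def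
  have hd : ∀ x ∈ Icc (-2 : ℝ) 2, HasDerivAt e (e' x) x := by
    intro x hx
    have h := (((hP.ok₂.der x hx).const_mul σ).sub (hP.ok₁.der x hx)).sub_const ((j : ℝ) / 2)
    have e1 : e' x = σ * s₂.dy x - s₁.dy x := by simp only [he'def]; ring
    rw [e1]; exact h
  have ha : PA 1 e' (1 / (500 * K)) := by
    refine ((hP.ok₂.aff.const_mul σ).add (hP.ok₁.aff.const_mul (-1))).mono ?_
    rw [hσ1, abs_neg, abs_one, show 1 * (ε₀ / K) + 1 * (ε₀ / K) = 2 * ε₀ / K by ring,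
      div_le_div_iff₀ hK0 (by positivity)]
    nlinarith
  have hu2 : ∀ i : ℕ, i ≤ 3 → u i ∈ Icc (-2 : ℝ) 2 := fun i hi =>
    ⟨by linarith [(hu i hi).1.1], by linarith [(hu i hi).1.2]⟩
  have hgap : ∀ i : ℕ, i < 3 → 2 / 5 ≤ u (i + 1) - u i ∧ u (i + 1) - u i ≤ 3 / 5 := by
    intro i hi
    have h := hP.ok₁.incr (hu2 i (by omega)) (hu2 (i + 1) (by omega))
    rw [(hu i (by omega)).2, (hu (i + 1) (by omega)).2] at h
    push_cast at h
    rw [abs_one, mul_one] at h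
    have h' : ε₀ * |u (i + 1) - u i| ≤ 1 / 1000 * |u (i + 1) - u i| := by gcongr
    have h2 := abs_le.mp (h.trans h')
    rcases abs_cases (u (i + 1) - u i) with h3 | h3 <;> constructor <;> linarith [h2.1, h2.2, h3.1]
  obtain ⟨i₀, hi₀, hmax⟩ := Finset.exists_max_image (Finset.range 4) (fun i => |e (u i)|) ⟨0, by simp⟩
  have hi₀3 : i₀ ≤ 3 := by have := Finset.mem_range.mp hi₀; omega
  have hB : ∀ i : ℕ, i ≤ 3 → |e (u i)| ≤ |e (u i₀)| := fun i hi =>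
    hmax i (Finset.mem_range.mpr (by omega))
  set B := |e (u i₀)| with hBdef
  have hB0 : 0 ≤ B := abs_nonneg _
  set Λ := 1 + K * B with hΛ
  have hKB : 0 ≤ K * B := by positivity
  have hΛ1 : 1 ≤ Λ := by linarith
  have hde : ∀ x ∈ Icc (-2 : ℝ) 2, |e' x| ≤ 105 * Λ / K := by
    intro x hx
    refine (deriv_bound_of_four hd ha u hu2 hgap hB x hx).trans ?_
    rw [le_div_iff₀ hK0]
    have : (105 * B + 22 * (1 / (500 * K))) * K = 105 * (K * B) + 22 / 500 := by field_simp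
    rw [this]; linarith
  have hlip : ∀ x ∈ Icc (-2 : ℝ) 2, ∀ x' ∈ Icc (-2 : ℝ) 2, K * |e x' - e x| ≤ 105 * Λ * |x' - x| := by
    intro x hx x' hx'
    have h := (convex_Icc (-2 : ℝ) 2).norm_image_sub_le_of_norm_hasDerivWithin_le
      (f := e) (f' := e') (C := 105 * Λ / K) (fun t ht => (hd t ht).hasDerivWithinAt)
      (fun t ht => hde t ht) hx hx'
    simp only [Real.norm_eq_abs] at h
    calc K * |e x' - e x| ≤ K * (105 * Λ / K * |x' - x|) := by gcongr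
      _ = 105 * Λ * |x' - x| := by field_simp
  have hKe : ∀ x ∈ Icc (-2 : ℝ) 2, K * |e x| ≤ 421 * Λ := by
    intro x hx
    have h1 := hlip _ (hu2 i₀ hi₀3) x hx
    have h2 : |x - u i₀| ≤ 4 := by
      have := hu2 i₀ hi₀3
      rw [abs_le]; constructor <;> linarith [hx.1, hx.2, this.1, this.2]
    have h3 : |e x| ≤ |e x - e (u i₀)| + B := by
      have := abs_add_le (e x - e (u i₀)) (e (u i₀))
      rwa [sub_add_cancel] at this
    have h4 : K * |e x| ≤ K * (|e x - e (u i₀)| + B) := by gcongr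
    have h5 : 105 * Λ * |x - u i₀| ≤ 105 * Λ * 4 := by gcongr
    rw [mul_add] at h4
    linarith
  have hp : ∀ x ∈ Icc (-2 : ℝ) 2, 999 / 1000 ≤ s₁.dy x ∧ s₁.dy x ≤ 1001 / 1000 := by
    intro x hx
    have h := abs_le.mp (hP.ok₁.near x hx)
    rw [abs_one] at h
    constructor <;> linarith [h.1, h.2]
  have hp2 : ∀ x ∈ Icc (-2 : ℝ) 2, 998 / 1000 ≤ s₁.dy x ^ 2 ∧ s₁.dy x ^ 2 ≤ 1003 / 1000 := by
    intro x hx
    obtain ⟨h1, h2⟩ := hp x hx
    constructor <;> nlinarith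
  have hq : ∀ x ∈ Icc (-2 : ℝ) 2, 499 / 1000 ≤ |s₂.dy x| ∧ |s₂.dy x| ≤ 1001 / 1000 := by
    intro x hx
    have h := hP.ok₂.near x hx
    have h' : ε₀ * |b| ≤ 1 / 1000 * 1 := by gcongr
    have h1 := abs_sub_abs_le_abs_sub (s₂.dy x) b
    have h2 := abs_sub_abs_le_abs_sub b (s₂.dy x)
    rw [abs_sub_comm] at h2
    constructor <;> linarith
  have hq2 : ∀ x ∈ Icc (-2 : ℝ) 2, 24 / 100 ≤ s₂.dy x ^ 2 ∧ s₂.dy x ^ 2 ≤ 1003 / 1000 := by
    intro x hx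
    obtain ⟨h1, h2⟩ := hq x hx
    rw [← sq_abs]
    constructor <;> nlinarith
  have hg : ∀ x ∈ Icc (-2 : ℝ) 2, K * |s₂.dy x ^ 2 - s₁.dy x ^ 2| ≤ 220 * Λ := by
    intro x hx
    have e1 : s₂.dy x ^ 2 - s₁.dy x ^ 2 = e' x * (σ * s₂.dy x + s₁.dy x) := by
      simp only [he'def]
      linear_combination (-(s₂.dy x) ^ 2) * hσ2
    have h1 : |σ * s₂.dy x + s₁.dy x| ≤ 2002 / 1000 := by
      refine (abs_add_le _ _).trans ?_
      rw [abs_mul, hσ1, one_mul, abs_of_nonneg (by linarith [(hp x hx).1] : 0 ≤ s₁.dy x)]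
      linarith [(hp x hx).2, (hq x hx).2]
    rw [e1, abs_mul]
    have h2 := hde x hx
    calc K * (|e' x| * |σ * s₂.dy x + s₁.dy x|) ≤ K * (105 * Λ / K * (2002 / 1000)) := by gcongr
      _ = 105 * Λ * (2002 / 1000) := by field_simp
      _ ≤ 220 * Λ := by linarith
  have hm : ∀ x ∈ Icc (-2 : ℝ) 2,
      2 ≤ s₁.dy x ^ 2 * (2 - s₁.e x) + s₂.dy x ^ 2 * (2 - s₂.e x) ∧
      s₁.dy x ^ 2 * (2 - s₁.e x) + s₂.dy x ^ 2 * (2 - s₂.e x) ≤ 5 := fun x hx =>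
    PorIIb_m (hp2 x hx).1 (hp2 x hx).2 (hq2 x hx).1 (hq2 x hx).2
      ((hP.ok₁.eps x hx).trans hε) ((hP.ok₂.eps x hx).trans hε)
  have hN : ∀ x ∈ Icc (-2 : ℝ) 2, s₁.D x + s₂.D x =
      (s₁.dy x ^ 2 * (2 - s₁.e x) + s₂.dy x ^ 2 * (2 - s₂.e x)) +
        2 * K * s₁.dy x ^ 2 * Real.sin (2 * Real.pi * (s₁.y x + e x / 2)) * Real.sin (Real.pi * e x) -
        K * (s₂.dy x ^ 2 - s₁.dy x ^ 2) * Real.cos (2 * Real.pi * (s₁.y x + e x)) := by
    intro x hx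
    rw [hP.ok₁.Deq x hx, hP.ok₂.Deq x hx, PorIIb_cos (y := s₁.y x) (w := e x) hσ hj rfl, PorIIb_form]
  have hNb : ∀ x ∈ Icc (-2 : ℝ) 2, |s₁.D x + s₂.D x| ≤ 3000 * Λ := by
    intro x hx
    rw [hN x hx]
    exact PorIIb_glob hK0.le hΛ1 (hm x hx).1 (hm x hx).2 (sq_nonneg _) (hp2 x hx).2
      (Real.abs_sin_le_one _) (Real.abs_cos_le_one _) (hg x hx) (hKe x hx)
  have hmid := por_mid (A := 3000 * Λ) (σ := σ) (c := 1 / 10 ^ 6) (δ := 1 / 10 ^ 24) (j := j)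
    (by linarith) hε0 hε hP hb (by norm_num) (by norm_num) hE (hu 0 (by norm_num)).1
    (by simpa using (hu 0 (by norm_num)).2) hσ he
    (fun x hx => hNb x ⟨by linarith [hx.1, (hu 0 (by norm_num)).1.1],
      by linarith [hx.2, (hu 0 (by norm_num)).1.2]⟩)
  -- the local analysis near a pole
  have hloc : ∀ i : ℕ, i ≤ 3 → ∀ x, u i ≤ x → x ≤ u i + 1 / 10 ^ 24 →
      x ∈ Icc (-2 : ℝ) 2 ∧ |s₁.D x| ≤ 16 * K * (1 / 10 ^ 24) ∧ |s₂.D x| ≤ 4 * K ∧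
      K * |e x - e (u i)| ≤ Λ / 2000 ∧ |e x| ≤ 1 / 2 ∧
      ∃ C R : ℝ, 1 / 2 ≤ C ∧ C ≤ 1 ∧ |R| ≤ Λ / 100 ∧ s₁.D x + s₂.D x =
        (s₁.dy x ^ 2 * (2 - s₁.e x) + s₂.dy x ^ 2 * (2 - s₂.e x)) +
        2 * K * s₁.dy x ^ 2 * ((-1 : ℝ) ^ (j₀ + i : ℤ) * C) * Real.sin (Real.pi * e x) - R := by
    intro i hi x hx1 hx2
    have hx : x ∈ Icc (-2 : ℝ) 2 :=
      ⟨by linarith [(hu i hi).1.1], by linarith [(hu i hi).1.2]⟩
    have hxu : |x - u i| ≤ 1 / 10 ^ 24 := by rw [abs_le]; constructor <;> linarith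
    set d := s₁.y x - s₁.y (u i) with hddef
    have hd1 : |d| ≤ 2 / 10 ^ 24 := by
      have h := hP.ok₁.incr (hu2 i hi) hx
      rw [abs_one, mul_one, one_mul] at h
      have h' : ε₀ * |x - u i| ≤ 1 * |x - u i| := by gcongr; linarith
      have h2 := abs_sub_abs_le_abs_sub d (x - u i)
      linarith
    have hy : s₁.y x = ((j₀ + i : ℤ) : ℝ) / 2 + 1 / 4 + d := by rw [← (hu i hi).2, hddef]; ring
    have hs1 : |(-1 : ℝ) ^ (j₀ + i : ℤ)| = 1 := by rw [abs_zpow]; simp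
    have hex : |e x| ≤ 1 / 10 ^ 6 := he x hx
    have hsin : ∀ t : ℝ, |Real.sin (2 * Real.pi * t)| ≤ 63 / 10 * |t| := by
      intro t
      refine (Real.abs_sin_le_abs).trans ?_
      rw [abs_mul, abs_of_pos (by positivity : 0 < 2 * Real.pi)]
      exact mul_le_mul_of_nonneg_right (by linarith [Real.pi_lt_d2]) (abs_nonneg _)
    refine ⟨hx, ?_, ?_, ?_, by linarith, Real.cos (2 * Real.pi * (d + e x / 2)),
      K * (s₂.dy x ^ 2 - s₁.dy x ^ 2) * Real.cos (2 * Real.pi * (s₁.y x + e x)), ?_,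
      Real.cos_le_one _, ?_, ?_⟩
    · have hc : |Real.cos (2 * Real.pi * s₁.y x)| ≤ 63 / 10 * (2 / 10 ^ 24) := by
        rw [hy, cos_pole, abs_mul, abs_neg, hs1, one_mul]
        exact (hsin d).trans (by gcongr)
      have hKc : |K * Real.cos (2 * Real.pi * s₁.y x)| ≤ K * (63 / 10 * (2 / 10 ^ 24)) := by
        rw [abs_mul, abs_of_pos hK0]; gcongr
      have he1 := abs_le.mp ((hP.ok₁.eps x hx).trans hε)
      have h3 : |2 + K * Real.cos (2 * Real.pi * s₁.y x) - s₁.e x| ≤ 15 * K * (1 / 10 ^ 24) := by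
        have := abs_le.mp hKc
        rw [abs_le]; constructor <;> linarith [this.1, this.2, he1.1, he1.2]
      rw [hP.ok₁.Deq x hx, abs_mul, abs_of_nonneg (sq_nonneg _)]
      have h4 := (hp2 x hx).2
      calc s₁.dy x ^ 2 * |2 + K * Real.cos (2 * Real.pi * s₁.y x) - s₁.e x|
          ≤ 1003 / 1000 * (15 * K * (1 / 10 ^ 24)) := by gcongr
        _ ≤ 16 * K * (1 / 10 ^ 24) := by linarith
    · have hKc : |K * Real.cos (2 * Real.pi * s₂.y x)| ≤ K * 1 := by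
        rw [abs_mul, abs_of_pos hK0]; gcongr; exact Real.abs_cos_le_one _
      have he1 := abs_le.mp ((hP.ok₂.eps x hx).trans hε)
      have h3 : |2 + K * Real.cos (2 * Real.pi * s₂.y x) - s₂.e x| ≤ 2 * K := by
        have := abs_le.mp hKc
        rw [abs_le]; constructor <;> linarith [this.1, this.2, he1.1, he1.2]
      rw [hP.ok₂.Deq x hx, abs_mul, abs_of_nonneg (sq_nonneg _)]
      have h4 := (hq2 x hx).2
      calc s₂.dy x ^ 2 * |2 + K * Real.cos (2 * Real.pi * s₂.y x) - s₂.e x|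
          ≤ 1003 / 1000 * (2 * K) := by gcongr
        _ ≤ 4 * K := by linarith
    · refine (hlip _ (hu2 i hi) x hx).trans ?_
      calc 105 * Λ * |x - u i| ≤ 105 * Λ * (1 / 10 ^ 24) := by gcongr
        _ ≤ Λ / 2000 := by linarith
    · have h1 := Real.one_sub_sq_div_two_le_cos (x := 2 * Real.pi * (d + e x / 2))
      have h2 : |2 * Real.pi * (d + e x / 2)| ≤ 1 := by
        rw [abs_mul, abs_of_pos (by positivity : 0 < 2 * Real.pi)]
        have h3 : |d + e x / 2| ≤ 1 / 8 := by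
          have := abs_le.mp hd1
          have := abs_le.mp hex
          rw [abs_le]; constructor <;> linarith
        calc 2 * Real.pi * |d + e x / 2| ≤ 2 * 4 * (1 / 8) := by
              gcongr; exact Real.pi_le_four
          _ = 1 := by norm_num
      have h4 : (2 * Real.pi * (d + e x / 2)) ^ 2 ≤ 1 := by
        rw [← sq_abs]; nlinarith [abs_nonneg (2 * Real.pi * (d + e x / 2))]
      linarith
    · have hc : |Real.cos (2 * Real.pi * (s₁.y x + e x))| ≤ 1 / 22000 := by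
        rw [hy, add_assoc _ d, cos_pole, abs_mul, abs_neg, hs1, one_mul]
        refine (hsin _).trans ?_
        have := abs_add_le d (e x)
        linarith
      rw [abs_mul, abs_mul, abs_of_pos hK0]
      have h1 := hg x hx
      calc K * |s₂.dy x ^ 2 - s₁.dy x ^ 2| * |Real.cos (2 * Real.pi * (s₁.y x + e x))|
          ≤ 220 * Λ * (1 / 22000) := by gcongr
        _ = Λ / 100 := by ring
    · rw [hN x hx]
      congr 4
      rw [hy, add_assoc _ d, sin_pole]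
  have hsgn : ∀ n : ℤ, (-1 : ℝ) ^ n = 1 ∨ (-1 : ℝ) ^ n = -1 := fun n => by
    rcases Int.even_or_odd n with h | h
    · exact Or.inl h.neg_one_zpow
    · exact Or.inr h.neg_one_zpow
  -- choice of the pole
  have hkey : ∃ i : ℕ, i ≤ 3 ∧ ∀ x, u i ≤ x → x ≤ u i + 1 / 10 ^ 24 →
      Λ / 11 ≤ |s₁.D x + s₂.D x| := by
    rcases le_total 11 Λ with hL | hL
    · refine ⟨i₀, hi₀3, fun x hx1 hx2 => ?_⟩
      obtain ⟨hx, -, -, h3, h4, C, R, hC1, -, hR, hNx⟩ := hloc i₀ hi₀3 x hx1 hx2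
      rw [hNx]
      refine PorIIb_big hK0.le hL (hm x hx).1 (hm x hx).2 (hp2 x hx).1 hC1 (hsgn _) hR h4 ?_
      have h5 : B ≤ |e x - e (u i₀)| + |e x| := by
        have := abs_sub_abs_le_abs_sub (e (u i₀)) (e x)
        rw [abs_sub_comm (e (u i₀)) (e x)] at this
        linarith
      have h6 : K * B ≤ K * (|e x - e (u i₀)| + |e x|) := by gcongr
      rw [mul_add] at h6
      linarith
    · obtain ⟨i, hi, hθ⟩ := no_alternation (θ := 1 / (100 * K)) (s := (-1 : ℝ) ^ j₀) hd ha u hu2 hgap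
        (by positivity) (by
          rw [show 3 * (1 / (100 * K)) = 3 / (100 * K) by ring,
            div_le_div_iff₀ (by positivity) (by positivity)]
          nlinarith) (hsgn _)
      refine ⟨i, hi, fun x hx1 hx2 => ?_⟩
      obtain ⟨hx, -, -, h3, h4, C, R, hC1, hC2, hR, hNx⟩ := hloc i hi x hx1 hx2
      rw [hNx]
      refine PorIIb_small hK0 hL (hm x hx).1 (sq_nonneg _) (hp2 x hx).2 (by linarith) hC2 (hsgn _) hR h4 ?_
      have e1 : (-1 : ℝ) ^ (j₀ + i : ℤ) = (-1) ^ j₀ * (-1) ^ i := by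
        rw [zpow_add₀ (by norm_num), zpow_natCast]
      rw [← e1] at hθ
      have h5 : -(1 / 100) ≤ K * ((-1 : ℝ) ^ (j₀ + i : ℤ) * e (u i)) := by
        have := mul_le_mul_of_nonneg_left hθ hK0.le
        have e2 : K * -(1 / (100 * K)) = -(1 / 100) := by field_simp
        linarith
      have h6 : |K * (e x - e (u i))| ≤ Λ / 2000 := by rwa [abs_mul, abs_of_pos hK0]
      have h7 := abs_le.mp h6
      rcases hsgn (j₀ + i) with h8 | h8 <;> rw [h8] at h5 ⊢ <;> linarith [h7.1, h7.2]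
  obtain ⟨i, hi, hkey⟩ := hkey
  obtain ⟨x, hxE, hx1, hx2⟩ := hE (u i) (by linarith [(hu i hi).1.1]) (by linarith [(hu i hi).1.2])
  obtain ⟨hx, h1, h2, -⟩ := hloc i hi x hx1 hx2
  obtain ⟨hD1, hD2, -⟩ := hP.ev x hxE hx
  have hfin := PorIIb_final (M := 6 * 480 ^ 5 * (256 * 3000 + 1) + 1) hK0 (by linarith : 0 < Λ)
    (by norm_num) hD1 hD2 h1 h2 (hkey x hx1 hx2) ((hmid x hxE hx).trans (by
      gcongr
      linarith))
  norm_num at hfin

end Crest.Agent.R128
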