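import Crest.Agent.R128.Taylor
import Crest.Agent.R128.Interp

/-! Porosity, case II: matched poles.  Preparation. -/

set_option autoImplicit false

noncomputable section

open MeasureTheory Set

namespace Crest.Agent.R128

/-- Let `σ = sign b`.  By `exists_pole_near`, `σ z(u i)` is within `(7/2) |b| c` of a pole, i.e.
`|σ z(u i) - y(u i) - j_i/2| ≤ (7/2)|b| c` for `i = 0, 1`.  Since `u 1 - u 0 ∈ [0.49, 0.51]` and
`σ (z(u 1) - z(u 0)) ∈ |b| (1 ± ε₀)(u 1 - u 0)`, one gets `j_0 = j_1` and `|b| ≥ 1 - 14 c - 2 ε₀`.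
Then `|(σ z - y)'| ≤ 15 c` on `[-2,2]` (`Sd.Ok.incr`) and `(7/2) c + 4·15 c ≤ 64 c`. -/
theorem por_prep {K C₀ ε₀ b c : ℝ} {s₁ s₂ : Sd} (h₁ : s₁.Ok K C₀ ε₀ 1) (h₂ : s₂.Ok K C₀ ε₀ b)
    (hb : |b| ≤ 1) (hb0 : b ≠ 0) (hc0 : 0 < c) (hc : c ≤ 1 / 1000) (hε0 : 0 < ε₀) (hε : ε₀ ≤ c / 4)
    (u : ℕ → ℝ) (j₀ : ℤ)
    (hu : ∀ i : ℕ, i ≤ 3 →
      u i ∈ Icc (-(11 / 10) : ℝ) (11 / 10) ∧ s₁.y (u i) = ((j₀ + i : ℤ) : ℝ) / 2 + 1 / 4)
    (hz : ∀ i : ℕ, i ≤ 3 → |Real.cos (2 * Real.pi * s₂.y (u i))| < 14 * |b| * c) :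
    1 / 2 ≤ |b| ∧ ∃ (σ : ℝ) (j : ℤ), (σ = 1 ∨ σ = -1) ∧
      ∀ x ∈ Icc (-2 : ℝ) 2, |σ * s₂.y x - s₁.y x - (j : ℝ) / 2| ≤ 64 * c := by
  obtain ⟨σ, hσ, hσb⟩ : ∃ σ : ℝ, (σ = 1 ∨ σ = -1) ∧ σ * b = |b| := by
    rcases le_total 0 b with h | h
    · exact ⟨1, Or.inl rfl, by rw [abs_of_nonneg h, one_mul]⟩
    · exact ⟨-1, Or.inr rfl, by rw [abs_of_nonpos h]; ring⟩
  have hσa : |σ| = 1 := by rcases hσ with h | h <;> simp [h]
  have hβ : 0 < |b| := abs_pos.mpr hb0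
  set β := |b| with hβdef
  have hcos : ∀ x : ℝ, Real.cos (2 * Real.pi * (σ * x)) = Real.cos (2 * Real.pi * x) := by
    intro x
    rcases hσ with h | h
    · rw [h, one_mul]
    · rw [h, show 2 * Real.pi * (-1 * x) = -(2 * Real.pi * x) by ring, Real.cos_neg]
  have hI : ∀ i : ℕ, i ≤ 3 → u i ∈ Icc (-2 : ℝ) 2 := fun i hi =>
    ⟨by linarith [(hu i hi).1.1], by linarith [(hu i hi).1.2]⟩
  have hw : ∀ x x', x ∈ Icc (-2 : ℝ) 2 → x' ∈ Icc (-2 : ℝ) 2 →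
      |σ * s₂.y x' - σ * s₂.y x - β * (x' - x)| ≤ ε₀ * β * |x' - x| := by
    intro x x' hx hx'
    have h := h₂.incr hx hx'
    have e : σ * s₂.y x' - σ * s₂.y x - β * (x' - x) = σ * (s₂.y x' - s₂.y x - b * (x' - x)) := by
      rw [← hσb]; ring
    rw [e, abs_mul, hσa, one_mul]
    exact h
  have hy : ∀ x x', x ∈ Icc (-2 : ℝ) 2 → x' ∈ Icc (-2 : ℝ) 2 →
      |s₁.y x' - s₁.y x - (x' - x)| ≤ ε₀ * |x' - x| := by
    intro x x' hx hx'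
    simpa using h₁.incr hx hx'
  obtain ⟨m0, hm0⟩ := exists_pole_near (σ * s₂.y (u 0))
  obtain ⟨m1, hm1⟩ := exists_pole_near (σ * s₂.y (u 1))
  rw [hcos] at hm0 hm1
  have hz0 := hz 0 (by norm_num)
  have hz1 := hz 1 (by norm_num)
  have hy0 := (hu 0 (by norm_num)).2
  have hy1 := (hu 1 (by norm_num)).2
  push_cast at hy0 hy1
  have hd := hy _ _ (hI 0 (by norm_num)) (hI 1 (by norm_num))
  have hd2 := hw _ _ (hI 0 (by norm_num)) (hI 1 (by norm_num))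
  set Δ := u 1 - u 0 with hΔ
  have hΔa : |Δ| ≤ 11 / 5 := by
    have h0 := (hu 0 (by norm_num)).1
    have h1 := (hu 1 (by norm_num)).1
    exact abs_le.mpr ⟨by linarith [h0.2, h1.1], by linarith [h0.1, h1.2]⟩
  have hεΔ : ε₀ * |Δ| ≤ 1 / 1000 := by nlinarith [abs_nonneg Δ]
  have hd' := abs_le.mp hd
  have hΔ1 : 499 / 1000 ≤ Δ := by linarith [hd'.2]
  have hΔ2 : Δ ≤ 501 / 1000 := by linarith [hd'.1]
  have hΔp : |Δ| = Δ := abs_of_nonneg (by linarith)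
  rw [hΔp] at hd' hd2
  have hεΔ2 : ε₀ * Δ ≤ c / 7 := by nlinarith
  have hd2' := abs_le.mp hd2
  have ha0 := abs_lt.mp (show |σ * s₂.y (u 0) - ((m0 : ℝ) / 2 + 1 / 4)| < 7 / 2 * β * c by linarith)
  have ha1 := abs_lt.mp (show |σ * s₂.y (u 1) - ((m1 : ℝ) / 2 + 1 / 4)| < 7 / 2 * β * c by linarith)
  have hβc : β * c ≤ c := by nlinarith
  have hβε : ε₀ * β * Δ ≤ β * (c / 7) := by nlinarith
  have hlo : (0 : ℝ) < (m1 : ℝ) - m0 := by nlinarith [ha0.1, ha0.2, ha1.1, ha1.2]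
  have hm : (1 : ℝ) ≤ (m1 : ℝ) - m0 := by
    have h1 : (0 : ℤ) < m1 - m0 := by exact_mod_cast hlo
    have h2 : (1 : ℤ) ≤ m1 - m0 := h1
    exact_mod_cast h2
  have hβΔ : β * Δ ≤ β * (1 / 2 + c / 7) := by
    apply mul_le_mul_of_nonneg_left _ hβ.le
    linarith [hd'.1]
  have hkey : 1 - β ≤ 15 * c := by nlinarith [ha0.1, ha0.2, ha1.1, ha1.2]
  refine ⟨by linarith, σ, m0 - j₀, hσ, fun x hx => ?_⟩
  have h1 := abs_le.mp (hw _ _ (hI 0 (by norm_num)) hx)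
  have h2 := abs_le.mp (hy _ _ (hI 0 (by norm_num)) hx)
  have hx0 : |x - u 0| ≤ 31 / 10 := by
    have h0 := (hu 0 (by norm_num)).1
    exact abs_le.mpr ⟨by linarith [h0.2, hx.1], by linarith [h0.1, hx.2]⟩
  have h3 : |(1 - β) * (x - u 0)| ≤ 15 * c * (31 / 10) := by
    rw [abs_mul, abs_of_nonneg (by linarith : 0 ≤ 1 - β)]
    exact mul_le_mul hkey hx0 (abs_nonneg _) (by linarith)
  have h4 : ε₀ * |x - u 0| ≤ c := by nlinarith [abs_nonneg (x - u 0)]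
  have h5 : ε₀ * β * |x - u 0| ≤ c := by
    have : ε₀ * β * |x - u 0| = β * (ε₀ * |x - u 0|) := by ring
    nlinarith [abs_nonneg (x - u 0), mul_nonneg hε0.le (abs_nonneg (x - u 0))]
  have h3' := abs_le.mp h3
  push_cast
  exact abs_le.mpr ⟨by nlinarith [ha0.1, ha0.2], by nlinarith [ha0.1, ha0.2]⟩

end Crest.Agent.R128
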