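import Crest.Agent.R128.PorI
import Crest.Agent.R128.PorPrep
import Crest.Agent.R128.PorIIa
import Crest.Agent.R128.PorIIb

/-! The porosity lemma. -/

set_option autoImplicit false

noncomputable section

open MeasureTheory Set

namespace Crest.Agent.R128

theorem porosity {C₀ : ℝ} (hC : 0 < C₀) :
    ∃ δ > 0, δ ≤ 1 ∧ ∃ ε₀ > 0, ∃ K₁ : ℝ, ∀ K ≥ K₁,
      ∀ (b : ℝ) (s₁ s₂ : Sd) (G : ℝ → ℝ) (E : Set ℝ),
        PorData K C₀ ε₀ b s₁ s₂ G E → ¬ DenseIn δ E := by
  obtain ⟨ca, hca, δa, hδa, Ka, ha⟩ := por_IIa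
  obtain ⟨cb, hcb, δb, hδb, Kb, hb⟩ := por_IIb
  set c : ℝ := min (1 / 1000) (min ca cb / 64) with hc
  have hc0 : 0 < c := lt_min (by norm_num) (by have := lt_min hca hcb; positivity)
  have hc1 : c ≤ 1 / 1000 := min_le_left _ _
  have hc2 : 64 * c ≤ min ca cb := by
    have : c ≤ min ca cb / 64 := min_le_right _ _
    linarith
  obtain ⟨δ1, hδ1, K1, h1⟩ := por_I hC hc0 hc1
  refine ⟨min 1 (min δ1 (min δa δb)), lt_min one_pos (lt_min hδ1 (lt_min hδa hδb)), min_le_left _ _,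
    c / 4, by positivity, max 1 (max K1 (max Ka Kb)), ?_⟩
  intro K hK b s₁ s₂ G E hP hE
  have hK0 : 1 ≤ K := le_trans (le_max_left _ _) hK
  have hK1 : K ≥ K1 := le_trans (le_trans (le_max_left _ _) (le_max_right _ _)) hK
  have hKa : K ≥ Ka :=
    le_trans (le_trans (le_trans (le_max_left _ _) (le_max_right _ _)) (le_max_right _ _)) hK
  have hKb : K ≥ Kb :=
    le_trans (le_trans (le_trans (le_max_right _ _) (le_max_right _ _)) (le_max_right _ _)) hK
  have hε0 : 0 < c / 4 := by positivity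
  have hε : c / 4 ≤ 1 / 1000 := by linarith
  obtain ⟨u, j₀, hu⟩ := exists_poles hP.ok₁ (by linarith)
  have hb0 : b ≠ 0 := by
    intro h0
    have h2 := hP.le_b
    rw [h0, abs_zero] at h2
    exact absurd h2 (not_le.mpr (Real.rpow_pos_of_pos (by linarith) _))
  by_cases hz : ∀ i : ℕ, i ≤ 3 → |Real.cos (2 * Real.pi * s₂.y (u i))| < 14 * |b| * c
  · obtain ⟨hb2, σ, j, hσ, he⟩ :=
      por_prep hP.ok₁ hP.ok₂ hP.b_le hb0 hc0 hc1 hε0 le_rfl u j₀ hu hz
    rcases Int.even_or_odd j with hj | hj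
    · refine ha K hKa C₀ _ b σ s₁ s₂ G E hε0 hε hP hb2 (u 0) j₀ j (hu 0 (by norm_num)).1
        (by simpa using (hu 0 (by norm_num)).2) hσ hj
        (fun x hx => (he x hx).trans (hc2.trans (min_le_left _ _))) (hE.mono ?_)
      exact (min_le_right _ _).trans ((min_le_right _ _).trans (min_le_left _ _))
    · refine hb K hKb C₀ _ b σ s₁ s₂ G E hε0 hε hP hb2 u j₀ j hu hσ hj
        (fun x hx => (he x hx).trans (hc2.trans (min_le_right _ _))) (hE.mono ?_)
      exact (min_le_right _ _).trans ((min_le_right _ _).trans (min_le_right _ _))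
  · push Not at hz
    obtain ⟨i, hi, hzi⟩ := hz
    refine h1 K hK1 _ b s₁ s₂ G E hε0 hε hP (u i) (j₀ + i) (hu i hi).1 (hu i hi).2 hzi (hE.mono ?_)
    exact (min_le_right _ _).trans (min_le_left _ _)

end Crest.Agent.R128
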