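import Crest.Agent.R128.Taylor
import Crest.Agent.R128.Interp

/-! Porosity, case I: a pole of the fast side far from the poles of the slow side. -/

set_option autoImplicit false

noncomputable section

open MeasureTheory Set

namespace Crest.Agent.R128

theorem porI_sq {s : Sd} {K C₀ ε₀ b : ℝ} (h : s.Ok K C₀ ε₀ b) (hε : ε₀ ≤ 1 / 1000) {u : ℝ}
    (hu : u ∈ Icc (-2 : ℝ) 2) : |b| ^ 2 / 2 ≤ s.dy u ^ 2 ∧ s.dy u ^ 2 ≤ 2 * |b| ^ 2 := by
  have h1 := h.near u hu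
  have hb := abs_nonneg b
  have h2 : ε₀ * |b| ≤ 1 / 1000 * |b| := mul_le_mul_of_nonneg_right hε hb
  have h3 := abs_abs_sub_abs_le_abs_sub (s.dy u) b
  have h4 := abs_le.1 (h3.trans (h1.trans h2))
  have h5 := abs_nonneg (s.dy u)
  rw [← sq_abs (s.dy u)]
  constructor <;> nlinarith [h4.1, h4.2]

theorem porI_D_le {s : Sd} {K C₀ ε₀ b : ℝ} (h : s.Ok K C₀ ε₀ b) (hε : ε₀ ≤ 1 / 1000) (hK : 0 ≤ K)
    {u : ℝ} (hu : u ∈ Icc (-2 : ℝ) 2) {X : ℝ}
    (hX : K * |Real.cos (2 * Real.pi * s.y u)| + 3 ≤ X) : |s.D u| ≤ 2 * |b| ^ 2 * X := by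
  rw [h.Deq u hu, abs_mul, abs_of_nonneg (sq_nonneg _)]
  have h1 := abs_le.1 (h.eps u hu)
  have h2 : |2 + K * Real.cos (2 * Real.pi * s.y u) - s.e u| ≤ X := by
    have h3 : |K * Real.cos (2 * Real.pi * s.y u)| = K * |Real.cos (2 * Real.pi * s.y u)| := by
      rw [abs_mul, abs_of_nonneg hK]
    have h4 := abs_le.1 h3.le
    rw [abs_le]
    constructor <;> linarith [h1.1, h1.2, h4.1, h4.2]
  exact mul_le_mul (porI_sq h hε hu).2 h2 (abs_nonneg _) (by positivity)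

theorem porI_le_D {s : Sd} {K C₀ ε₀ b : ℝ} (h : s.Ok K C₀ ε₀ b) (hε : ε₀ ≤ 1 / 1000) (hK : 0 ≤ K)
    {u : ℝ} (hu : u ∈ Icc (-2 : ℝ) 2) {X : ℝ} (hX0 : 0 ≤ X)
    (hX : X + 3 ≤ K * |Real.cos (2 * Real.pi * s.y u)|) : |b| ^ 2 / 2 * X ≤ |s.D u| := by
  rw [h.Deq u hu, abs_mul, abs_of_nonneg (sq_nonneg (s.dy u))]
  have h1 := abs_le.1 (h.eps u hu)
  have h2 : X ≤ |2 + K * Real.cos (2 * Real.pi * s.y u) - s.e u| := by
    have h3 : |K * Real.cos (2 * Real.pi * s.y u)| = K * |Real.cos (2 * Real.pi * s.y u)| := by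
      rw [abs_mul, abs_of_nonneg hK]
    rw [← h3] at hX
    have h5 := le_abs_self (2 + K * Real.cos (2 * Real.pi * s.y u) - s.e u)
    have h6 := neg_abs_le (2 + K * Real.cos (2 * Real.pi * s.y u) - s.e u)
    rcases abs_cases (K * Real.cos (2 * Real.pi * s.y u)) with h4 | h4 <;>
      linarith [h1.1, h1.2, h4.1]
  exact mul_le_mul (porI_sq h hε hu).1 h2 hX0 (sq_nonneg _)

theorem porI_beta {K β c : ℝ} (hK : 1 ≤ K) (hc0 : 0 < c) (hc : c ≤ 1) (hKc : 1 / c ^ 3 ≤ K)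
    (h : K ^ (-(3 / 5 : ℝ)) ≤ β) : 1 ≤ β * K * c := by
  have hK0 : 0 < K := by linarith
  have h0 : 0 < K ^ (-(3 / 5 : ℝ)) := Real.rpow_pos_of_pos hK0 _
  have hβ : 0 < β := h0.trans_le h
  have h1 : (K ^ (-(3 / 5 : ℝ))) ^ 5 * K ^ 3 = 1 := by
    rw [← Real.rpow_natCast, ← Real.rpow_natCast K 3, ← Real.rpow_mul hK0.le,
      ← Real.rpow_add hK0]
    norm_num
  have h2 : 1 ≤ β ^ 5 * K ^ 3 := by
    rw [← h1]
    gcongr
  have h3 : 1 ≤ K * c ^ 3 := by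
    rwa [div_le_iff₀ (by positivity)] at hKc
  have h4 : 1 ≤ K ^ 2 * c ^ 5 := by
    have h5 : 1 ≤ (K * c ^ 3) ^ 2 := one_le_pow₀ h3
    have h6 : (K * c ^ 3) ^ 2 = K ^ 2 * c ^ 5 * c := by ring
    have h7 : K ^ 2 * c ^ 5 * c ≤ K ^ 2 * c ^ 5 * 1 := by gcongr
    linarith
  have h8 : 1 ≤ (β * K * c) ^ 5 := by
    have : (β * K * c) ^ 5 = β ^ 5 * K ^ 3 * (K ^ 2 * c ^ 5) := by ring
    rw [this]
    exact one_le_mul_of_one_le_of_one_le h2 h4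
  exact (one_le_pow_iff_of_nonneg (by positivity) (by norm_num)).1 h8

/-- the cosine of the fast side just after its pole -/
theorem porI_cos {s : Sd} {K C₀ ε₀ : ℝ} (h : s.Ok K C₀ ε₀ 1) (hε : ε₀ ≤ 1 / 1000) {u₀ u : ℝ} {j : ℤ}
    (hu₀ : u₀ ∈ Icc (-2 : ℝ) 2) (hu : u ∈ Icc (-2 : ℝ) 2) (hy : s.y u₀ = (j : ℝ) / 2 + 1 / 4)
    (h0 : u₀ ≤ u) (h1 : u - u₀ ≤ 1 / 1000) :
    2 * (u - u₀) ≤ |Real.cos (2 * Real.pi * s.y u)| ∧
      |Real.cos (2 * Real.pi * s.y u)| ≤ 7 * (u - u₀) := by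
  have h2 := h.incr hu₀ hu
  rw [abs_one, mul_one, one_mul, abs_of_nonneg (sub_nonneg.2 h0)] at h2
  have h3 : ε₀ * (u - u₀) ≤ 1 / 1000 * (u - u₀) := mul_le_mul_of_nonneg_right hε (sub_nonneg.2 h0)
  have h4 := abs_le.1 (h2.trans h3)
  set t := s.y u - s.y u₀ with ht
  have h5 : s.y u = (j : ℝ) / 2 + 1 / 4 + t := by rw [ht, hy]; ring
  have ht0 : 0 ≤ t := by linarith [h4.1]
  have ht1 : t ≤ 1 / 4 := by linarith [h4.2]
  have hpi := Real.pi_pos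
  have hpi' := Real.pi_lt_d2
  have h6 : |Real.cos (2 * Real.pi * s.y u)| = |Real.sin (2 * Real.pi * t)| := by
    rw [h5, cos_pole, abs_mul, abs_neg, abs_zpow, abs_neg, abs_one, one_zpow, one_mul]
  rw [h6]
  constructor
  · have h7 := Real.mul_le_sin (x := 2 * Real.pi * t) (by positivity) (by nlinarith)
    have h8 : 2 / Real.pi * (2 * Real.pi * t) = 4 * t := by field_simp; ring
    rw [h8] at h7
    linarith [le_abs_self (Real.sin (2 * Real.pi * t)), h4.1]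
  · refine Real.abs_sin_le_abs.trans ?_
    rw [abs_of_nonneg (by positivity)]
    nlinarith [h4.2]

/-- the cosine of the slow side is almost constant -/
theorem porI_cos' {s : Sd} {K C₀ ε₀ b : ℝ} (h : s.Ok K C₀ ε₀ b) (hε : ε₀ ≤ 1 / 1000) {u₀ u : ℝ}
    (hu₀ : u₀ ∈ Icc (-2 : ℝ) 2) (hu : u ∈ Icc (-2 : ℝ) 2) (h0 : u₀ ≤ u) :
    |(|Real.cos (2 * Real.pi * s.y u)| - |Real.cos (2 * Real.pi * s.y u₀)|)| ≤
      7 * |b| * (u - u₀) := by
  have h2 := h.incr hu₀ hu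
  have hd : 0 ≤ u - u₀ := sub_nonneg.2 h0
  rw [abs_of_nonneg hd] at h2
  have hb := abs_nonneg b
  have h3 : ε₀ * |b| * (u - u₀) ≤ 1 / 1000 * |b| * (u - u₀) := by gcongr
  have h4 : |s.y u - s.y u₀| ≤ |b| * (u - u₀) + 1 / 1000 * |b| * (u - u₀) := by
    have h5 := abs_add_le (b * (u - u₀)) (s.y u - s.y u₀ - b * (u - u₀))
    rw [add_sub_cancel, abs_mul, abs_of_nonneg hd] at h5
    linarith
  have hpi := Real.pi_pos
  have hpi' := Real.pi_lt_d2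
  refine (abs_abs_sub_abs_le_abs_sub _ _).trans ((Real.abs_cos_sub_cos_le _ _).trans ?_)
  rw [← mul_sub, abs_mul, abs_of_nonneg (by positivity : 0 ≤ 2 * Real.pi)]
  have h6 : 0 ≤ |b| * (u - u₀) := by positivity
  have h7 := abs_nonneg (s.y u - s.y u₀)
  nlinarith

/-- Notation `β = |b|`, `ζ = |cos 2π z(u₀)| ≥ 14 β c`, `d = β² K ζ` (so `c β³ K ≤ d ≤ K`), `J = [u₀, u₀ + c]`,
`D = s₁.D`, `D' = s₂.D`, `ε = 2 ε₀/(β K²) ≤ 1/K`, `P` the quintic of `smooth`, `Q` the cubic of `ok₂.cub`.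
On `J`: `|cos 2π z| ∈ [ζ/2, 3ζ/2]`, `K ζ ≥ 14 c K^(2/5) ≥ 100`, so `|D'| ∈ [d/8, 4d]`.
On `J₂ = [u₀ + c/2, u₀ + c]`: `|cos 2π y| ≥ c`, `|D| ≥ K c/4`.  `interp_dense` with `m = 8`, `h = c/40`,
nodes in `J₂`, `C_I = 9·40^8`:  `|P| ≤ 13 C_I/(c d)` on `J`.  On `E ∩ J`,
`|(Q P - 1) - D'/D| ≤ 4 d ε + C₀ β⁶ K · 13 C_I/(c d) ≤ C₂ d/K`, `C₂ = 4 + 13 C₀ C_I/c³`.
So `|QP - 1| ≤ C₃ d/K` on `J`, `C₃ = C_I (16/c + C₂)` (degree `≤ 8`).  At a point of `E ∩ [u₀, u₀+δ]`: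
`|D| ≤ 16 K δ` (for `3/K ≤ δ`), `|D'/D| ≥ d/(128 K δ)`; contradiction when `128 δ (C₂ + C₃) < 1`. -/
theorem por_I {C₀ c : ℝ} (hC : 0 < C₀) (hc0 : 0 < c) (hc : c ≤ 1 / 1000) :
    ∃ δ > 0, ∃ K₁ : ℝ, ∀ K ≥ K₁, ∀ (ε₀ b : ℝ) (s₁ s₂ : Sd) (G : ℝ → ℝ) (E : Set ℝ),
      0 < ε₀ → ε₀ ≤ 1 / 1000 → PorData K C₀ ε₀ b s₁ s₂ G E →
      ∀ (u₀ : ℝ) (j : ℤ), u₀ ∈ Icc (-(11 / 10) : ℝ) (11 / 10) → s₁.y u₀ = (j : ℝ) / 2 + 1 / 4 →
        14 * |b| * c ≤ |Real.cos (2 * Real.pi * s₂.y u₀)| → ¬ DenseIn δ E := by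
  set CI : ℝ := 9 * 40 ^ 8 with hCI
  have hCI0 : 0 < CI := by positivity
  set C₂ : ℝ := 4 + 13 * C₀ * CI / c ^ 3 with hC₂
  have hC₂0 : 0 < C₂ := by positivity
  set C₃ : ℝ := CI * (16 / c + C₂) with hC₃
  have hC₃0 : 0 < C₃ := by positivity
  set δ : ℝ := min (c / 40) (1 / (256 * (C₂ + C₃))) with hδ
  have hδ0 : 0 < δ := lt_min (by positivity) (by positivity)
  have hδ1 : δ ≤ c / 40 := min_le_left _ _
  have hδ2 : δ * (256 * (C₂ + C₃)) ≤ 1 := by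
    rw [← le_div_iff₀ (by positivity)]
    exact min_le_right _ _
  refine ⟨δ, hδ0, max (max 1 (1 / c ^ 3)) (max (6 / c) (3 / δ)), ?_⟩
  intro K hK ε₀ b s₁ s₂ G E hε0 hε hP u₀ j hu₀ hy hζ hE
  have hK1 : 1 ≤ K := le_trans ((le_max_left _ _).trans (le_max_left _ _)) hK
  have hK2 : 1 / c ^ 3 ≤ K := le_trans ((le_max_right _ _).trans (le_max_left _ _)) hK
  have hK3 : 6 ≤ K * c := by
    rw [← div_le_iff₀ hc0]
    exact le_trans ((le_max_left _ _).trans (le_max_right _ _)) hK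
  have hK4 : 3 ≤ K * δ := by
    rw [← div_le_iff₀ hδ0]
    exact le_trans ((le_max_right _ _).trans (le_max_right _ _)) hK
  have hK0 : 0 < K := by linarith
  have hβK : 1 ≤ |b| * K * c := porI_beta hK1 hc0 (by linarith) hK2 hP.le_b
  have hβ0 : 0 < |b| := (Real.rpow_pos_of_pos hK0 _).trans_le hP.le_b
  have hβ1 := hP.b_le
  set β := |b| with hβ
  set ζ := |Real.cos (2 * Real.pi * s₂.y u₀)| with hζd
  have hζ0 : 0 < ζ := lt_of_lt_of_le (by positivity) hζ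
  have hζ1 : ζ ≤ 1 := Real.abs_cos_le_one _
  have hKζ : 14 ≤ K * ζ := by
    have : K * (14 * β * c) ≤ K * ζ := by gcongr
    linarith
  set d : ℝ := β ^ 2 * (K * ζ) with hd
  have hd0 : 0 < d := by positivity
  have hdK : d ≤ K := by
    have h1 : β ^ 2 ≤ 1 := pow_le_one₀ hβ0.le hβ1
    calc d ≤ 1 * (K * 1) := by rw [hd]; gcongr
      _ = K := by ring
  have hdc : c * β ^ 3 * K ≤ d := by
    have h1 : β * c ≤ ζ := by nlinarith [mul_pos hβ0 hc0]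
    calc c * β ^ 3 * K = β ^ 2 * (K * (β * c)) := by ring
      _ ≤ d := by rw [hd]; gcongr
  have hu₀' : u₀ ∈ Icc (-2 : ℝ) 2 := ⟨by linarith [hu₀.1], by linarith [hu₀.2]⟩
  have hJ : ∀ u ∈ Icc u₀ (u₀ + c), u ∈ Icc (-2 : ℝ) 2 := fun u hu =>
    ⟨by linarith [hu₀.1, hu.1], by linarith [hu₀.2, hu.2]⟩
  -- the slow side on `J`
  have hD' : ∀ u ∈ Icc u₀ (u₀ + c), d / 8 ≤ |s₂.D u| ∧ |s₂.D u| ≤ 4 * d := by
    intro u hu
    have h1 := porI_cos' hP.ok₂ hε hu₀' (hJ u hu) hu.1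
    have h2 : 7 * β * (u - u₀) ≤ 7 * β * c := by gcongr; linarith [hu.2]
    have h3 := abs_le.1 (h1.trans h2)
    have h4 : K * (ζ / 2) ≤ K * |Real.cos (2 * Real.pi * s₂.y u)| := by
      gcongr; linarith [h3.1]
    have h5 : K * |Real.cos (2 * Real.pi * s₂.y u)| ≤ K * (3 * ζ / 2) := by
      gcongr; linarith [h3.2]
    constructor
    · have := porI_le_D hP.ok₂ hε hK0.le (hJ u hu) (X := K * ζ / 4) (by positivity) (by linarith)
      rw [hd]; linarith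
    · have := porI_D_le hP.ok₂ hε hK0.le (hJ u hu) (X := 2 * (K * ζ)) (by linarith)
      rw [hd]; linarith
  -- the fast side on `J₂`
  have hD : ∀ u ∈ Icc (u₀ + c / 2) (u₀ + c), K * c / 4 ≤ |s₁.D u| := by
    intro u hu
    have hu' : u ∈ Icc u₀ (u₀ + c) := ⟨by linarith [hu.1], hu.2⟩
    have h1 := (porI_cos hP.ok₁ hε hu₀' (hJ u hu') hy hu'.1 (by linarith [hu.2])).1
    have h2 : K * c ≤ K * |Real.cos (2 * Real.pi * s₁.y u)| := by
      gcongr; linarith [hu.1]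
    have := porI_le_D hP.ok₁ hε hK0.le (hJ u hu') (X := K * c / 2) (by positivity) (by linarith)
    rw [abs_one] at this
    linarith
  obtain ⟨P, hPd, hPG⟩ := hP.smooth
  obtain ⟨Q, hQd, hQ⟩ := hP.ok₂.cub
  have hr : ∀ u ∈ E, u ∈ Icc (-2 : ℝ) 2 → |P.eval u - 1 / s₁.D u - 1 / s₂.D u| ≤ 1 / K := by
    intro u hu hu'
    have h1 := (hP.ev u hu hu').2.2
    have h2 := hPG u hu'
    have h3 : ε₀ / (β * K ^ 2) ≤ 1 / (2 * K) := by
      rw [div_le_div_iff₀ (by positivity) (by positivity)]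
      have h5 : β * K * c ≤ β * K * 1 := by gcongr; linarith
      nlinarith
    have h4 : ε₀ / K ^ 2 ≤ 1 / (2 * K) := by
      rw [div_le_div_iff₀ (by positivity) (by positivity)]
      nlinarith
    have h5 : 1 / (2 * K) + 1 / (2 * K) = 1 / K := by field_simp; ring
    have h6 := abs_le.1 (h1.trans h3)
    have h7 := abs_le.1 (h2.trans h4)
    rw [abs_le]
    constructor <;> linarith [h6.1, h6.2, h7.1, h7.2]
  have hint : ∀ (R : Polynomial ℝ) (A : ℝ), R.natDegree ≤ 8 →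
      (∀ x ∈ E, x ∈ Icc (u₀ + c / 2) (u₀ + c) → |R.eval x| ≤ A) →
      ∀ u ∈ Icc u₀ (u₀ + c), |R.eval u| ≤ CI * A := by
    intro R A hR hA u hu
    have := interp_dense (m := 8) R hR (δ := δ) (h := c / 40) (a := u₀) (l := c) (c := u₀ + c / 2)
      (A := A) hE hδ1 (by positivity) hu₀'.1 (by linarith [hu₀.2]) (by linarith)
      (by push_cast; linarith)
      (fun x hx h1 h2 => hA x hx ⟨h1, by push_cast at h2; linarith⟩) u hu
    rw [show c / (c / 40) = 40 by field_simp] at this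
    rw [hCI]
    push_cast at this
    linarith
  have hcd : 0 < c * d := by positivity
  have hPb : ∀ u ∈ Icc u₀ (u₀ + c), |P.eval u| ≤ CI * (13 / (c * d)) := by
    refine hint P _ (by omega) fun x hx hx' => ?_
    have hx'' : x ∈ Icc u₀ (u₀ + c) := ⟨by linarith [hx'.1], hx'.2⟩
    have h1 := hr x hx (hJ x hx'')
    have h2 : |1 / s₁.D x| ≤ 4 / (c * d) := by
      rw [abs_div, abs_one]
      calc 1 / |s₁.D x| ≤ 1 / (K * c / 4) := one_div_le_one_div_of_le (by positivity) (hD x hx')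
        _ = 4 / (c * K) := by field_simp
        _ ≤ 4 / (c * d) := by gcongr
    have h3 : |1 / s₂.D x| ≤ 8 / (c * d) := by
      rw [abs_div, abs_one]
      calc 1 / |s₂.D x| ≤ 1 / (d / 8) := one_div_le_one_div_of_le (by positivity) (hD' x hx'').1
        _ = 8 / (1 * d) := by field_simp
        _ ≤ 8 / (c * d) := by gcongr; linarith
    have h4 : 1 / K ≤ 1 / (c * d) := by
      refine one_div_le_one_div_of_le hcd ?_
      nlinarith
    have h5 : 13 / (c * d) = 1 / (c * d) + 4 / (c * d) + 8 / (c * d) := by ring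
    have h6 := abs_le.1 (h1.trans h4)
    have h7 := abs_le.1 h2
    have h8 := abs_le.1 h3
    rw [abs_le]
    constructor <;> linarith [h6.1, h6.2, h7.1, h7.2, h8.1, h8.2]
  have hQP : ∀ u ∈ E, u ∈ Icc u₀ (u₀ + c) →
      |(Q * P - 1).eval u - s₂.D u / s₁.D u| ≤ C₂ * (d / K) := by
    intro u hu hu'
    obtain ⟨h1, h2, -⟩ := hP.ev u hu (hJ u hu')
    have e : (Q * P - 1).eval u - s₂.D u / s₁.D u =
        s₂.D u * (P.eval u - 1 / s₁.D u - 1 / s₂.D u) - (s₂.D u - Q.eval u) * P.eval u := by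
      simp only [Polynomial.eval_sub, Polynomial.eval_mul, Polynomial.eval_one]
      field_simp
      ring
    have h3 : |s₂.D u * (P.eval u - 1 / s₁.D u - 1 / s₂.D u)| ≤ 4 * d * (1 / K) := by
      rw [abs_mul]
      exact mul_le_mul (hD' u hu').2 (hr u hu (hJ u hu')) (abs_nonneg _) (by positivity)
    have h4 : |(s₂.D u - Q.eval u) * P.eval u| ≤ C₀ * β ^ 6 * K * (CI * (13 / (c * d))) := by
      rw [abs_mul]
      exact mul_le_mul (hQ u (hJ u hu')) (hPb u hu') (abs_nonneg _) (by positivity)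
    have h5 : C₀ * β ^ 6 * K * (CI * (13 / (c * d))) ≤ 13 * C₀ * CI / c ^ 3 * (d / K) := by
      have h6 : (c * β ^ 3 * K) ^ 2 ≤ d ^ 2 := by gcongr
      calc C₀ * β ^ 6 * K * (CI * (13 / (c * d)))
          = 13 * C₀ * CI / c ^ 3 * ((c * β ^ 3 * K) ^ 2 / (d * K)) := by field_simp
        _ ≤ 13 * C₀ * CI / c ^ 3 * (d ^ 2 / (d * K)) := by gcongr
        _ = 13 * C₀ * CI / c ^ 3 * (d / K) := by field_simp
    have h7 : C₂ * (d / K) = 4 * d * (1 / K) + 13 * C₀ * CI / c ^ 3 * (d / K) := by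
      rw [hC₂]; ring
    rw [e, h7]
    exact (abs_sub _ _).trans (add_le_add h3 (h4.trans h5))
  have hdeg : (Q * P - 1).natDegree ≤ 8 := by
    refine (Polynomial.natDegree_sub_le _ _).trans (max_le ?_ (by simp))
    exact Polynomial.natDegree_mul_le.trans (by omega)
  have hR : ∀ u ∈ Icc u₀ (u₀ + c), |(Q * P - 1).eval u| ≤ CI * ((16 / c + C₂) * (d / K)) := by
    refine hint _ _ hdeg fun x hx hx' => ?_
    have hx'' : x ∈ Icc u₀ (u₀ + c) := ⟨by linarith [hx'.1], hx'.2⟩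
    have h1 := abs_le.1 (hQP x hx hx'')
    have h2 : |s₂.D x / s₁.D x| ≤ 16 / c * (d / K) := by
      rw [abs_div]
      calc |s₂.D x| / |s₁.D x| ≤ 4 * d / (K * c / 4) :=
            div_le_div₀ (by positivity) (hD' x hx'').2 (by positivity) (hD x hx')
        _ = 16 / c * (d / K) := by field_simp; ring
    have h3 := abs_le.1 h2
    rw [abs_le]
    constructor <;> linarith [h1.1, h1.2, h3.1, h3.2]
  obtain ⟨x, hx, hx1, hx2⟩ := hE u₀ hu₀'.1 (by linarith [hu₀.2])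
  have hx' : x ∈ Icc u₀ (u₀ + c) := ⟨hx1, by linarith⟩
  have h1 := (porI_cos hP.ok₁ hε hu₀' (hJ x hx') hy hx1 (by linarith)).2
  have h2 : K * |Real.cos (2 * Real.pi * s₁.y x)| ≤ K * (7 * δ) := by gcongr; linarith
  have h3 := porI_D_le hP.ok₁ hε hK0.le (hJ x hx') (X := 8 * (K * δ)) (by linarith)
  rw [abs_one] at h3
  have h4 : |s₂.D x / s₁.D x| ≤ (C₂ + C₃) * (d / K) := by
    have h5 := abs_le.1 (hQP x hx hx')
    have h6 := abs_le.1 (hR x hx')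
    have h7 : CI * ((16 / c + C₂) * (d / K)) = C₃ * (d / K) := by rw [hC₃]; ring
    rw [abs_le]
    constructor <;> linarith [h5.1, h5.2, h6.1, h6.2]
  have hD0 : 0 < |s₁.D x| := abs_pos.2 (hP.ev x hx (hJ x hx')).1
  rw [abs_div, div_le_iff₀ hD0] at h4
  have h8 : (C₂ + C₃) * (d / K) * |s₁.D x| ≤ (C₂ + C₃) * (d / K) * (16 * (K * δ)) := by
    gcongr; linarith
  have h9 : (C₂ + C₃) * (d / K) * (16 * (K * δ)) = d / 16 * (δ * (256 * (C₂ + C₃))) := by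
    field_simp; ring
  have h10 : d / 16 * (δ * (256 * (C₂ + C₃))) ≤ d / 16 * 1 := by gcongr
  linarith [(hD' x hx').1]

end Crest.Agent.R128
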