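import Crest.Agent.R128.Taylor
import Crest.Agent.R128.Interp
import Crest.Agent.R128.PorI

/-! Porosity, case II: control of the smooth part from the middle region. -/

set_option autoImplicit false

noncomputable section

open MeasureTheory Set

namespace Crest.Agent.R128

theorem porMid_sin {t : ℝ} (h0 : 1 / 10 ≤ t) (h1 : t ≤ 2 / 5) :
    2 / 5 ≤ Real.sin (2 * Real.pi * t) := by
  have hpi := Real.pi_pos
  have key : ∀ r : ℝ, 1 / 10 ≤ r → r ≤ 1 / 4 → 2 / 5 ≤ Real.sin (2 * Real.pi * r) := by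
    intro r h2 h3
    have h7 := Real.mul_le_sin (x := 2 * Real.pi * r) (by positivity) (by nlinarith)
    have h8 : 2 / Real.pi * (2 * Real.pi * r) = 4 * r := by field_simp; ring
    rw [h8] at h7
    linarith
  rcases le_total t (1 / 4) with h | h
  · exact key t h0 h
  · have := key (1 / 2 - t) (by linarith) (by linarith)
    rwa [show 2 * Real.pi * (1 / 2 - t) = Real.pi - 2 * Real.pi * t by ring, Real.sin_pi_sub] at this

theorem porMid_cos (j : ℤ) {t : ℝ} (h0 : 1 / 10 ≤ t) (h1 : t ≤ 2 / 5) :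
    2 / 5 ≤ |Real.cos (2 * Real.pi * ((j : ℝ) / 2 + 1 / 4 + t))| := by
  rw [cos_pole, abs_mul, abs_neg, abs_zpow, abs_neg, abs_one, one_zpow, one_mul]
  exact (porMid_sin h0 h1).trans (le_abs_self _)

/-- The quintic `P` of `smooth` is controlled by the values of `1/D + 1/D'` on the middle region
`[u₀ + 1/5, u₀ + 3/10]`, where `|cos 2π y|, |cos 2π z| ≥ 2/5`, so `|D| ≥ K/8`, `|D'| ≥ K/32`.
(`interp_dense` with `m = 5`, `h = 1/120`, `a = -2`, `l = 4`; on `E`, `|P - 1/D - 1/D'| ≤ 3 ε₀/K²`.)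
Conclusion: for every `x ∈ E ∩ [-2,2]`, `|1/D + 1/D'| ≤ 6·480^5 (256 A + 1)/K² + 1/K²`
if `|D + D'| ≤ A` on the middle region. -/
theorem por_mid {K C₀ ε₀ b c δ A σ : ℝ} {s₁ s₂ : Sd} {G : ℝ → ℝ} {E : Set ℝ} (hK : 100 ≤ K)
    (hε0 : 0 < ε₀) (hε : ε₀ ≤ 1 / 1000) (h : PorData K C₀ ε₀ b s₁ s₂ G E) (hb : 1 / 2 ≤ |b|)
    (hc : c ≤ 1 / 20) (hδ : δ ≤ 1 / 120) (hE : DenseIn δ E)
    {u₀ : ℝ} {j₀ j : ℤ} (hu₀ : u₀ ∈ Icc (-(11 / 10) : ℝ) (11 / 10))
    (hy : s₁.y u₀ = (j₀ : ℝ) / 2 + 1 / 4) (hσ : σ = 1 ∨ σ = -1)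
    (he : ∀ x ∈ Icc (-2 : ℝ) 2, |σ * s₂.y x - s₁.y x - (j : ℝ) / 2| ≤ c)
    (hA : ∀ x ∈ Icc (u₀ + 1 / 5) (u₀ + 3 / 10), |s₁.D x + s₂.D x| ≤ A) :
    ∀ x ∈ E, x ∈ Icc (-2 : ℝ) 2 →
      |1 / s₁.D x + 1 / s₂.D x| ≤ (6 * 480 ^ 5 * (256 * A + 1) + 1) / K ^ 2 := by
  have hK0 : 0 < K := by linarith
  have hu₀' : u₀ ∈ Icc (-2 : ℝ) 2 := ⟨by linarith [hu₀.1], by linarith [hu₀.2]⟩
  have hJ : ∀ u ∈ Icc (u₀ + 1 / 5) (u₀ + 3 / 10), u ∈ Icc (-2 : ℝ) 2 := fun u hu =>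
    ⟨by linarith [hu₀.1, hu.1], by linarith [hu₀.2, hu.2]⟩
  have hD : ∀ u ∈ Icc (u₀ + 1 / 5) (u₀ + 3 / 10), K / 8 ≤ |s₁.D u| ∧ K / 32 ≤ |s₂.D u| := by
    intro u hu
    have h2 := h.ok₁.incr hu₀' (hJ u hu)
    have hd : 0 ≤ u - u₀ := by linarith [hu.1]
    rw [abs_one, mul_one, one_mul, abs_of_nonneg hd] at h2
    have h3 : ε₀ * (u - u₀) ≤ 1 / 1000 * (u - u₀) := mul_le_mul_of_nonneg_right hε hd
    have h4 := abs_le.1 (h2.trans h3)
    have h5 := abs_le.1 ((he u (hJ u hu)).trans hc)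
    have c1 : 2 / 5 ≤ |Real.cos (2 * Real.pi * s₁.y u)| := by
      have := porMid_cos j₀ (t := s₁.y u - s₁.y u₀) (by linarith [h4.1, hu.1])
        (by linarith [h4.2, hu.2])
      rwa [← hy, add_sub_cancel] at this
    have c2 : 2 / 5 ≤ |Real.cos (2 * Real.pi * s₂.y u)| := by
      have := porMid_cos (j₀ + j) (t := σ * s₂.y u - (j : ℝ) / 2 - s₁.y u₀)
        (by linarith [h4.1, hu.1, h5.1]) (by linarith [h4.2, hu.2, h5.2])
      rw [show (((j₀ + j : ℤ) : ℝ)) / 2 + 1 / 4 + (σ * s₂.y u - (j : ℝ) / 2 - s₁.y u₀) =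
        σ * s₂.y u by rw [hy]; push_cast; ring] at this
      rcases hσ with rfl | rfl
      · rwa [one_mul] at this
      · rwa [neg_one_mul, mul_neg, Real.cos_neg] at this
    have k1 : K * (2 / 5) ≤ K * |Real.cos (2 * Real.pi * s₁.y u)| := by gcongr
    have k2 : K * (2 / 5) ≤ K * |Real.cos (2 * Real.pi * s₂.y u)| := by gcongr
    constructor
    · have := porI_le_D h.ok₁ hε hK0.le (hJ u hu) (X := K / 4) (by positivity) (by linarith)
      rw [abs_one] at this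
      linarith
    · have := porI_le_D h.ok₂ hε hK0.le (hJ u hu) (X := K / 4) (by positivity) (by linarith)
      have hb2 : (1 / 2) ^ 2 / 2 * (K / 4) ≤ |b| ^ 2 / 2 * (K / 4) := by gcongr
      linarith
  obtain ⟨P, hPd, hPG⟩ := h.smooth
  have hr : ∀ u ∈ E, u ∈ Icc (-2 : ℝ) 2 →
      |P.eval u - (1 / s₁.D u + 1 / s₂.D u)| ≤ 1 / K ^ 2 := by
    intro u hu hu'
    have h1 := (h.ev u hu hu').2.2
    have h2 := hPG u hu'
    have h3 : ε₀ / (|b| * K ^ 2) ≤ (1 / 1000) / (1 / 2 * K ^ 2) := by gcongr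
    have h4 : ε₀ / K ^ 2 ≤ (1 / 1000) / K ^ 2 := by gcongr
    have h5 : (1 / 1000) / (1 / 2 * K ^ 2) + (1 / 1000) / K ^ 2 = 3 / 1000 * (1 / K ^ 2) := by
      field_simp; ring
    have h6 := abs_le.1 (h1.trans h3)
    have h7 := abs_le.1 (h2.trans h4)
    have h8 : 0 < 1 / K ^ 2 := by positivity
    rw [abs_le]
    constructor <;> linarith [h6.1, h6.2, h7.1, h7.2]
  have hPb := interp_dense (m := 5) P hPd (δ := δ) (h := 1 / 120) (a := -2) (l := 4)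
    (c := u₀ + 1 / 5) (A := (256 * A + 1) / K ^ 2) hE hδ (by norm_num) le_rfl (by norm_num)
    (by linarith [hu₀.1]) (by push_cast; linarith [hu₀.2]) (fun x hx h1 h2 => by
      have hx' : x ∈ Icc (u₀ + 1 / 5) (u₀ + 3 / 10) := ⟨h1, by push_cast at h2; linarith⟩
      obtain ⟨d1, d2, -⟩ := h.ev x hx (hJ x hx')
      have h3 : |1 / s₁.D x + 1 / s₂.D x| ≤ 256 * A / K ^ 2 := by
        rw [show 1 / s₁.D x + 1 / s₂.D x = (s₁.D x + s₂.D x) / (s₁.D x * s₂.D x) by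
          field_simp; ring, abs_div, abs_mul]
        have hA0 : 0 ≤ A := (abs_nonneg _).trans (hA x hx')
        calc |s₁.D x + s₂.D x| / (|s₁.D x| * |s₂.D x|) ≤ A / (K / 8 * (K / 32)) :=
              div_le_div₀ hA0 (hA x hx') (by positivity)
                (mul_le_mul (hD x hx').1 (hD x hx').2 (by positivity) (abs_nonneg _))
          _ = 256 * A / K ^ 2 := by field_simp; ring
      have h4 := abs_le.1 (hr x hx (hJ x hx'))
      have h5 := abs_le.1 h3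
      have h6 : (256 * A + 1) / K ^ 2 = 256 * A / K ^ 2 + 1 / K ^ 2 := by ring
      rw [abs_le]
      constructor <;> linarith [h4.1, h4.2, h5.1, h5.2])
  intro x hx hx'
  have h1 := hPb x ⟨hx'.1, by linarith [hx'.2]⟩
  have h2 : (((5 : ℕ) : ℝ) + 1) * (4 / (1 / 120)) ^ 5 * ((256 * A + 1) / K ^ 2) + 1 / K ^ 2 =
      (6 * 480 ^ 5 * (256 * A + 1) + 1) / K ^ 2 := by
    push_cast
    ring
  have h3 := abs_le.1 h1
  have h4 := abs_le.1 (hr x hx hx')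
  rw [← h2, abs_le]
  constructor <;> linarith [h3.1, h3.2, h4.1, h4.2]

end Crest.Agent.R128
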