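import Crest.Agent.R128.Defs

/-! Basic facts on the two-sided recursion and on solutions of the linear equation. -/

set_option autoImplicit false

noncomputable section

open MeasureTheory Set

namespace Crest.Agent.R128

/-- Two-sided induction on `ℤ` for second-order recursions. -/
theorem int_ind2 {P : ℤ → Prop} (c : ℤ) (h0 : P c) (h1 : P (c + 1))
    (hup : ∀ s, P (s - 1) → P s → P (s + 1)) (hdn : ∀ s, P (s + 1) → P s → P (s - 1)) :
    ∀ s, P s := by
  have key : ∀ n : ℕ, (P (c + n) ∧ P (c + n + 1)) ∧ (P (c - n) ∧ P (c - n + 1)) := by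
    intro n
    induction n with
    | zero => simp [h0, h1]
    | succ n ih =>
      obtain ⟨⟨a1, a2⟩, b1, b2⟩ := ih
      refine ⟨⟨?_, ?_⟩, ?_, ?_⟩
      · have : c + ((n + 1 : ℕ) : ℤ) = c + n + 1 := by push_cast; ring
        rw [this]; exact a2
      · have e : c + ((n + 1 : ℕ) : ℤ) = c + n + 1 := by push_cast; ring
        rw [e]
        refine hup _ ?_ a2
        have : c + (n : ℤ) + 1 - 1 = c + n := by ring
        rw [this]; exact a1
      · have e : c - ((n + 1 : ℕ) : ℤ) = c - n - 1 := by push_cast; ring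
        rw [e]
        exact hdn _ b2 b1
      · have e : c - ((n + 1 : ℕ) : ℤ) + 1 = c - n := by push_cast; ring
        rw [e]; exact b1
  intro s
  rcases le_total c s with h | h
  · obtain ⟨n, hn⟩ := Int.eq_ofNat_of_zero_le (sub_nonneg.mpr h)
    have : s = c + n := by omega
    rw [this]; exact (key n).1.1
  · obtain ⟨n, hn⟩ := Int.eq_ofNat_of_zero_le (sub_nonneg.mpr h)
    have : s = c - n := by omega
    rw [this]; exact (key n).2.1

theorem rec2_left (g : ℤ → ℝ → ℝ) (c : ℤ) (p q : ℝ) : rec2 g c p q c = p := by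
  simp [rec2, fwd]

theorem rec2_right (g : ℤ → ℝ → ℝ) (c : ℤ) (p q : ℝ) : rec2 g c p q (c + 1) = q := by
  have : (c + 1 - c).toNat = 1 := by simp
  simp [rec2, fwd]

theorem rec2_nat (g : ℤ → ℝ → ℝ) (c : ℤ) (p q : ℝ) (n : ℕ) :
    rec2 g c p q (c + n) = fwd (fun n : ℕ => g (c + n)) p q n := by
  have h : c ≤ c + n := by omega
  have e : (c + n - c).toNat = n := by simp
  simp only [rec2, if_pos h, e]

/-- Also true for `n = 0, 1` (values `q`, `p`). -/
theorem rec2_nat_neg (g : ℤ → ℝ → ℝ) (c : ℤ) (p q : ℝ) (n : ℕ) :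
    rec2 g c p q (c + 1 - n) = fwd (fun n : ℕ => g (c + 1 - n)) q p n := by
  rcases n with _ | _ | n
  · simpa [fwd] using rec2_right g c p q
  · simpa [fwd] using rec2_left g c p q
  · have h : ¬ c ≤ c + 1 - ((n + 1 + 1 : ℕ) : ℤ) := by push_cast; omega
    have e : (c + 1 - (c + 1 - ((n + 1 + 1 : ℕ) : ℤ))).toNat = n + 1 + 1 := by omega
    simp only [rec2, if_neg h, e]

/-- Cases `s = c + 1 + n` (use `rec2_nat`) and `s = c - n` (use `rec2_nat_neg`). -/
theorem rec2_rec (g : ℤ → ℝ → ℝ) (c : ℤ) (p q : ℝ) (s : ℤ) :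
    rec2 g c p q (s + 1) = g s (rec2 g c p q s) - rec2 g c p q (s - 1) := by
  rcases le_or_gt (c + 1) s with h | h
  · obtain ⟨n, hn⟩ := Int.eq_ofNat_of_zero_le (sub_nonneg.mpr h)
    have e1 : s + 1 = c + ((n + 2 : ℕ) : ℤ) := by push_cast; omega
    have e2 : s = c + ((n + 1 : ℕ) : ℤ) := by push_cast; omega
    have e3 : s - 1 = c + (n : ℤ) := by omega
    rw [e1, e3, rec2_nat, rec2_nat]
    conv_rhs => rw [e2, rec2_nat]
    simp only [fwd]
  · have h' : 0 ≤ c - s := by omega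
    obtain ⟨n, hn⟩ := Int.eq_ofNat_of_zero_le h'
    have e1 : s + 1 = c + 1 - (n : ℤ) := by omega
    have e2 : s = c + 1 - ((n + 1 : ℕ) : ℤ) := by push_cast; omega
    have e3 : s - 1 = c + 1 - ((n + 2 : ℕ) : ℤ) := by push_cast; omega
    rw [e1, e3, rec2_nat_neg, rec2_nat_neg]
    conv_rhs => rw [e2, rec2_nat_neg]
    simp only [fwd]
    ring

theorem eq_of_rec {g : ℤ → ℝ → ℝ} {u w : ℤ → ℝ}
    (hu : ∀ s, u (s + 1) = g s (u s) - u (s - 1)) (hw : ∀ s, w (s + 1) = g s (w s) - w (s - 1))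
    (c : ℤ) (h0 : u c = w c) (h1 : u (c + 1) = w (c + 1)) : u = w := by
  funext s
  refine int_ind2 (P := fun s => u s = w s) c h0 h1 ?_ ?_ s
  · intro s a b
    rw [hu, hw, a, b]
  · intro s a b
    have h1 := hu s
    have h2 := hw s
    rw [a, b] at h1
    linarith

theorem sol_isSol (v : ℤ → ℝ) (c : ℤ) (p q : ℝ) : IsSol v (sol v c p q) := by
  intro s
  exact rec2_rec (fun s x => v s * x) c p q s

@[simp] theorem sol_left (v : ℤ → ℝ) (c : ℤ) (p q : ℝ) : sol v c p q c = p := by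
  exact rec2_left _ _ _ _

@[simp] theorem sol_right (v : ℤ → ℝ) (c : ℤ) (p q : ℝ) : sol v c p q (c + 1) = q := by
  exact rec2_right _ _ _ _

theorem IsSol.ext {v u w : ℤ → ℝ} (hu : IsSol v u) (hw : IsSol v w) (c : ℤ) (h0 : u c = w c)
    (h1 : u (c + 1) = w (c + 1)) : u = w := by
  exact eq_of_rec (g := fun s x => v s * x) hu hw c h0 h1

theorem IsSol.eq_sol {v u : ℤ → ℝ} (hu : IsSol v u) (c : ℤ) : u = sol v c (u c) (u (c + 1)) := by
  exact hu.ext (sol_isSol v c _ _) c (by simp) (by simp)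

theorem IsSol.lin {v u w : ℤ → ℝ} (hu : IsSol v u) (hw : IsSol v w) (a b : ℝ) :
    IsSol v (fun s => a * u s + b * w s) := by
  intro s
  simp only
  rw [hu s, hw s]; ring

theorem IsSol.smul {v u : ℤ → ℝ} (hu : IsSol v u) (a : ℝ) : IsSol v (fun s => a * u s) := by
  intro s
  simp only
  rw [hu s]; ring

theorem IsSol.lin_eq {v u : ℤ → ℝ} (hu : IsSol v u) (c s : ℤ) :
    u s = u c * sol v c 1 0 s + u (c + 1) * sol v c 0 1 s := by
  have := hu.ext ((sol_isSol v c 1 0).lin (sol_isSol v c 0 1) (u c) (u (c + 1))) c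
    (by simp) (by simp)
  exact congrFun this s

theorem sol_lin (v : ℤ → ℝ) (c : ℤ) (p q : ℝ) (s : ℤ) :
    sol v c p q s = p * sol v c 1 0 s + q * sol v c 0 1 s := by
  have := (sol_isSol v c p q).lin_eq c s
  simpa using this

/-- The Wronskian is constant. -/
theorem wronskian {v u w : ℤ → ℝ} (hu : IsSol v u) (hw : IsSol v w) (a b : ℤ) :
    u a * w (a + 1) - u (a + 1) * w a = u b * w (b + 1) - u (b + 1) * w b := by
  have step : ∀ s : ℤ, u s * w (s + 1) - u (s + 1) * w s
      = u (s - 1) * w s - u s * w (s - 1) := by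
    intro s
    rw [hu s, hw s]; ring
  have key : ∀ s : ℤ, u s * w (s + 1) - u (s + 1) * w s = u 0 * w 1 - u 1 * w 0 := by
    intro s
    induction s using Int.induction_on with
    | zero => simp
    | succ n ih =>
      rw [step]
      simpa using ih
    | pred n ih =>
      rw [step] at ih
      have e : -(n : ℤ) - 1 + 1 = -(n : ℤ) := by ring
      rw [e]
      exact ih
  rw [key a, key b]

theorem IsSol.shift {v u : ℤ → ℝ} (hu : IsSol v u) (t : ℤ) : IsSol (shift t v) (shift t u) := by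
  intro s
  have := hu (s + t)
  simp only [R128.shift]
  have e1 : s + 1 + t = s + t + 1 := by ring
  have e2 : s - 1 + t = s + t - 1 := by ring
  rw [e1, e2]; exact this

theorem IsSol.refl {v u : ℤ → ℝ} (hu : IsSol v u) : IsSol (refl v) (refl u) := by
  intro s
  have := hu (1 - s)
  simp only [R128.refl]
  have e1 : 1 - (s + 1) = 1 - s - 1 := by ring
  have e2 : 1 - (s - 1) = 1 - s + 1 := by ring
  rw [e1, e2, this]; ring

theorem sol_shift (v : ℤ → ℝ) (t c : ℤ) (p q : ℝ) (s : ℤ) :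
    sol (shift t v) c p q s = sol v (c + t) p q (s + t) := by
  have := (sol_isSol (shift t v) c p q).ext ((sol_isSol v (c + t) p q).shift t) c
    (by simp [shift]) (by
      have e : c + 1 + t = c + t + 1 := by ring
      simp [shift, e])
  exact congrFun this s

theorem sol_refl (v : ℤ → ℝ) (c : ℤ) (p q : ℝ) (s : ℤ) :
    sol (refl v) c p q s = sol v (-c) q p (1 - s) := by
  have := (sol_isSol (refl v) c p q).ext ((sol_isSol v (-c) q p).refl) c
    (by
      have e : 1 - c = -c + 1 := by ring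
      simp only [refl, e, sol_left, sol_right]) (by
      have e : 1 - (c + 1) = -c := by ring
      simp only [refl, e, sol_left, sol_right])
  exact congrFun this s

theorem shift_shift (s t : ℤ) (v : ℤ → ℝ) : shift s (shift t v) = shift (s + t) v := by
  funext x
  simp only [shift, add_assoc]

@[simp] theorem shift_zero (v : ℤ → ℝ) : shift 0 v = v := by
  funext x
  simp [shift]

@[simp] theorem refl_refl (v : ℤ → ℝ) : refl (refl v) = v := by
  funext x
  simp [refl]

theorem nu_shift (u : ℤ → ℝ) (t s : ℤ) : nu (shift t u) s = nu u (s + t) := by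
  have e : s + 1 + t = s + t + 1 := by ring
  simp only [nu, shift, e]

theorem nu_refl (u : ℤ → ℝ) (s : ℤ) : nu (refl u) s = nu u (-s) := by
  have e1 : 1 - s = -s + 1 := by ring
  have e2 : 1 - (s + 1) = -s := by ring
  simp only [nu, refl, e2]
  rw [e1, max_comm]

theorem nu_nonneg (u : ℤ → ℝ) (s : ℤ) : 0 ≤ nu u s := by
  exact le_trans (abs_nonneg _) (le_max_left _ _)

theorem abs_le_nu (u : ℤ → ℝ) (s : ℤ) : |u s| ≤ nu u s := by
  exact le_max_left _ _

theorem abs_succ_le_nu (u : ℤ → ℝ) (s : ℤ) : |u (s + 1)| ≤ nu u s := by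
  exact le_max_right _ _

theorem nu_smul (u : ℤ → ℝ) (a : ℝ) (s : ℤ) : nu (fun s => a * u s) s = |a| * nu u s := by
  simp only [nu, abs_mul]
  rw [mul_max_of_nonneg _ _ (abs_nonneg a)]

theorem nu_sol_self (v : ℤ → ℝ) (c : ℤ) (p q : ℝ) : nu (sol v c p q) c = max |p| |q| := by
  simp [nu]

/-- A solution that is non-zero at one cut is non-zero at every cut. -/
theorem IsSol.nu_pos {v u : ℤ → ℝ} (hu : IsSol v u) {a : ℤ} (ha : 0 < nu u a) (s : ℤ) :
    0 < nu u s := by
  by_contra h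
  have h0 : nu u s ≤ 0 := not_lt.mp h
  have h1 : u s = 0 := abs_nonpos_iff.mp ((abs_le_nu u s).trans h0)
  have h2 : u (s + 1) = 0 := abs_nonpos_iff.mp ((abs_succ_le_nu u s).trans h0)
  have hz : ∀ x, u x = 0 := by
    intro x
    rw [hu.lin_eq s x, h1, h2]; ring
  simp [nu, hz] at ha

theorem Bdd.shift {M : ℝ} {v : ℤ → ℝ} (h : Bdd M v) (t : ℤ) : Bdd M (shift t v) := by
  exact fun s => h _

theorem Bdd.refl {M : ℝ} {v : ℤ → ℝ} (h : Bdd M v) : Bdd M (refl v) := by
  exact fun s => h _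

theorem Bdd.two_le {M : ℝ} {v : ℤ → ℝ} (h : Bdd M v) : 2 ≤ M := by
  have := (abs_nonneg _).trans (h 0)
  linarith

theorem continuous_sol (c s : ℤ) :
    Continuous fun x : (ℤ → ℝ) × ℝ × ℝ => sol x.1 c x.2.1 x.2.2 s := by
  refine int_ind2 (P := fun s => Continuous fun x : (ℤ → ℝ) × ℝ × ℝ => sol x.1 c x.2.1 x.2.2 s)
    c ?_ ?_ ?_ ?_ s
  · simp only [sol_left]; fun_prop
  · simp only [sol_right]; fun_prop
  · intro s a b
    have e : (fun x : (ℤ → ℝ) × ℝ × ℝ => sol x.1 c x.2.1 x.2.2 (s + 1)) =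
        fun x => x.1 s * sol x.1 c x.2.1 x.2.2 s - sol x.1 c x.2.1 x.2.2 (s - 1) := by
      funext x; exact sol_isSol _ _ _ _ s
    rw [e]
    exact (((continuous_apply s).comp continuous_fst).mul b).sub a
  · intro s a b
    have e : (fun x : (ℤ → ℝ) × ℝ × ℝ => sol x.1 c x.2.1 x.2.2 (s - 1)) =
        fun x => x.1 s * sol x.1 c x.2.1 x.2.2 s - sol x.1 c x.2.1 x.2.2 (s + 1) := by
      funext x
      have := sol_isSol x.1 c x.2.1 x.2.2 s
      linarith
    rw [e]
    exact (((continuous_apply s).comp continuous_fst).mul b).sub a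

theorem continuous_shift (t : ℤ) : Continuous (shift t) := by
  exact continuous_pi fun s => continuous_apply (s + t)

theorem continuous_refl : Continuous refl := by
  exact continuous_pi fun s => continuous_apply (1 - s)

theorem measurable_shift (t : ℤ) : Measurable (shift t) := by
  exact measurable_pi_lambda _ fun s => measurable_pi_apply (s + t)

theorem measurable_refl : Measurable refl := by
  exact measurable_pi_lambda _ fun s => measurable_pi_apply (1 - s)

theorem tm_apply (v : ℤ → ℝ) (a b : ℤ) (w : ℝ × ℝ) :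
    tm v a b w = (sol v a w.1 w.2 b, sol v a w.1 w.2 (b + 1)) := by
  rw [sol_lin v a w.1 w.2 b, sol_lin v a w.1 w.2 (b + 1)]
  simp [tm, mul_comm]

/-- `det` of the transfer matrix is the Wronskian `1` (compute with `Module.Basis.finTwoProd`). -/
theorem tm_det (v : ℤ → ℝ) (a b : ℤ) : (tm v a b).det = 1 := by
  have hw := wronskian (sol_isSol v a 1 0) (sol_isSol v a 0 1) a b
  simp only [sol_left, sol_right] at hw
  rw [ContinuousLinearMap.det, ← LinearMap.det_toMatrix (Module.Basis.finTwoProd ℝ),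
    Matrix.det_fin_two]
  simp only [LinearMap.toMatrix_apply, Module.Basis.finTwoProd_zero, Module.Basis.finTwoProd_one,
    Module.Basis.coe_finTwoProd_repr, ContinuousLinearMap.coe_coe, tm_apply]
  simp only [Matrix.cons_val_zero, Matrix.cons_val_one]
  linarith

/-- Apply `tm` to the sign vectors of its two rows (sup norm on `ℝ × ℝ`). -/
theorem nrm_le_tm (v : ℤ → ℝ) (a b : ℤ) : nrm v a b ≤ 2 * ‖tm v a b‖ := by
  have hs : ∀ x : ℝ, ∃ e : ℝ, |e| ≤ 1 ∧ e * x = |x| := by
    intro x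
    rcases le_total 0 x with h | h
    · exact ⟨1, by simp, by rw [abs_of_nonneg h]; ring⟩
    · exact ⟨-1, by simp, by rw [abs_of_nonpos h]; ring⟩
  have hb : ∀ e f : ℝ, |e| ≤ 1 → |f| ≤ 1 → ‖tm v a b (e, f)‖ ≤ ‖tm v a b‖ := by
    intro e f he hf
    refine ((tm v a b).le_opNorm _).trans ?_
    refine mul_le_of_le_one_right (norm_nonneg _) ?_
    rw [Prod.norm_def]
    exact max_le he hf
  obtain ⟨e1, he1, h1⟩ := hs (sol v a 1 0 b)
  obtain ⟨f1, hf1, k1⟩ := hs (sol v a 0 1 b)
  obtain ⟨e2, he2, h2⟩ := hs (sol v a 1 0 (b + 1))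
  obtain ⟨f2, hf2, k2⟩ := hs (sol v a 0 1 (b + 1))
  have A := (norm_fst_le _).trans (hb e1 f1 he1 hf1)
  have B := (norm_snd_le _).trans (hb e2 f2 he2 hf2)
  rw [tm_apply] at A B
  simp only at A B
  rw [sol_lin, h1, k1, Real.norm_eq_abs] at A
  rw [sol_lin, h2, k2, Real.norm_eq_abs] at B
  have A' := (le_abs_self _).trans A
  have B' := (le_abs_self _).trans B
  unfold nrm
  linarith

/-- Powers of a big base. -/
theorem big_rpow {M : ℝ} (hM : (2 : ℝ) ^ 1000 ≤ M) {x : ℝ} (c : ℕ) (h : (c : ℝ) ≤ 1000 * x) :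
    (2 : ℝ) ^ c ≤ M ^ x := by
  have hx : 0 ≤ x := by
    have : (0 : ℝ) ≤ c := Nat.cast_nonneg c
    linarith
  calc (2 : ℝ) ^ c = (2 : ℝ) ^ (c : ℝ) := (Real.rpow_natCast 2 c).symm
    _ ≤ (2 : ℝ) ^ (((1000 : ℕ) : ℝ) * x) :=
        Real.rpow_le_rpow_of_exponent_le (by norm_num) (by simpa using h)
    _ = ((2 : ℝ) ^ 1000) ^ x := by
        rw [Real.rpow_mul (by norm_num), Real.rpow_natCast]
    _ ≤ M ^ x := Real.rpow_le_rpow (by positivity) hM hx

theorem big_logb {M : ℝ} (hM : (2 : ℝ) ^ 1000 ≤ M) : Real.logb M 8 ≤ 3 / 1000 := by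
  have h2 : 0 < Real.log 2 := Real.log_pos (by norm_num)
  have hl : 1000 * Real.log 2 ≤ Real.log M := by
    have := Real.log_le_log (by positivity) hM
    rwa [Real.log_pow] at this
  have h8 : Real.log 8 = 3 * Real.log 2 := by
    rw [show (8 : ℝ) = 2 ^ 3 by norm_num, Real.log_pow]; norm_num
  rw [Real.logb, h8, div_le_iff₀ (by linarith)]
  linarith

end Crest.Agent.R128
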