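import Crest.Agent.R128.Key
import Crest.Agent.R128.Dist

/-! Geometry of the unstable curve. -/

set_option autoImplicit false

noncomputable section

open MeasureTheory Set

namespace Crest.Agent.R128

/-- Geometry and size of the perturbation.  `y = sp (-g) z`, `pot y = shift (-g) (pot z)` (`sol_shift`).
`pliss` gives the envelope; `g ≥ 1` gives `|u 0| ≤ nu u (-1) ≤ M^(-19/20) nu u 0`, so `nu u 0 = |u 1|`.
`orb_dist` controls the cuts `-g..0` of `p` (site `s` is the second component of cut `s - 1`), `orb_back`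
the sites `≤ -g` (`|τ| ≤ M^(-(19/20) g)` because `nu u (-g) = 1`); then `vee_lip`.
For `-j² < s ≤ -g`, `i = -g-s ≤ 2j - 2` and `(19/20) g - i ≥ (9/10)(g + i + 1)`. -/
theorem ucurve_geom {k : ℝ} (hM : (2 : ℝ) ^ 1000 ≤ Mk k) {j : ℕ} (hj : 1000 < j) (z e : ℝ × ℝ)
    (he : e = (1, 0) ∨ e = (0, 1)) (g : ℕ) (hg : g = (j - 1) ^ 2)
    (hreg : ∀ l : ℕ, 1 ≤ l → l ≤ g → dfc (Mk k) (pot k z) (0 - l) 0 ≤ l / 50)
    (hbig : nrm (pot k z) (-(g : ℤ)) 0 ≤ 4 * nu (sol (pot k z) (-(g : ℤ)) e.1 e.2) 0) :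
    sol (pot k z) (-(g : ℤ)) e.1 e.2 1 ≠ 0 ∧
    |sol (pot k z) (-(g : ℤ)) e.1 e.2 0| ≤ |sol (pot k z) (-(g : ℤ)) e.1 e.2 1| / 2 ∧
    ∀ τ : ℝ, 0 ≤ τ → τ * |sol (pot k z) (-(g : ℤ)) e.1 e.2 1| ≤ 1 →
      |(sp k g (sp k (-(g : ℤ)) z + τ • e)).1 - z.1| ≤
          |(sp k g (sp k (-(g : ℤ)) z + τ • e)).2 - z.2| / 2 ∧
        |(sp k g (sp k (-(g : ℤ)) z + τ • e)).2 - z.2| ≤ 3 / 2 ∧
        ∀ s : ℤ, 0 - ((j ^ 2 : ℕ) : ℤ) < s → s ≤ 0 →
          |pot k (sp k g (sp k (-(g : ℤ)) z + τ • e)) s - pot k z s| ≤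
            13 * Mk k * Mk k ^ (-(9 / 10 * (((0 : ℤ) : ℝ) + 1 - s))) := by
  have hk : 0 ≤ k := nonneg_of_big hM
  have hM1 : (1 : ℝ) ≤ Mk k := le_trans (one_le_pow₀ (by norm_num)) hM
  have hM' : PLift ((2 : ℝ) ^ 1000 ≤ Mk k) := ⟨hM⟩
  clear hM
  have hM0 : (0 : ℝ) < Mk k := by linarith
  set M := Mk k with hMdef
  set u := sol (pot k z) (-(g : ℤ)) e.1 e.2 with hudef
  set y := sp k (-(g : ℤ)) z with hydef
  obtain ⟨m, rfl⟩ : ∃ m, j = m + 1 := ⟨j - 1, by omega⟩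
  have hm : 1000 ≤ m := by omega
  rw [Nat.add_sub_cancel] at hg
  have hg1 : 1 ≤ g := by rw [hg]; exact Nat.one_le_pow _ _ (by omega)
  have hu : IsSol (pot k z) u := sol_isSol _ _ _ _
  have hug : nu u (-(g : ℤ)) = 1 := by
    rw [hudef, nu_sol_self]
    rcases he with rfl | rfl <;> simp
  have hen : ‖e‖ = 1 := by
    rcases he with rfl | rfl <;> simp [Prod.norm_def]
  have hp : ∀ s, 0 < nu u s := hu.nu_pos (a := -(g : ℤ)) (by rw [hug]; exact one_pos)
  have hPl := pliss hM'.down (pot_bdd hk z) hu hp 0 g hreg (by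
    rw [zero_sub, hug, mul_one]; exact hbig)
  have hw : ∀ s, sol (pot k y) 0 e.1 e.2 s = u (s - g) := by
    intro s
    rw [hydef, pot_sp, sol_shift, zero_add, hudef, sub_eq_add_neg]
  have hwn : ∀ s, nu (sol (pot k y) 0 e.1 e.2) s = nu u (s - g) := by
    intro s
    unfold nu
    rw [hw, hw, show s + 1 - (g : ℤ) = s - g + 1 by ring]
  have hq : M ^ (-(19 / 20 * ((1 : ℕ) : ℝ))) ≤ 1 / 4 := by
    have h := big_rpow hM'.down (x := 19 / 20 * ((1 : ℕ) : ℝ)) 2 (by norm_num)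
    rw [Real.rpow_neg hM0.le, one_div]
    exact inv_anti₀ (by norm_num) (by linarith)
  have h0 : |u 0| ≤ nu u 0 / 4 := by
    have h1 := hPl 1 hg1
    have h2 := abs_succ_le_nu u (0 - ((1 : ℕ) : ℤ))
    rw [show (0 : ℤ) - ((1 : ℕ) : ℤ) + 1 = 0 by norm_num] at h2
    have h3 := mul_le_mul_of_nonneg_right hq (hp 0).le
    have h4 := le_trans h2 (le_trans h1 h3)
    linarith
  have hA : nu u 0 = |u 1| := by
    have hpos := hp 0
    have e0 : nu u 0 = max |u 0| |u 1| := by unfold nu; rw [zero_add]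
    rcases le_total |u 0| |u 1| with h | h
    · rw [e0, max_eq_right h]
    · exfalso
      have : nu u 0 = |u 0| := by rw [e0, max_eq_left h]
      linarith
  have hApos : 0 < |u 1| := hA ▸ hp 0
  rw [hA] at h0
  refine ⟨abs_pos.1 hApos, by linarith, fun τ hτ0 hτ => ?_⟩
  set y' := y + τ • e with hy'
  have hz : ∀ s, orb k z s = orb k y (s + g) := by
    intro s
    rw [hydef, orb_sp]; congr 1; ring
  have hwg : nu (sol (pot k y) 0 e.1 e.2) g = |u 1| := by rw [hwn, sub_self, hA]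
  have hP' : ∀ l : ℕ, l ≤ g → nu (sol (pot k y) 0 e.1 e.2) ((g : ℤ) - l) ≤
      M ^ (-(19 / 20 * (l : ℝ))) * nu (sol (pot k y) 0 e.1 e.2) g := by
    intro l hl
    rw [hwg, hwn, ← hA, show (g : ℤ) - l - g = 0 - l by ring]
    exact hPl l hl
  have hD := orb_dist hM'.down y e g τ hP' (by rw [hwg, abs_of_nonneg hτ0]; exact hτ)
  rw [hwg, abs_of_nonneg hτ0] at hD
  rw [hwg] at hP'
  have hD0 := hD 0 (Nat.zero_le _)
  have ha := le_trans (abs_le_nu _ _) hD0
  have hb := le_trans (abs_succ_le_nu _ _) hD0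
  simp only [Nat.cast_zero, sub_zero, mul_zero, neg_zero, Real.rpow_zero, one_mul] at ha hb
  rw [hw, sub_self] at ha
  rw [hw, show (g : ℤ) + 1 - g = 1 by ring] at hb
  have e1 : (sp k g y').1 - z.1 = orb k y' g - orb k y g := by
    rw [← orb_zero k z, hz, zero_add]; rfl
  have e2 : (sp k g y').2 - z.2 = orb k y' (g + 1) - orb k y (g + 1) := by
    rw [← orb_one k z, hz, add_comm (1 : ℤ)]; rfl
  rw [e1, e2]
  have hτu0 : |τ * u 0| ≤ τ * |u 1| / 4 := by
    rw [abs_mul, abs_of_nonneg hτ0]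
    have := mul_le_mul_of_nonneg_left h0 hτ0
    linarith
  have hτu1 : |τ * u 1| = τ * |u 1| := by rw [abs_mul, abs_of_nonneg hτ0]
  have t1 := abs_sub_abs_le_abs_sub (orb k y' g - orb k y g) (τ * u 0)
  have t2 := abs_sub_abs_le_abs_sub (orb k y' (g + 1) - orb k y (g + 1)) (τ * u 1)
  have t3 := abs_sub_abs_le_abs_sub (τ * u 1) (orb k y' (g + 1) - orb k y (g + 1))
  rw [abs_sub_comm (τ * u 1)] at t3
  have hτA : 0 ≤ τ * |u 1| := mul_nonneg hτ0 hApos.le
  refine ⟨by linarith, by linarith, fun s hs1 hs2 => ?_⟩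
  have e3 : pot k (sp k g y') s - pot k z s =
      vee k (orb k y' (s + g)) - vee k (orb k y (s + g)) := by
    unfold pot
    rw [orb_sp, hz]
  rw [e3]
  refine le_trans (vee_lip hk _ _) ?_
  have hδ : |orb k y' (s + g) - orb k y (s + g)| ≤
      13 / 7 * M ^ (-(9 / 10 * (((0 : ℤ) : ℝ) + 1 - s))) := by
    have hXpos : 0 < M ^ (-(9 / 10 * (((0 : ℤ) : ℝ) + 1 - s))) := Real.rpow_pos_of_pos hM0 _
    by_cases hs : -(g : ℤ) < s
    · obtain ⟨l, hl⟩ : ∃ l : ℕ, (l : ℤ) = 1 - s := ⟨(1 - s).toNat, Int.toNat_of_nonneg (by omega)⟩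
      have hlR : (l : ℝ) = 1 - s := by exact_mod_cast hl
      have h1 := le_trans (abs_succ_le_nu _ _) (hD l (by omega))
      have h2 := le_trans (abs_succ_le_nu _ _) (hP' l (by omega))
      rw [show (g : ℤ) - l + 1 = s + g by omega] at h1 h2
      have h3 : M ^ (-(19 / 20 * (l : ℝ))) ≤ M ^ (-(9 / 10 * (((0 : ℤ) : ℝ) + 1 - s))) := by
        apply Real.rpow_le_rpow_of_exponent_le hM1
        have : (0 : ℝ) ≤ l := Nat.cast_nonneg l
        push_cast
        linarith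
      set X := M ^ (-(19 / 20 * (l : ℝ))) with hX
      have hX0 : 0 < X := Real.rpow_pos_of_pos hM0 _
      have h4 := abs_sub_abs_le_abs_sub (orb k y' (s + g) - orb k y (s + g))
        (τ * sol (pot k y) 0 e.1 e.2 (s + g))
      rw [abs_mul, abs_of_nonneg hτ0] at h4
      have h5 := mul_le_mul_of_nonneg_left h2 hτ0
      have h6 : τ * (X * |u 1|) ≤ X := by
        have := mul_le_mul_of_nonneg_left hτ hX0.le
        linarith
      linarith
    · obtain ⟨i, hi⟩ : ∃ i : ℕ, (i : ℤ) = -(g : ℤ) - s :=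
        ⟨(-(g : ℤ) - s).toNat, Int.toNat_of_nonneg (by omega)⟩
      have hiR : (i : ℝ) = -(g : ℝ) - s := by exact_mod_cast hi
      have h1 := le_trans (abs_le_nu _ _) (orb_back hk y y' i)
      rw [show -(i : ℤ) = s + g by omega, hy', add_sub_cancel_left, norm_smul, hen, mul_one,
        Real.norm_eq_abs, abs_of_nonneg hτ0] at h1
      have h2 := hPl g le_rfl
      rw [zero_sub, hug, hA] at h2
      set X := M ^ (-(19 / 20 * (g : ℝ))) with hX
      have hX0 : 0 < X := Real.rpow_pos_of_pos hM0 _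
      have h3 : τ ≤ X := by
        have a1 := mul_le_mul_of_nonneg_left h2 hτ0
        have a2 := mul_le_mul_of_nonneg_left hτ hX0.le
        linarith
      have h4 : M ^ i * X ≤ M ^ (-(9 / 10 * (((0 : ℤ) : ℝ) + 1 - s))) := by
        rw [hX, ← Real.rpow_natCast, ← Real.rpow_add hM0]
        apply Real.rpow_le_rpow_of_exponent_le hM1
        have hi2 : (i : ℤ) ≤ 2 * m := by
          have : (((m + 1) ^ 2 : ℕ) : ℤ) = (g : ℤ) + 2 * m + 1 := by rw [hg]; push_cast; ring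
          omega
        have hi3 : (i : ℝ) ≤ 2 * m := by exact_mod_cast hi2
        have hmR : (1000 : ℝ) ≤ m := by exact_mod_cast hm
        have hgR : (g : ℝ) = (m : ℝ) ^ 2 := by rw [hg]; push_cast; ring
        have : 1000 * (m : ℝ) ≤ g := by
          rw [hgR, sq]
          exact mul_le_mul_of_nonneg_right hmR (Nat.cast_nonneg m)
        push_cast
        linarith
      have h5 : M ^ i * τ ≤ M ^ i * X := mul_le_mul_of_nonneg_left h3 (pow_nonneg hM0.le i)
      linarith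
  have := mul_le_mul_of_nonneg_left hδ (by linarith : (0 : ℝ) ≤ 7 * M)
  linarith

end Crest.Agent.R128
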