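import Crest.Agent.R128.Pert
import Crest.Agent.R128.UGeom

/-! The unstable curve through a point whose past is regular up to the scale `(j-1)²`. -/

set_option autoImplicit false

noncomputable section

open MeasureTheory Set

namespace Crest.Agent.R128

theorem ucurve_refl (M : ℝ) (v : ℤ → ℝ) (l : ℕ) :
    dfc M (refl v) 0 (l : ℤ) = dfc M v (0 - (l : ℤ)) 0 := by
  rw [dfc_refl, neg_zero, zero_sub]

theorem ucurve_reg {M η κ : ℝ} (hη0 : 0 ≤ η) (hηκ : η ≤ κ)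
    (hκ : κ ≤ 1 / 400) {js j : ℕ} (hjs : 1000 ≤ js) (hj : js < j) {v : ℤ → ℝ}
    (hv : Bdd M v) (h : refl v ∈ Rj M η κ js j) :
    ∀ l : ℕ, l ≤ (j - 1) ^ 2 → dfc M v (0 - l) 0 ≤ l / 200 := by
  intro l hl
  have h1 := reg_squares (J := j - 1) hv.refl hη0 (by linarith) hηκ (by omega : 3 ≤ js) h.1
    (fun i hi hi' => h.2.1 i hi (by omega)) l hl
  rw [ucurve_refl] at h1
  have h2 : (0 : ℝ) ≤ l := Nat.cast_nonneg l
  nlinarith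

/-- A small perturbation of the past keeps the relaxed irregularity pattern.  `reg_squares` for `refl v`
(with `J = j - 1`) and `dfc_refl` give `dfc v (-l) 0 ≤ 2κ l ≤ l/200` for `l ≤ g = (j-1)²`.
`nrm_pert` from `v` to `v'` (`G = g`): `dfc v' (-l) 0 ≤ dfc v (-l) 0 + logb M 8` for `l ≤ g`.
So `v'` is `1/50`-regular up to `j²` (`dfc_ext_left`, `2(2j-1) ≤ g/200`), and `nrm_pert` from `v'` to `v`
(`G = j²`) gives `dfc v (-j²) 0 ≤ dfc v' (-j²) 0 + 1`. -/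
theorem Rt_of_pert {M η κ : ℝ} (hM : (2 : ℝ) ^ 1000 ≤ M) (hη0 : 0 ≤ η) (hηκ : η ≤ κ)
    (hκ : κ ≤ 1 / 400) {js j : ℕ} (hjs : 1000 ≤ js) (hj : js < j) {v v' : ℤ → ℝ}
    (hv : Bdd M v) (hv' : Bdd M v') (h : refl v ∈ Rj M η κ js j)
    (hd : ∀ s : ℤ, 0 - ((j ^ 2 : ℕ) : ℤ) < s → s ≤ 0 →
      |v' s - v s| ≤ 13 * M * M ^ (-(9 / 10 * (((0 : ℤ) : ℝ) + 1 - s)))) :
    refl v' ∈ Rt M κ js j := by
  have hM1 : 1 < M := lt_of_lt_of_le one_lt_two hv.two_le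
  have h8 := big_logb hM
  have hreg := ucurve_reg hη0 hηκ hκ hjs hj hv h
  obtain ⟨i0, rfl⟩ : ∃ i0, j = i0 + 1 := ⟨j - 1, by omega⟩
  simp only [Nat.add_sub_cancel] at hreg
  have hi0 : 1000 ≤ i0 := by omega
  have hsq : i0 ^ 2 ≤ (i0 + 1) ^ 2 := Nat.pow_le_pow_left (by omega) 2
  have h1 := nrm_pert hM hv (v' := v') 0 (i0 ^ 2)
    (fun l _ hl => (hreg l hl).trans (by have : (0 : ℝ) ≤ l := Nat.cast_nonneg l; linarith))
    (fun s hs hs' => hd s (by omega) hs')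
  have h2 : ∀ l : ℕ, l ≤ i0 ^ 2 → dfc M v' (0 - l) 0 ≤ dfc M v (0 - l) 0 + 3 / 1000 :=
    fun l hl => by
      have := dfc_le_of_nrm_le hM1 (by norm_num) (h1 l hl)
      linarith
  have hreg' : ∀ l : ℕ, 1 ≤ l → l ≤ (i0 + 1) ^ 2 → dfc M v' (0 - l) 0 ≤ l / 50 := by
    intro l hl1 hl
    have hl1' : (1 : ℝ) ≤ l := by exact_mod_cast hl1
    rcases le_total l (i0 ^ 2) with hle | hle
    · have := h2 l hle
      have := hreg l hle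
      linarith
    · have h3 := h2 _ le_rfl
      have h4 := hreg _ le_rfl
      have h5 := dfc_ext_left hv' 0 (a' := 0 - (l : ℤ)) (a := 0 - ((i0 ^ 2 : ℕ) : ℤ)) (by omega)
      have h6 : (l : ℝ) ≤ ((i0 : ℝ) + 1) ^ 2 := by exact_mod_cast hl
      have h7 : (i0 : ℝ) ^ 2 ≤ l := by exact_mod_cast hle
      have h9 : (1000 : ℝ) ≤ i0 := by exact_mod_cast hi0
      push_cast at h3 h4 h5 ⊢
      nlinarith
  have h3 := nrm_pert hM hv' (v' := v) 0 ((i0 + 1) ^ 2) hreg'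
    (fun s hs hs' => by rw [abs_sub_comm]; exact hd s hs hs') _ le_rfl
  have h4 := dfc_le_of_nrm_le hM1 (by norm_num) h3
  refine ⟨fun i hi hi' => ?_, ?_⟩
  · have h5 := h.2.1 i hi hi'
    rw [ucurve_refl] at h5 ⊢
    have := h2 (i ^ 2) (Nat.pow_le_pow_left (by omega) 2)
    linarith
  · have h5 := h.2.2
    rw [ucurve_refl] at h5 ⊢
    linarith

/-- `ucurve_geom` and `Rt_of_pert` together (`reg_squares` supplies `hreg`). -/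
theorem ucurve {k η κ : ℝ} (hM : (2 : ℝ) ^ 1000 ≤ Mk k) (hη0 : 0 ≤ η) (hηκ : η ≤ κ)
    (hκ : κ ≤ 1 / 400) {js j : ℕ} (hjs : 1000 ≤ js) (hj : js < j) (z e : ℝ × ℝ)
    (he : e = (1, 0) ∨ e = (0, 1)) (g : ℕ) (hg : g = (j - 1) ^ 2)
    (hz : refl (pot k z) ∈ Rj (Mk k) η κ js j)
    (hbig : nrm (pot k z) (-(g : ℤ)) 0 ≤ 4 * nu (sol (pot k z) (-(g : ℤ)) e.1 e.2) 0) :
    sol (pot k z) (-(g : ℤ)) e.1 e.2 1 ≠ 0 ∧
    |sol (pot k z) (-(g : ℤ)) e.1 e.2 0| ≤ |sol (pot k z) (-(g : ℤ)) e.1 e.2 1| / 2 ∧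
    ∀ τ : ℝ, 0 ≤ τ → τ * |sol (pot k z) (-(g : ℤ)) e.1 e.2 1| ≤ 1 →
      |(sp k g (sp k (-(g : ℤ)) z + τ • e)).1 - z.1| ≤
          |(sp k g (sp k (-(g : ℤ)) z + τ • e)).2 - z.2| / 2 ∧
        |(sp k g (sp k (-(g : ℤ)) z + τ • e)).2 - z.2| ≤ 3 / 2 ∧
        refl (pot k (sp k g (sp k (-(g : ℤ)) z + τ • e))) ∈ Rt (Mk k) κ js j := by
  have hk := nonneg_of_big hM
  have hreg := ucurve_reg hη0 hηκ hκ hjs hj (pot_bdd hk z) hz
  obtain ⟨h1, h2, h3⟩ := ucurve_geom hM (by omega : 1000 < j) z e he g hg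
    (fun l _ hl => (hreg l (hg ▸ hl)).trans
      (by have : (0 : ℝ) ≤ l := Nat.cast_nonneg l; linarith)) hbig
  refine ⟨h1, h2, fun τ hτ hτ' => ?_⟩
  obtain ⟨h4, h5, h6⟩ := h3 τ hτ hτ'
  exact ⟨h4, h5, Rt_of_pert hM hη0 hηκ hκ hjs hj (pot_bdd hk z) (pot_bdd hk _) hz h6⟩

end Crest.Agent.R128
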